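import Mathlib
import Vale.Agent.P333.NPDefs

/-!
Definitions for the statement: Uniform Sparsest Cut, graphs as adjacency matrices, approximation
algorithms.
-/

namespace Vale.Agent.P318

open Finset Vale.Agent.P333

/-- The ratio of the cut `S`, for the capacities `c`. -/
noncomputable def ratio {N : ℕ} (c : Fin N → Fin N → ℝ) (S : Finset (Fin N)) : ℝ :=
  (∑ i ∈ S, ∑ j ∈ Sᶜ, c i j) / ((S.card : ℝ) * (N - S.card))

/-- The value of the instance `c` of Uniform Sparsest Cut: the least ratio of a nonempty proper
subset. -/
noncomputable def Phi {N : ℕ} (c : Fin N → Fin N → ℝ) : ℝ :=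
  sInf {r : ℝ | ∃ S : Finset (Fin N), S.Nonempty ∧ S ≠ univ ∧ r = ratio c S}

/-- The entry `i, j` of a matrix of bits given by the list of its rows. -/
def adj (A : List (List Bool)) (i j : ℕ) : Bool := (A.getD i []).getD j false

/-- `A` is the adjacency matrix of a simple graph with at least two vertices. -/
def IsGraph (A : List (List Bool)) : Prop :=
  2 ≤ A.length ∧ (∀ r ∈ A, r.length = A.length) ∧ (∀ i j, adj A i j = adj A j i) ∧
    ∀ i, adj A i i = false

/-- The capacities (0 or 1) of the unweighted graph with adjacency matrix `A`. -/
def capU (A : List (List Bool)) (i j : Fin A.length) : ℝ := if adj A i j = true then 1 else 0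

/-- The code of an adjacency matrix. -/
def graphW (A : List (List Bool)) : List Bool := listW (listW fun b => [b]) A

/-- The code of a list of vertices. -/
def vertexW (l : List ℕ) : List Bool := listW Nat.bits l

/-- The set of vertices given by a list. -/
def toSet (N : ℕ) (l : List ℕ) : Finset (Fin N) := univ.filter fun i => (i : ℕ) ∈ l

/-- There is a polynomial time algorithm which finds, for every unweighted graph with `N`
vertices, a nonempty proper set of vertices whose ratio is at most `F N` times the least one. -/
def HasApprox (F : ℕ → ℝ) : Prop :=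
  ∃ alg : List (List Bool) → List ℕ, PolyTime graphW vertexW alg ∧
    ∀ A, IsGraph A → (toSet A.length (alg A)).Nonempty ∧ toSet A.length (alg A) ≠ univ ∧
      ratio (capU A) (toSet A.length (alg A)) ≤ F A.length * Phi (capU A)

end Vale.Agent.P318
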