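import Vale.Agent.P318.NPH.Graph
import Vale.Agent.P318.NPH.Stmt

/-!
From weighted to unweighted graphs.
-/

namespace Vale.Agent.P318.NPH

open Finset Vale.Agent.P333

/-! ### Cuts of matrices of bits -/

/-- The number of edges from the side `true` to the side `false`. -/
def cutU (A : List (List Bool)) (T : ℕ → Bool) : ℕ :=
  ∑ i ∈ range A.length, ∑ j ∈ range A.length,
    if T i = true ∧ T j = false ∧ adj A i j = true then 1 else 0

theorem card_eq_cntN {n : ℕ} (S : Finset (Fin n)) (T : ℕ → Bool)
    (hT : ∀ i : Fin n, T i = true ↔ i ∈ S) : S.card = cntN T 0 n := by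
  classical
  rw [cntN, Finset.sum_range, card_eq_sum_ones, ← Finset.sum_filter]
  refine sum_congr ?_ fun _ _ => rfl
  ext i
  simp [hT]

theorem ratio_eq (A : List (List Bool)) (S : Finset (Fin A.length)) (T : ℕ → Bool)
    (hT : ∀ i : Fin A.length, T i = true ↔ i ∈ S) :
    ratio (capU A) S = (cutU A T : ℝ) / ((cntN T 0 A.length : ℝ) *
      (A.length - cntN T 0 A.length)) := by
  classical
  rw [ratio, card_eq_cntN S T hT]
  congr 1
  rw [cutU]
  push_cast
  rw [Finset.sum_range]
  rw [← Finset.sum_filter_add_sum_filter_not univ (fun i : Fin A.length => i ∈ S)]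
  have h0 : ∑ i ∈ univ.filter (fun i : Fin A.length => i ∉ S), ∑ j ∈ range A.length,
      (if T i = true ∧ T j = false ∧ adj A i j = true then (1 : ℝ) else 0) = 0 := by
    apply sum_eq_zero
    intro i hi
    apply sum_eq_zero
    intro j _
    rw [if_neg]
    rintro ⟨h1, _⟩
    exact (mem_filter.1 hi).2 ((hT i).1 h1)
  rw [h0, add_zero]
  have h1 : univ.filter (fun i : Fin A.length => i ∈ S) = S := by ext i; simp
  rw [h1]
  refine sum_congr rfl fun i hi => ?_
  rw [Finset.sum_range]
  rw [← Finset.sum_filter_add_sum_filter_not univ (fun j : Fin A.length => j ∈ Sᶜ)]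
  have h2 : ∑ j ∈ univ.filter (fun j : Fin A.length => j ∉ Sᶜ),
      (if T i = true ∧ T j = false ∧ adj A i j = true then (1 : ℝ) else 0) = 0 := by
    apply sum_eq_zero
    intro j hj
    rw [if_neg]
    rintro ⟨_, h3, _⟩
    have h4 := (mem_filter.1 hj).2
    rw [mem_compl, not_not] at h4
    rw [(hT j).2 h4] at h3
    exact Bool.noConfusion h3
  rw [h2, add_zero]
  have h3 : univ.filter (fun j : Fin A.length => j ∈ Sᶜ) = Sᶜ := by ext j; simp
  rw [h3]
  refine sum_congr rfl fun j hj => ?_
  rw [capU]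
  have h4 : T j = false := by
    rw [mem_compl] at hj
    by_contra h
    exact hj ((hT j).1 (by simpa using h))
  by_cases h5 : adj A i j = true
  · rw [if_pos h5, if_pos ⟨(hT i).2 hi, h4, h5⟩]
  · rw [if_neg h5, if_neg fun h => h5 h.2.2]

/-! ### The blow-up -/

section

variable {N R : ℕ} {E : List (ℕ × ℕ × ℕ)}

theorem blowMat_length' : (blowMat N R E).length = N * R := by simp [blowMat]

theorem getD_map_range {β : Type*} (f : ℕ → β) (n i : ℕ) (d : β) :
    ((List.range n).map f).getD i d = if i < n then f i else d := by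
  split_ifs with h
  · rw [List.getD_eq_getElem?_getD, List.getElem?_map, List.getElem?_range h]
    rfl
  · rw [List.getD_eq_default]
    simpa using h

theorem adj_blowMat (i j : ℕ) : adj (blowMat N R E) i j =
    (decide (i < N * R) && decide (j < N * R) && blowAdj N E i j) := by
  rw [adj, blowMat, getD_map_range]
  by_cases hi : i < N * R
  · rw [if_pos hi, getD_map_range]
    by_cases hj : j < N * R
    · rw [if_pos hj]
      simp [hi, hj]
    · rw [if_neg hj]
      simp [hj]
  · rw [if_neg hi]
    simp [hi]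

theorem capE_comm (i j : ℕ) : capE E i j = capE E j i := by
  rw [capE, capE]
  congr 1
  refine List.map_congr_left fun e _ => ?_
  refine if_congr or_comm rfl rfl

theorem blowAdj_comm (i j : ℕ) : blowAdj N E i j = blowAdj N E j i := by
  rw [blowAdj, blowAdj]
  by_cases h : i % N = j % N
  · rw [if_pos h, if_pos h.symm]
    simp [ne_comm]
  · rw [if_neg h, if_neg (Ne.symm h), capE_comm]
    by_cases h' : i / N = j / N
    · rw [h']
    · simp [h', Ne.symm h']

theorem isGraph_blowMat (hN : 2 ≤ N) (hR : 1 ≤ R) : IsGraph (blowMat N R E) := by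
  refine ⟨?_, ?_, ?_, ?_⟩
  · rw [blowMat_length']
    nlinarith
  · intro r hr
    rw [blowMat_length']
    obtain ⟨x, _, rfl⟩ := List.mem_map.1 hr
    simp
  · intro i j
    rw [adj_blowMat, adj_blowMat, blowAdj_comm i j, Bool.and_comm (decide (i < N * R))]
  · intro i
    rw [adj_blowMat, blowAdj]
    simp

theorem sum_range_mul' {β : Type*} [AddCommMonoid β] (N R : ℕ) (f : ℕ → β) :
    ∑ x ∈ range (N * R), f x = ∑ i ∈ range R, ∑ u ∈ range N, f (u + N * i) := by
  induction R with
  | zero => simp
  | succ R ih =>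
    rw [mul_add, mul_one, sum_range_add, ih, sum_range_succ]
    congr 1
    exact sum_congr rfl fun u _ => by rw [add_comm]

/-- Number of copies of `u` on the side `true`. -/
def xc (N R : ℕ) (T : ℕ → Bool) (u : ℕ) : ℕ :=
  ∑ i ∈ range R, if T (u + N * i) = true then 1 else 0

theorem xc_le (T : ℕ → Bool) (u : ℕ) : xc N R T u ≤ R := by
  rw [xc]
  refine (sum_le_sum (g := fun _ => 1) fun i _ => ?_).trans ?_
  · split_ifs <;> omega
  · simp

theorem xc_not (T : ℕ → Bool) (u : ℕ) :
    (∑ i ∈ range R, if T (u + N * i) = false then 1 else 0) = R - xc N R T u := by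
  have : xc N R T u + (∑ i ∈ range R, if T (u + N * i) = false then 1 else 0) = R := by
    rw [xc, ← sum_add_distrib, sum_congr rfl (g := fun _ => 1)]
    · simp
    · intro i _
      cases T (u + N * i) <;> simp
  omega

theorem cntN_xc (T : ℕ → Bool) : cntN T 0 (N * R) = ∑ u ∈ range N, xc N R T u := by
  rw [cntN, sum_range_mul', sum_comm]
  simp only [zero_add, xc]

/-- The number of cut edges between the copies of `u` and those of `v`. -/
def ext (N R : ℕ) (E : List (ℕ × ℕ × ℕ)) (T : ℕ → Bool) (u v : ℕ) : ℕ :=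
  ∑ i ∈ range R, if T (u + N * i) = true ∧ T (v + N * i) = false ∧ i < capE E u v then 1 else 0

theorem cutU_blow (hN : 0 < N) (T : ℕ → Bool) : cutU (blowMat N R E) T =
    ∑ u ∈ range N, ∑ v ∈ range N,
      if u = v then xc N R T u * (R - xc N R T u) else ext N R E T u v := by
  rw [cutU, blowMat_length', sum_range_mul']
  have h1 : ∀ i ∈ range R, ∀ u ∈ range N,
      (∑ j ∈ range (N * R), if T (u + N * i) = true ∧ T j = false ∧
        adj (blowMat N R E) (u + N * i) j = true then 1 else 0) =
      ∑ v ∈ range N, if u = v then (∑ j ∈ range R, if T (u + N * i) = true ∧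
        T (u + N * j) = false then 1 else 0) else
        (if T (u + N * i) = true ∧ T (v + N * i) = false ∧ i < capE E u v then 1 else 0) := by
    intro i hi u hu
    rw [mem_range] at hi hu
    rw [sum_range_mul', sum_comm]
    refine sum_congr rfl fun v hv => ?_
    rw [mem_range] at hv
    have hlt : ∀ {w j : ℕ}, w < N → j < R → w + N * j < N * R := by
      intro w j hw hj
      calc w + N * j < N + N * j := by omega
        _ = N * (j + 1) := by ring
        _ ≤ N * R := Nat.mul_le_mul_left _ hj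
    have hmod : ∀ {w j : ℕ}, w < N → (w + N * j) % N = w := by
      intro w j hw
      rw [Nat.add_mul_mod_self_left, Nat.mod_eq_of_lt hw]
    have hdiv : ∀ {w j : ℕ}, w < N → (w + N * j) / N = j := by
      intro w j hw
      rw [Nat.add_mul_div_left _ _ hN, Nat.div_eq_of_lt hw, zero_add]
    have hadj : ∀ j ∈ range R, adj (blowMat N R E) (u + N * i) (v + N * j) =
        if u = v then decide (i ≠ j) else decide (i = j) && decide (i < capE E u v) := by
      intro j hj
      rw [mem_range] at hj
      rw [adj_blowMat, blowAdj, hmod hu, hmod hv, hdiv hu, hdiv hv]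
      simp only [hlt hu hi, hlt hv hj, decide_true, Bool.true_and]
      refine if_ctx_congr Iff.rfl (fun huv => ?_) fun _ => rfl
      subst huv
      have : u + N * i ≠ u + N * j ↔ i ≠ j := by
        rw [Ne, Ne, Nat.add_left_cancel_iff, Nat.mul_right_inj hN.ne']
      simp [this]
    by_cases huv : u = v
    · subst huv
      rw [if_pos rfl]
      refine sum_congr rfl fun j hj => ?_
      rw [hadj j hj, if_pos rfl]
      refine if_congr ⟨fun h => ⟨h.1, h.2.1⟩, fun h => ⟨h.1, h.2, ?_⟩⟩ rfl rfl
      rw [decide_eq_true_eq]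
      rintro rfl
      rw [h.1] at h
      exact Bool.noConfusion h.2
    · rw [if_neg huv, Finset.sum_eq_single i]
      · rw [hadj i (mem_range.2 hi), if_neg huv]
        simp
      · intro j hj hji
        rw [hadj j hj, if_neg huv]
        simp [Ne.symm hji]
      · intro h
        exact absurd (mem_range.2 hi) h
  rw [sum_congr rfl fun i hi => sum_congr rfl fun u hu => h1 i hi u hu, sum_comm]
  refine sum_congr rfl fun u _ => ?_
  rw [sum_comm]
  refine sum_congr rfl fun v _ => ?_
  by_cases huv : u = v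
  · subst huv
    simp only [if_true]
    rw [← xc_not, xc, sum_mul_sum]
    refine sum_congr rfl fun i _ => sum_congr rfl fun j _ => ?_
    cases T (u + N * i) <;> cases T (u + N * j) <;> simp
  · simp only [if_neg huv]
    rfl

/-- The capacity of a cut as a sum over pairs of vertices. -/
theorem cutE_eq (hE : ∀ e ∈ E, e.1 < N ∧ e.2.1 < N ∧ e.1 ≠ e.2.1) (S : ℕ → Bool) :
    cutE E S = ∑ u ∈ range N, ∑ v ∈ range N,
      if S u = true ∧ S v = false then capE E u v else 0 := by
  induction E with
  | nil => simp [cutE, capE]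
  | cons e E ih =>
    have ih' := ih fun e' he' => hE e' (List.mem_cons_of_mem _ he')
    obtain ⟨h1, h2, h3⟩ := hE e List.mem_cons_self
    have h4 : cutE (e :: E) S = (if S e.1 = S e.2.1 then 0 else e.2.2) + cutE E S := by
      simp [cutE]
    have h5 : ∀ u v, capE (e :: E) u v =
        (if (e.1 = u ∧ e.2.1 = v) ∨ (e.1 = v ∧ e.2.1 = u) then e.2.2 else 0) + capE E u v := by
      intro u v
      simp [capE]
    rw [h4, ih']
    have h6 : ∀ u v, (if S u = true ∧ S v = false then capE (e :: E) u v else 0) =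
        (if S u = true ∧ S v = false then
          (if (e.1 = u ∧ e.2.1 = v) ∨ (e.1 = v ∧ e.2.1 = u) then e.2.2 else 0) else 0) +
        (if S u = true ∧ S v = false then capE E u v else 0) := by
      intro u v
      rw [h5]
      split_ifs <;> simp
    simp_rw [h6, sum_add_distrib]
    congr 1
    -- the single edge
    have key : ∀ a b : ℕ, a < N → b < N → S a = true → S b = false →
        (∀ u v, S u = true → S v = false → ((e.1 = u ∧ e.2.1 = v) ∨ (e.1 = v ∧ e.2.1 = u) ↔
          u = a ∧ v = b)) →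
        ∑ u ∈ range N, ∑ v ∈ range N, (if S u = true ∧ S v = false then
          (if (e.1 = u ∧ e.2.1 = v) ∨ (e.1 = v ∧ e.2.1 = u) then e.2.2 else 0) else 0) =
          e.2.2 := by
      intro a b ha hb hSa hSb hab
      rw [Finset.sum_eq_single a, Finset.sum_eq_single b]
      · rw [if_pos ⟨hSa, hSb⟩, if_pos ((hab a b hSa hSb).2 ⟨rfl, rfl⟩)]
      · intro v _ hv
        split_ifs with h7 h8
        · exact absurd ((hab a v h7.1 h7.2).1 h8).2 hv
        · rfl
        · rfl
      · intro h
        exact absurd (mem_range.2 hb) h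
      · intro u _ hu
        apply sum_eq_zero
        intro v _
        split_ifs with h7 h8
        · exact absurd ((hab u v h7.1 h7.2).1 h8).1 hu
        · rfl
        · rfl
      · intro h
        exact absurd (mem_range.2 ha) h
    cases hS1 : S e.1 <;> cases hS2 : S e.2.1
    · rw [if_pos rfl]
      symm
      apply sum_eq_zero
      intro u _
      apply sum_eq_zero
      intro v _
      split_ifs with h7 h8
      · rcases h8 with ⟨rfl, rfl⟩ | ⟨rfl, rfl⟩ <;> simp_all
      · rfl
      · rfl
    · rw [if_neg (by simp)]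
      symm
      apply key e.2.1 e.1 h2 h1 hS2 hS1
      intro u v hu hv
      constructor
      · rintro (⟨rfl, rfl⟩ | ⟨rfl, rfl⟩)
        · rw [hS1] at hu; exact Bool.noConfusion hu
        · exact ⟨rfl, rfl⟩
      · rintro ⟨rfl, rfl⟩
        exact Or.inr ⟨rfl, rfl⟩
    · rw [if_neg (by simp)]
      symm
      apply key e.1 e.2.1 h1 h2 hS1 hS2
      intro u v hu hv
      constructor
      · rintro (⟨rfl, rfl⟩ | ⟨rfl, rfl⟩)
        · exact ⟨rfl, rfl⟩
        · rw [hS2] at hu; exact Bool.noConfusion hu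
      · rintro ⟨rfl, rfl⟩
        exact Or.inl ⟨rfl, rfl⟩
    · rw [if_pos rfl]
      symm
      apply sum_eq_zero
      intro u _
      apply sum_eq_zero
      intro v _
      split_ifs with h7 h8
      · rcases h8 with ⟨rfl, rfl⟩ | ⟨rfl, rfl⟩ <;> simp_all
      · rfl
      · rfl

theorem capE_le (E : List (ℕ × ℕ × ℕ)) (u v : ℕ) : capE E u v ≤ (E.map fun e => e.2.2).sum := by
  rw [capE]
  apply List.sum_le_sum
  intro e _
  split_ifs <;> omega

theorem cutE_le_sum (E : List (ℕ × ℕ × ℕ)) (S : ℕ → Bool) :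
    cutE E S ≤ (E.map fun e => e.2.2).sum := by
  rw [cutE]
  apply List.sum_le_sum
  intro e _
  split_ifs <;> omega

theorem count_lt {c R : ℕ} (h : c ≤ R) : (∑ i ∈ range R, if i < c then 1 else 0) = c := by
  rw [← Finset.sum_filter, Finset.sum_const, smul_eq_mul, mul_one]
  have : (range R).filter (fun i => i < c) = range c := by
    ext i
    simp only [mem_filter, mem_range]
    omega
  rw [this, card_range]

theorem Phi_le {n : ℕ} (c : Fin n → Fin n → ℝ) (hc : ∀ i j, 0 ≤ c i j) (S : Finset (Fin n))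
    (h1 : S.Nonempty) (h2 : S ≠ univ) : Phi c ≤ ratio c S := by
  refine csInf_le ⟨0, ?_⟩ ⟨S, h1, h2, rfl⟩
  rintro _ ⟨S', _, _, rfl⟩
  rw [ratio]
  apply div_nonneg
  · exact sum_nonneg fun i _ => sum_nonneg fun j _ => hc i j
  · apply mul_nonneg (Nat.cast_nonneg _)
    rw [sub_nonneg]
    have := card_le_univ S'
    rw [Fintype.card_fin] at this
    exact_mod_cast this

theorem capU_nonneg (A : List (List Bool)) (i j : Fin A.length) : 0 ≤ capU A i j := by
  rw [capU]
  split_ifs <;> norm_num

theorem one_le_rN : 1 ≤ rN N E := by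
  rw [rN]
  have : 0 < 16 * (N + 1) * ((E.map fun e => e.2.2).sum + 1) := by positivity
  omega

theorem cap_le_rN : (E.map fun e => e.2.2).sum ≤ rN N E := by
  rw [rN]
  nlinarith [Nat.zero_le N, Nat.zero_le ((E.map fun e => e.2.2).sum),
    Nat.zero_le (N * (E.map fun e => e.2.2).sum)]

/-- The cut of the blow-up given by a cut of the graph. -/
theorem phi_blow_le (hN : 2 ≤ N) (hE : ∀ e ∈ E, e.1 < N ∧ e.2.1 < N ∧ e.1 ≠ e.2.1)
    (S : ℕ → Bool) (h1 : 0 < cntN S 0 N) (h0 : cntN S 0 N < N) (A B : ℕ) (hB : 0 < B)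
    (h : cutE E S * B ≤ A * (cntN S 0 N * (N - cntN S 0 N))) :
    Phi (capU (blowMat N (rN N E) E)) ≤ A / (B * (rN N E : ℝ) ^ 2) := by
  classical
  set R := rN N E with hR
  have hR1 : 1 ≤ R := one_le_rN
  let T : ℕ → Bool := fun x => S (x % N)
  let S' : Finset (Fin (blowMat N R E).length) := univ.filter fun i => T i = true
  have hT : ∀ i : Fin (blowMat N R E).length, T i = true ↔ i ∈ S' := by simp [S']
  have hN0 : 0 < N := by omega
  have hTu : ∀ u < N, ∀ i, T (u + N * i) = S u := by
    intro u hu i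
    show S ((u + N * i) % N) = S u
    rw [Nat.add_mul_mod_self_left, Nat.mod_eq_of_lt hu]
  have hx : ∀ u ∈ range N, xc N R T u = if S u = true then R else 0 := by
    intro u hu
    rw [mem_range] at hu
    rw [xc, sum_congr rfl fun i _ => by rw [hTu u hu i]]
    split_ifs <;> simp
  have hcnt : cntN T 0 (blowMat N R E).length = R * cntN S 0 N := by
    rw [blowMat_length', cntN_xc, sum_congr rfl hx, cntN, mul_sum]
    refine sum_congr rfl fun u _ => ?_
    rw [zero_add]
    split_ifs <;> simp
  have hcut : cutU (blowMat N R E) T = cutE E S := by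
    rw [cutU_blow hN0, cutE_eq hE]
    refine sum_congr rfl fun u hu => sum_congr rfl fun v hv => ?_
    by_cases huv : u = v
    · subst huv
      rw [if_pos rfl, hx u hu]
      cases S u <;> simp
    · rw [if_neg huv, ext]
      have : ∀ i ∈ range R, (if T (u + N * i) = true ∧ T (v + N * i) = false ∧ i < capE E u v
          then 1 else 0) = if S u = true ∧ S v = false then (if i < capE E u v then 1 else 0)
            else 0 := by
        intro i _
        rw [hTu u (mem_range.1 hu), hTu v (mem_range.1 hv)]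
        split_ifs <;> simp_all
      rw [sum_congr rfl this]
      split_ifs with h3
      · exact count_lt ((capE_le E u v).trans cap_le_rN)
      · simp
  have hcard : S'.card = R * cntN S 0 N := by rw [card_eq_cntN S' T hT, hcnt]
  refine (Phi_le _ (capU_nonneg _) S' ?_ ?_).trans ?_
  · rw [← card_pos, hcard]
    positivity
  · intro hu
    have h3 := congrArg Finset.card hu
    rw [hcard, card_univ, Fintype.card_fin, blowMat_length', mul_comm N] at h3
    have := Nat.eq_of_mul_eq_mul_left (by omega) h3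
    omega
  · rw [ratio_eq _ _ T hT, hcnt, hcut, blowMat_length']
    have hc1 : (0 : ℝ) < cntN S 0 N := by exact_mod_cast h1
    have hc0 : (0 : ℝ) < (N : ℝ) - cntN S 0 N := by
      rw [sub_pos]
      exact_mod_cast h0
    have hR0 : (0 : ℝ) < R := by exact_mod_cast hR1
    have hB0 : (0 : ℝ) < B := by exact_mod_cast hB
    have h' : (cutE E S : ℝ) * B ≤ A * (cntN S 0 N * (N - cntN S 0 N)) := by
      have := (Nat.cast_le (α := ℝ)).2 h
      push_cast [Nat.cast_sub h0.le] at this
      exact this
    push_cast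
    rw [div_le_div_iff₀ (by
      have : (R : ℝ) * cntN S 0 N * (N * R - R * cntN S 0 N) =
        R ^ 2 * (cntN S 0 N * (N - cntN S 0 N)) := by ring
      rw [this]
      positivity) (by positivity)]
    nlinarith [mul_le_mul_of_nonneg_right h' (sq_nonneg (R : ℝ))]

/-! ### The lower bound for all cuts of the blow-up -/

/-- The side of the majority of the copies of `u`. -/
def majS (N R : ℕ) (T : ℕ → Bool) (u : ℕ) : Bool := decide (R ≤ 2 * xc N R T u)

/-- The number of copies of `u` in the minority. -/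
def minN (N R : ℕ) (T : ℕ → Bool) (u : ℕ) : ℕ :=
  if R ≤ 2 * xc N R T u then R - xc N R T u else xc N R T u

theorem maj_int (T : ℕ → Bool) (u : ℕ) :
    R * minN N R T u ≤ 2 * (xc N R T u * (R - xc N R T u)) := by
  have := xc_le (N := N) (R := R) T u
  rw [minN]
  split_ifs with h3
  · calc R * (R - xc N R T u) ≤ (2 * xc N R T u) * (R - xc N R T u) := Nat.mul_le_mul_right _ h3
      _ = _ := by ring
  · calc R * xc N R T u ≤ (2 * (R - xc N R T u)) * xc N R T u :=
          Nat.mul_le_mul_right _ (by omega)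
      _ = _ := by ring

theorem maj_ext (T : ℕ → Bool) {u v : ℕ} (hcap : capE E u v ≤ R)
    (hu : majS N R T u = true) (hv : majS N R T v = false) :
    capE E u v ≤ ext N R E T u v + (minN N R T u + minN N R T v) := by
  have hmu : minN N R T u = ∑ i ∈ range R, if T (u + N * i) = false then 1 else 0 := by
    rw [xc_not]
    rw [majS, decide_eq_true_eq] at hu
    rw [minN, if_pos hu]
  have hmv : minN N R T v = ∑ i ∈ range R, if T (v + N * i) = true then 1 else 0 := by
    rw [majS, decide_eq_false_iff_not] at hv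
    rw [minN, if_neg hv]
    rfl
  rw [hmu, hmv, ext, ← sum_add_distrib, ← sum_add_distrib]
  refine (count_lt hcap).symm.le.trans ?_
  refine sum_le_sum fun i _ => ?_
  by_cases h : i < capE E u v
  · rw [if_pos h]
    cases h1 : T (u + N * i) <;> cases h2 : T (v + N * i) <;> simp [h]
  · rw [if_neg h]
    exact Nat.zero_le _

theorem maj_min (T S : ℕ → Bool) (m : ℕ → ℕ) :
    (∑ u ∈ range N, ∑ v ∈ range N, if S u = true ∧ S v = false then m u + m v else 0) ≤
      N * ∑ u ∈ range N, m u := by
  have h7 : ∀ u ∈ range N, ∀ v ∈ range N, (if S u = true ∧ S v = false then m u + m v else 0) ≤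
      (if S v = false then m u else 0) + (if S u = true then m v else 0) := by
    intro u _ v _
    cases S u <;> cases S v <;> simp
  refine (sum_le_sum fun u hu => sum_le_sum fun v hv => h7 u hu v hv).trans ?_
  simp_rw [sum_add_distrib]
  have h8 : ∑ u ∈ range N, ∑ v ∈ range N, (if S v = false then m u else 0) =
      (∑ v ∈ range N, if S v = false then 1 else 0) * ∑ u ∈ range N, m u := by
    rw [mul_sum]
    refine sum_congr rfl fun u _ => ?_
    rw [sum_mul]
    refine sum_congr rfl fun v _ => ?_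
    cases S v <;> simp
  have h9 : ∑ u ∈ range N, ∑ v ∈ range N, (if S u = true then m v else 0) =
      (∑ v ∈ range N, if S v = true then 1 else 0) * ∑ u ∈ range N, m u := by
    rw [mul_sum, sum_comm]
    refine sum_congr rfl fun v _ => ?_
    rw [sum_mul]
    refine sum_congr rfl fun u _ => ?_
    cases S u <;> simp
  rw [h8, h9, ← add_mul, ← sum_add_distrib]
  refine Nat.mul_le_mul_right _ (le_of_eq ?_)
  rw [sum_congr rfl (g := fun _ => 1)]
  · simp
  · intro v _
    cases S v <;> simp

theorem maj_cut (hN0 : 0 < N) (hE : ∀ e ∈ E, e.1 < N ∧ e.2.1 < N ∧ e.1 ≠ e.2.1)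
    (hcap : ∀ u v, capE E u v ≤ R) (T : ℕ → Bool) :
    2 * cutE E (majS N R T) + R * ∑ u ∈ range N, minN N R T u ≤
      2 * cutU (blowMat N R E) T + 2 * (N * ∑ u ∈ range N, minN N R T u) := by
  rw [cutU_blow hN0, cutE_eq hE]
  have h3 : ∀ u ∈ range N, 2 * (∑ v ∈ range N,
      if majS N R T u = true ∧ majS N R T v = false then capE E u v else 0) + R * minN N R T u ≤
      2 * (∑ v ∈ range N, if u = v then xc N R T u * (R - xc N R T u) else ext N R E T u v) +
      2 * (∑ v ∈ range N, if majS N R T u = true ∧ majS N R T v = false then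
        minN N R T u + minN N R T v else 0) := by
    intro u hu
    have h4 : R * minN N R T u = ∑ v ∈ range N, if u = v then R * minN N R T u else 0 := by
      rw [Finset.sum_ite_eq, if_pos hu]
    rw [h4, mul_sum, mul_sum, mul_sum, ← sum_add_distrib, ← sum_add_distrib]
    refine sum_le_sum fun v _ => ?_
    by_cases huv : u = v
    · subst huv
      have := maj_int (N := N) (R := R) T u
      have h5 : ¬ (majS N R T u = true ∧ majS N R T u = false) := by
        rintro ⟨h6, h7⟩
        rw [h6] at h7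
        exact Bool.noConfusion h7
      rw [if_neg h5, if_pos rfl, if_pos rfl, if_neg h5]
      omega
    · rw [if_neg huv, if_neg huv]
      by_cases h5 : majS N R T u = true ∧ majS N R T v = false
      · rw [if_pos h5, if_pos h5]
        have := maj_ext T (hcap u v) h5.1 h5.2
        omega
      · rw [if_neg h5, if_neg h5]
        omega
  have h6 := sum_le_sum h3
  rw [sum_add_distrib, sum_add_distrib, ← mul_sum, ← mul_sum, ← mul_sum, ← mul_sum] at h6
  refine h6.trans ?_
  exact Nat.add_le_add_left (Nat.mul_le_mul_left _ (maj_min T _ _)) _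

theorem maj_size (T : ℕ → Bool) : ∃ δ : ℝ, |δ| ≤ (∑ u ∈ range N, minN N R T u : ℕ) ∧
    (cntN T 0 (N * R) : ℝ) = R * cntN (majS N R T) 0 N + δ := by
  refine ⟨∑ u ∈ range N, if majS N R T u = true then -(minN N R T u : ℝ) else minN N R T u,
    ?_, ?_⟩
  · refine (abs_sum_le_sum_abs _ _).trans (le_of_eq ?_)
    push_cast
    refine sum_congr rfl fun u _ => ?_
    split_ifs
    · rw [abs_neg, abs_of_nonneg (Nat.cast_nonneg _)]
    · rw [abs_of_nonneg (Nat.cast_nonneg _)]
  · rw [cntN_xc, cntN]
    push_cast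
    rw [mul_sum, ← sum_add_distrib]
    refine sum_congr rfl fun u _ => ?_
    have hu := xc_le (N := N) (R := R) T u
    rw [zero_add]
    by_cases hS : R ≤ 2 * xc N R T u
    · have h3 : majS N R T u = true := by simp [majS, hS]
      have h4 : (minN N R T u : ℝ) = R - xc N R T u := by
        rw [minN, if_pos hS, Nat.cast_sub hu]
      rw [if_pos h3, if_pos h3, h4]
      ring
    · have h3 : ¬ majS N R T u = true := by simpa [majS] using hS
      have h4 : minN N R T u = xc N R T u := by rw [minN, if_neg hS]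
      rw [if_neg h3, if_neg h3, h4]
      simp

theorem A_le (hN : 2 ≤ N) (A B : ℕ)
    (h : ∀ S : ℕ → Bool, A * (cntN S 0 N * (N - cntN S 0 N)) ≤ B * cutE E S) :
    A ≤ B * (E.map fun e => e.2.2).sum := by
  have h3 := h fun v => decide (v = 0)
  have h4 : cntN (fun v => decide (v = 0)) 0 N = 1 := by
    rw [cntN, Finset.sum_eq_single 0]
    · simp
    · intro b _ hb
      simp [hb]
    · intro h5
      exact absurd (mem_range.2 (by omega)) h5
  rw [h4, one_mul] at h3
  calc A = A * 1 := (mul_one A).symm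
    _ ≤ A * (N - 1) := Nat.mul_le_mul_left _ (by omega)
    _ ≤ B * cutE E fun v => decide (v = 0) := h3
    _ ≤ B * (E.map fun e => e.2.2).sum := Nat.mul_le_mul_left _ (cutE_le_sum E _)

theorem real_sq (R N c δ m : ℝ) (hR : 0 ≤ R) (hc0 : 0 ≤ c) (hc1 : c ≤ N) (hδ : |δ| ≤ m) :
    (R * c + δ) * (N * R - (R * c + δ)) ≤ R ^ 2 * (c * (N - c)) + m * (N * R) := by
  have g1 : (R * c + δ) * (N * R - (R * c + δ)) =
      R ^ 2 * (c * (N - c)) + δ * ((N - c) * R - c * R) - δ ^ 2 := by ring
  have g3 : |(N - c) * R - c * R| ≤ N * R := by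
    have h1 : 0 ≤ c * R := mul_nonneg hc0 hR
    have h2 : 0 ≤ (N - c) * R := mul_nonneg (sub_nonneg.2 hc1) hR
    rw [abs_le]
    constructor <;> linarith
  have g2 : δ * ((N - c) * R - c * R) ≤ m * (N * R) := by
    calc δ * ((N - c) * R - c * R) ≤ |δ * ((N - c) * R - c * R)| := le_abs_self _
      _ = |δ| * |(N - c) * R - c * R| := abs_mul _ _
      _ ≤ m * (N * R) := mul_le_mul hδ g3 (abs_nonneg _) ((abs_nonneg _).trans hδ)
  rw [g1]
  have := sq_nonneg δ
  linarith

theorem real_fin (A B N W R c C C' δ m : ℝ) (hA : 0 ≤ A) (hB : 0 < B) (hN : 2 ≤ N) (hW : 0 ≤ W)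
    (hR : R = 16 * (N + 1) * (W + 1)) (hc0 : 0 ≤ c) (hc1 : c ≤ N) (hδ : |δ| ≤ m)
    (e1 : A * (c * (N - c)) ≤ B * C) (e2 : 2 * C + R * m ≤ 2 * C' + 2 * (N * m))
    (e3 : A ≤ B * W) :
    A * ((R * c + δ) * (N * R - (R * c + δ))) ≤ C' * (B * R ^ 2) := by
  have hNW : 0 ≤ W * N := mul_nonneg hW (by linarith)
  have hR1 : R = 16 * (W * N) + 16 * W + 16 * N + 16 := by rw [hR]; ring
  have hR0 : 0 < R := by rw [hR1]; linarith
  have hm0 : 0 ≤ m := (abs_nonneg _).trans hδ
  have f1 := real_sq R N c δ m hR0.le hc0 hc1 hδ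
  have f2 : A * (N * R) ≤ B * R ^ 2 * (R / 2 - N) := by
    have g1 : A * N ≤ B * R := by
      calc A * N ≤ (B * W) * N := mul_le_mul_of_nonneg_right e3 (by linarith)
        _ = B * (W * N) := by ring
        _ ≤ B * R := mul_le_mul_of_nonneg_left (by rw [hR1]; linarith) hB.le
    have g2 : 1 ≤ R / 2 - N := by rw [hR1]; linarith
    calc A * (N * R) = (A * N) * R := by ring
      _ ≤ (B * R) * R := mul_le_mul_of_nonneg_right g1 hR0.le
      _ = (B * R ^ 2) * 1 := by ring
      _ ≤ B * R ^ 2 * (R / 2 - N) := mul_le_mul_of_nonneg_left g2 (by positivity)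
  calc A * ((R * c + δ) * (N * R - (R * c + δ)))
      ≤ A * (R ^ 2 * (c * (N - c)) + m * (N * R)) := mul_le_mul_of_nonneg_left f1 hA
    _ = R ^ 2 * (A * (c * (N - c))) + m * (A * (N * R)) := by ring
    _ ≤ R ^ 2 * (B * C) + m * (B * R ^ 2 * (R / 2 - N)) :=
        add_le_add (mul_le_mul_of_nonneg_left e1 (by positivity))
          (mul_le_mul_of_nonneg_left f2 hm0)
    _ = B * R ^ 2 * ((2 * C + R * m - 2 * (N * m)) / 2) := by ring
    _ ≤ B * R ^ 2 * C' := mul_le_mul_of_nonneg_left (by linarith) (by positivity)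
    _ = C' * (B * R ^ 2) := by ring

/-- The lower bound for all cuts of the blow-up, in terms of functions to `Bool`. -/
theorem blow_ge_aux (hN : 2 ≤ N) (hE : ∀ e ∈ E, e.1 < N ∧ e.2.1 < N ∧ e.1 ≠ e.2.1)
    (A B : ℕ) (hB : 0 < B)
    (h : ∀ S : ℕ → Bool, A * (cntN S 0 N * (N - cntN S 0 N)) ≤ B * cutE E S)
    (T : ℕ → Bool) :
    (A : ℝ) * ((cntN T 0 (N * rN N E) : ℝ) * ((N * rN N E : ℕ) - cntN T 0 (N * rN N E))) ≤
      cutU (blowMat N (rN N E) E) T * (B * (rN N E : ℝ) ^ 2) := by
  obtain ⟨δ, hδ, hsz⟩ := maj_size (N := N) (R := rN N E) T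
  have hcut := maj_cut (by omega) hE (fun u v => (capE_le E u v).trans (cap_le_rN (N := N))) T
  have hA := A_le hN A B h
  have hS := h (majS N (rN N E) T)
  have hc1 : cntN (majS N (rN N E) T) 0 N ≤ N := cntN_le _ 0 N
  have e4 : ((rN N E : ℕ) : ℝ) = 16 * ((N : ℝ) + 1) * (((E.map fun e => e.2.2).sum : ℕ) + 1) := by
    have : rN N E = 16 * (N + 1) * ((E.map fun e => e.2.2).sum + 1) := rfl
    exact_mod_cast this
  have e1 : (A : ℝ) * (cntN (majS N (rN N E) T) 0 N * (N - cntN (majS N (rN N E) T) 0 N)) ≤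
      B * cutE E (majS N (rN N E) T) := by
    have := (Nat.cast_le (α := ℝ)).2 hS
    rw [Nat.cast_mul, Nat.cast_mul, Nat.cast_mul, Nat.cast_sub hc1] at this
    exact this
  have := real_fin A B N _ (rN N E) (cntN (majS N (rN N E) T) 0 N) _ (cutU (blowMat N (rN N E) E) T)
    δ _ (Nat.cast_nonneg _) (by exact_mod_cast hB) (by exact_mod_cast hN) (Nat.cast_nonneg _) e4
    (Nat.cast_nonneg _) (by exact_mod_cast hc1) hδ e1 (by exact_mod_cast hcut)
    (by exact_mod_cast hA)
  rw [hsz, Nat.cast_mul]
  exact this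

/-- The lower bound for all cuts of the blow-up. -/
theorem phi_blow_ge (hN : 2 ≤ N) (hE : ∀ e ∈ E, e.1 < N ∧ e.2.1 < N ∧ e.1 ≠ e.2.1)
    (A B : ℕ) (hB : 0 < B)
    (h : ∀ S : ℕ → Bool, A * (cntN S 0 N * (N - cntN S 0 N)) ≤ B * cutE E S) :
    (A : ℝ) / (B * (rN N E : ℝ) ^ 2) ≤ Phi (capU (blowMat N (rN N E) E)) := by
  classical
  have hR1 : 1 ≤ rN N E := one_le_rN
  rw [Phi]
  apply le_csInf
  · have hlen : 2 ≤ (blowMat N (rN N E) E).length := (isGraph_blowMat hN hR1).1
    refine ⟨_, {⟨0, by omega⟩}, by simp, ?_, rfl⟩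
    intro hu
    have := congrArg Finset.card hu
    rw [card_singleton, card_univ, Fintype.card_fin] at this
    omega
  rintro _ ⟨S', hne, hnu, rfl⟩
  let T : ℕ → Bool := fun x => if hx : x < (blowMat N (rN N E) E).length then
    decide (⟨x, hx⟩ ∈ S') else false
  have hT : ∀ i : Fin (blowMat N (rN N E) E).length, T i = true ↔ i ∈ S' := by
    intro i
    simp [T]
  rw [ratio_eq _ _ T hT]
  have hc := card_eq_cntN S' T hT
  have hcpos : 0 < S'.card := card_pos.2 hne
  have hclt : S'.card < (blowMat N (rN N E) E).length := by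
    have h1 := card_lt_card (Finset.ssubset_univ_iff.2 hnu)
    rw [card_univ, Fintype.card_fin] at h1
    exact h1
  rw [hc] at hcpos hclt
  rw [blowMat_length'] at hcpos hclt
  rw [blowMat_length']
  have hB0 : (0 : ℝ) < B := by exact_mod_cast hB
  have hR0 : (0 : ℝ) < rN N E := by exact_mod_cast hR1
  have hd1 : (0 : ℝ) < cntN T 0 (N * rN N E) := by exact_mod_cast hcpos
  have hd2 : (0 : ℝ) < ((N * rN N E : ℕ) : ℝ) - cntN T 0 (N * rN N E) := by
    rw [sub_pos]
    exact_mod_cast hclt
  rw [div_le_div_iff₀ (by positivity) (mul_pos hd1 hd2)]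
  exact blow_ge_aux hN hE A B hB h T

theorem blowMat_length : (blowMat N R E).length = N * R := blowMat_length'

end

end Vale.Agent.P318.NPH
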