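import Vale.Agent.P333.Model

/-!
The reduction, on natural numbers and lists (all of this has to be computable in polynomial time).
-/

namespace Vale.Agent.P318.NPH

open Vale.Agent.P333

/-! ### The field with `q = 2 ^ s` elements on the numbers below `q` -/

/-- Multiplication by `X` modulo `P`, `q ≤ P < 2 q`. -/
def xt (q P a : ℕ) : ℕ := if 2 * a < q then 2 * a else (2 * a) ^^^ P

/-- Multiplication modulo `P`. -/
def mulN (q P a b : ℕ) : ℕ := b.bits.foldr (fun t acc => (if t then a else 0) ^^^ xt q P acc) 0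

/-- No zero divisors modulo `P`. -/
def isFld (q P : ℕ) : Bool :=
  (List.range q).all fun a => (List.range q).all fun b =>
    decide (a = 0) || decide (b = 0) || !decide (mulN q P a b = 0)

/-- The least modulus. -/
def findP (q : ℕ) : ℕ := (((List.range q).map fun i => q + i).find? fun P => isFld q P).getD 0

/-! ### Points: numbers below `q ^ M`, with `M` digits in base `q` -/

/-- Multiplication of a point by the scalar `u`. -/
def smulN (q P M u h : ℕ) : ℕ :=
  ((List.range M).map fun j => mulN q P u (h / q ^ j % q) * q ^ j).sum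

/-- The point `y + u h + u² g`. -/
def ptN (q P M y h g u : ℕ) : ℕ := (y ^^^ smulN q P M u h) ^^^ smulN q P M (mulN q P u u) g

/-- The systematic point of the number `v`: its `m` digits in base `H`. -/
def sysN (q H m v : ℕ) : ℕ := ((List.range m).map fun j => (v / H ^ j % H) * q ^ j).sum

/-! ### Parameters, as functions of `T` (a constant) and `k` -/

/-- `H = 2 ^ r`. -/
def rOf (T k : ℕ) : ℕ := Nat.size k / T + 1

/-- Number of digits of the systematic points. -/
def mOf (T k : ℕ) : ℕ := k / rOf T k + 1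

/-- `q = 2 ^ s`. -/
def sOf (T k : ℕ) : ℕ := Nat.size (2 * mOf T k * 2 ^ rOf T k)

/-- The parameter `k`; `n` is a bound for the numbers of the variables. -/
def kOf (k0 n : ℕ) : ℕ := Nat.size n + k0

/-! ### Tests -/

/-- Positions of the main test number `t < Q ^ 3`, `Q = q ^ M`. -/
def mainPos (q P M t : ℕ) : List ℕ :=
  (List.range q).map fun u =>
    ptN q P M (t % q ^ M) (t / q ^ M % q ^ M) (t / q ^ M / q ^ M) u

/-- Positions of the test number `t < Q ^ 3` of an equation with systematic points `π`. -/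
def realPos (q P M : ℕ) (π : List ℕ) (t : ℕ) : List ℕ :=
  (List.range 4).flatMap fun j => (List.range (q - 1)).map fun u =>
    ptN q P M (π.getD j 0) ((t % q ^ M) ^^^ smulN q P M j (t / q ^ M / q ^ M))
      (t / q ^ M % q ^ M) (u + 1)

/-! ### Graphs: lists of edges with capacities -/

/-- The capacity of a cut. -/
def cutE (E : List (ℕ × ℕ × ℕ)) (S : ℕ → Bool) : ℕ :=
  (E.map fun e => if S e.1 = S e.2.1 then 0 else e.2.2).sum

/-- The gadget of a test with positions `ps`, required parity `b`, multiplicity `μ`, hubs `hs` and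
`ht`, auxiliary vertices `base, ..., base + w`, where `w` is the number of positions. -/
def gadget (hs ht μ b : ℕ) (ps : List ℕ) (base : ℕ) : List (ℕ × ℕ × ℕ) :=
  (List.range (ps.length + 1)).flatMap fun κ =>
    if (κ + b) % 2 = 1 then
      (base + κ, hs, μ * (ps.length - κ)) :: (base + κ, ht, μ * κ) ::
        ps.map fun p => (base + κ, p, μ)
    else [(base + κ, hs, μ * ps.length), (base + κ, ht, μ * ps.length)]

/-! ### The variables of a system -/

/-- The list of the variables. -/
def vars (I : List Eqn) : List ℕ := I.flatMap fun e => [e.1.1, e.1.2.1, e.1.2.2]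

/-- The number of a variable. -/
def vIdx (I : List Eqn) (v : ℕ) : ℕ := ((vars I).takeWhile fun w => !decide (w = v)).length

/-- The systematic points of an equation. -/
def eqPts (q H m : ℕ) (I : List Eqn) (e : Eqn) : List ℕ :=
  [sysN q H m (vIdx I e.1.1), sysN q H m (vIdx I e.1.2.1), sysN q H m (vIdx I e.1.2.2),
    sysN q H m (3 * I.length)]

/-! ### The numbers of the construction, as functions of `q`, `Q` and `l` (the number of
equations) -/

/-- Multiplicity of the main tests. -/
def muN (q l : ℕ) : ℕ := 8 * q * l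

/-- Arity of the tests of an equation. -/
def w2N (q : ℕ) : ℕ := 4 * (q - 1)

/-- The coefficient of `n₁ n₀`. -/
def bN (q Q l : ℕ) : ℕ := Q * (muN q l * (q * (q - 1)) + l * (w2N q * (w2N q - 1)))

/-- The capacity of the edges to the hubs. -/
def aN (q Q l : ℕ) : ℕ := 8 * bN q Q l * Q

/-- Number of auxiliary vertices. -/
def stN (q Q l : ℕ) : ℕ := Q ^ 3 * (q + 1) + l * Q ^ 3 * (w2N q + 1)

/-- Number of copies of each unit. -/
def lN (q Q l : ℕ) : ℕ := 10 ^ 4 * q ^ 3 * stN q Q l * aN q Q l

/-- Capacity of the heavy edges. -/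
def bigN (q Q l : ℕ) : ℕ := 4 * aN q Q l * Q

/-- Number of vertices. -/
def nN (q Q l : ℕ) : ℕ := 3 * Q * lN q Q l + stN q Q l

/-- The constant of a gadget (times two). -/
def dN (w b : ℕ) : ℕ := if b = 0 then 3 * w * w / 2 + 2 * w else 3 * w * w / 2 + w - 1

/-! ### The graph -/

/-- Edges inside the clusters: unit `u < 3 Q`, copies `u + 3 Q j`, `j < L`; the hubs are the units
`Q, ..., 2 Q - 1` and `2 Q, ..., 3 Q - 1`. -/
def clusterE (Q L big : ℕ) : List (ℕ × ℕ × ℕ) :=
  ((List.range (3 * Q)).flatMap fun u => (List.range (L - 1)).map fun j =>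
    (u, u + 3 * Q * (j + 1), big)) ++
  ((List.range (Q - 1)).map fun i => (Q, Q + (i + 1), big)) ++
  ((List.range (Q - 1)).map fun i => (2 * Q, 2 * Q + (i + 1), big))

/-- Edges from the points to the hubs. -/
def hubE (Q a : ℕ) : List (ℕ × ℕ × ℕ) :=
  (List.range Q).flatMap fun p => [(p, Q, a), (p, 2 * Q, a)]

/-- The gadgets of the main tests. -/
def mainE (q P M μ n0 : ℕ) : List (ℕ × ℕ × ℕ) :=
  (List.range ((q ^ M) ^ 3)).flatMap fun t =>
    gadget (q ^ M) (2 * q ^ M) μ 0 (mainPos q P M t) (n0 + t * (q + 1))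

/-- The gadgets of the tests of the equations. -/
def realE (q P M H m n1 : ℕ) (I : List Eqn) : List (ℕ × ℕ × ℕ) :=
  (List.range I.length).flatMap fun i => (List.range ((q ^ M) ^ 3)).flatMap fun t =>
    gadget (q ^ M) (2 * q ^ M) 1 (I.getD i ((0, 0, 0), false)).2.toNat
      (realPos q P M (eqPts q H m I (I.getD i ((0, 0, 0), false))) t)
      (n1 + (i * (q ^ M) ^ 3 + t) * (w2N q + 1))

/-- All edges, for given parameters. -/
def allE (q P M H m : ℕ) (I : List Eqn) : List (ℕ × ℕ × ℕ) :=
  let Q := q ^ M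
  let l := I.length
  let L := lN q Q l
  clusterE Q L (bigN q Q l) ++ hubE Q (aN q Q l) ++ mainE q P M (muN q l) (3 * Q * L) ++
    realE q P M H m (3 * Q * L + Q ^ 3 * (q + 1)) I

/-- `k` as a function of the system. -/
def kI (k0 : ℕ) (I : List Eqn) : ℕ := kOf k0 (3 * I.length + 1)

/-- `q` as a function of the system. -/
def qI (T k0 : ℕ) (I : List Eqn) : ℕ := 2 ^ sOf T (kI k0 I)

/-- `M` as a function of the system. -/
def MI (T k0 : ℕ) (I : List Eqn) : ℕ := mOf T (kI k0 I) + 1

/-- `Q` as a function of the system. -/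
def QI (T k0 : ℕ) (I : List Eqn) : ℕ := qI T k0 I ^ MI T k0 I

/-- The edges of the graph of a system. -/
def edgesI (T k0 : ℕ) (I : List Eqn) : List (ℕ × ℕ × ℕ) :=
  allE (qI T k0 I) (findP (qI T k0 I)) (MI T k0 I) (2 ^ rOf T (kI k0 I)) (mOf T (kI k0 I)) I

/-- The number of vertices of the graph of a system. -/
def vertsI (T k0 : ℕ) (I : List Eqn) : ℕ := nN (qI T k0 I) (QI T k0 I) I.length

/-- Sum of the constants of the gadgets. -/
def constN (q Q : ℕ) (I : List Eqn) : ℕ :=
  muN q I.length * Q ^ 3 * dN q 0 + Q ^ 3 * (I.map fun e => dN (w2N q) e.2.toNat).sum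

/-- Numerator of the threshold. -/
def numN (q Q : ℕ) (I : List Eqn) : ℕ :=
  16 * aN q Q I.length * Q + 2 * bN q Q I.length * Q ^ 2 + 8 * constN q Q I + I.length * Q ^ 3

/-- Denominator of the threshold. -/
def denN (q Q l : ℕ) : ℕ := 36 * Q ^ 2 * lN q Q l ^ 2

/-- Numerator of the threshold. -/
def numI (T k0 : ℕ) (I : List Eqn) : ℕ := numN (qI T k0 I) (QI T k0 I) I

/-- Denominator of the threshold. -/
def denI (T k0 : ℕ) (I : List Eqn) : ℕ := denN (qI T k0 I) (QI T k0 I) I.length

/-! ### Capacity matrices, unweighted graphs -/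

/-- The capacity of the pair `i, j`. -/
def capE (E : List (ℕ × ℕ × ℕ)) (i j : ℕ) : ℕ :=
  (E.map fun e => if (e.1 = i ∧ e.2.1 = j) ∨ (e.1 = j ∧ e.2.1 = i) then e.2.2 else 0).sum

/-- The adjacency matrix of the unweighted graph obtained from a weighted graph on `N` vertices:
every vertex `v` is replaced by a clique of vertices `v + N i`, and a pair of vertices with
capacity `c` by `c` disjoint edges. -/
def blowAdj (N : ℕ) (E : List (ℕ × ℕ × ℕ)) (x y : ℕ) : Bool :=
  if x % N = y % N then decide (x ≠ y)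
  else decide (x / N = y / N) && decide (x / N < capE E (x % N) (y % N))

/-- The adjacency matrix as a list of rows. -/
def blowMat (N R : ℕ) (E : List (ℕ × ℕ × ℕ)) : List (List Bool) :=
  (List.range (N * R)).map fun x => (List.range (N * R)).map fun y => blowAdj N E x y

/-- The number of copies in the unweighted graph. -/
def rN (N : ℕ) (E : List (ℕ × ℕ × ℕ)) : ℕ := 16 * (N + 1) * ((E.map fun e => e.2.2).sum + 1)

/-- The unweighted graph of a system. -/
def graphI (T k0 : ℕ) (I : List Eqn) : List (List Bool) :=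
  blowMat (vertsI T k0 I) (rN (vertsI T k0 I) (edgesI T k0 I)) (edgesI T k0 I)

end Vale.Agent.P318.NPH
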