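import Mathlib
import Vale.Agent.P318.NPH.Defs

/-!
Facts about the parameters.
-/

namespace Vale.Agent.P318.NPH

theorem one_le_rOf (T k : ℕ) : 1 ≤ rOf T k := Nat.le_add_left _ _

theorem one_le_mOf (T k : ℕ) : 1 ≤ mOf T k := Nat.le_add_left _ _

theorem le_rOf_mul_mOf (T k : ℕ) : k ≤ rOf T k * mOf T k := by
  have h1 := one_le_rOf T k
  have h2 := Nat.div_add_mod k (rOf T k)
  have h3 := Nat.mod_lt k (show 0 < rOf T k by omega)
  rw [mOf, mul_add, mul_one]
  omega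

theorem x_pos (T k : ℕ) : 4 ≤ 2 * mOf T k * 2 ^ rOf T k := by
  have h1 := one_le_mOf T k
  have h2 : 2 ^ 1 ≤ 2 ^ rOf T k := Nat.pow_le_pow_right (by norm_num) (one_le_rOf T k)
  nlinarith

theorem x_lt (T k : ℕ) : 2 * mOf T k * 2 ^ rOf T k < 2 ^ sOf T k := Nat.lt_size_self _

theorem four_le_q (T k : ℕ) : 4 ≤ 2 ^ sOf T k := (x_pos T k).trans (x_lt T k).le

theorem H_le_q (T k : ℕ) : 2 ^ rOf T k ≤ 2 ^ sOf T k := by
  have h1 := one_le_mOf T k
  have h2 := x_lt T k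
  have h3 : 0 < 2 ^ rOf T k := by positivity
  nlinarith

theorem deg_le_q (T k : ℕ) : 2 * mOf T k * (2 ^ rOf T k - 1) ≤ 2 ^ sOf T k - 2 := by
  have h1 := one_le_mOf T k
  have h2 := x_lt T k
  have h3 : 1 ≤ 2 ^ rOf T k := Nat.one_le_two_pow
  have h4 : 2 * mOf T k * (2 ^ rOf T k - 1) + 2 * mOf T k = 2 * mOf T k * 2 ^ rOf T k := by
    rw [Nat.mul_sub, mul_one]
    have : 2 * mOf T k ≤ 2 * mOf T k * 2 ^ rOf T k := Nat.le_mul_of_pos_right _ h3
    omega
  omega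

theorem one_le_sOf (T k : ℕ) : 1 ≤ sOf T k := by
  have h1 := four_le_q T k
  by_contra h
  have h2 : sOf T k = 0 := by omega
  rw [h2] at h1
  norm_num at h1

theorem two_pow_size_le {x : ℕ} (hx : 0 < x) : 2 ^ Nat.size x ≤ 2 * x := by
  have h1 : 0 < Nat.size x := Nat.size_pos.2 hx
  have h2 : Nat.size x - 1 < Nat.size x := by omega
  have h3 := Nat.lt_size.1 h2
  have h4 : 2 ^ Nat.size x = 2 * 2 ^ (Nat.size x - 1) := by
    rw [← pow_succ', Nat.sub_add_cancel h1]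
  omega

theorem q_le (T k : ℕ) : 2 ^ sOf T k ≤ 4 * mOf T k * 2 ^ rOf T k := by
  have h1 := two_pow_size_le (lt_of_lt_of_le (by norm_num) (x_pos T k))
  rw [sOf]
  calc _ ≤ _ := h1
    _ = _ := by ring

theorem size_le_self (k : ℕ) : Nat.size k ≤ k := by
  rw [Nat.size_le]
  exact Nat.lt_two_pow_self

theorem sOf_eq (T k : ℕ) : sOf T k = rOf T k + 1 + Nat.size (mOf T k) := by
  have h1 : 2 * mOf T k * 2 ^ rOf T k = mOf T k <<< (rOf T k + 1) := by
    rw [Nat.shiftLeft_eq, pow_succ]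
    ring
  have h0 : mOf T k ≠ 0 := by
    have := one_le_mOf T k
    omega
  rw [sOf, h1, Nat.size_shiftLeft h0, add_comm]

theorem size_succ_le (k : ℕ) : Nat.size (k + 1) ≤ Nat.size k + 1 := by
  rw [Nat.size_le, pow_succ]
  have := Nat.lt_size_self k
  omega

theorem sM_le (T k : ℕ) (hT : 1 ≤ T) (hk : 1 ≤ k) : sOf T k * (mOf T k + 1) ≤ 3 * (T + 3) * k := by
  rcases Nat.lt_or_ge 1 k with hk2 | hk2
  · have hs : sOf T k ≤ rOf T k + Nat.size k + 2 := by
      rw [sOf_eq]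
      have : Nat.size (mOf T k) ≤ Nat.size (k + 1) := Nat.size_le_size (by
        rw [mOf]
        have := Nat.div_le_self k (rOf T k)
        omega)
      have := size_succ_le k
      omega
    have hz : Nat.size k ≤ k := size_le_self k
    set z := Nat.size k with hzdef
    have hr : rOf T k = z / T + 1 := rfl
    have ha : z / T ≤ z := Nat.div_le_self _ _
    have hz2 : z + 1 ≤ T * (z / T + 1) := by
      have h1 := Nat.div_add_mod z T
      have h2 := Nat.mod_lt z (show 0 < T by omega)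
      rw [mul_add, mul_one]
      omega
    set a := z / T with hadef
    have hc : mOf T k = k / (a + 1) + 1 := by rw [mOf, hr]
    have hc2 : k / (a + 1) * (a + 1) ≤ k := Nat.div_mul_le_self _ _
    have hc3 : k / (a + 1) ≤ k := Nat.div_le_self _ _
    rw [hc]
    set c := k / (a + 1) with hcdef
    have h1 : (z + 1) * c ≤ T * k := by
      calc (z + 1) * c ≤ (T * (a + 1)) * c := Nat.mul_le_mul_right _ hz2
        _ = T * (c * (a + 1)) := by ring
        _ ≤ T * k := Nat.mul_le_mul_left _ hc2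
    calc sOf T k * (c + 1 + 1) ≤ (a + 3 + z) * (c + 2) := by
          apply Nat.mul_le_mul _ le_rfl
          omega
      _ = c * (a + 1) + (z + 1) * c + c + 2 * (a + 3 + z) := by ring
      _ ≤ k + T * k + k + 2 * (k + 3 + k) := by omega
      _ ≤ 3 * (T + 3) * k := by nlinarith
  · have hk1 : k = 1 := by omega
    subst hk1
    have h1 : Nat.size 1 = 1 := by norm_num
    rcases Nat.lt_or_ge 1 T with hT2 | hT2
    · have hr : rOf T 1 = 1 := by
        rw [rOf, h1, Nat.div_eq_of_lt hT2]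
      have hm : mOf T 1 = 2 := by rw [mOf, hr]
      have hs : sOf T 1 = 4 := by
        rw [sOf_eq, hr, hm]
        rfl
      rw [hm, hs]
      omega
    · have : T = 1 := by omega
      subst this
      decide

/-- The number of points is polynomially bounded in `2 ^ k`. -/
theorem Q_le (T k : ℕ) (hT : 1 ≤ T) (hk : 1 ≤ k) :
    (2 ^ sOf T k) ^ (mOf T k + 1) ≤ (2 ^ k) ^ (3 * (T + 3)) := by
  rw [← pow_mul, ← pow_mul, mul_comm k]
  exact Nat.pow_le_pow_right (by norm_num) (sM_le T k hT hk)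

theorem mOf_le (T k : ℕ) (hk : 1 ≤ k) : mOf T k ≤ 2 * k := by
  rw [mOf]
  have := Nat.div_le_self k (rOf T k)
  omega

open Filter in
/-- The size of the field. -/
theorem q_small (T : ℕ) (hT : 1 ≤ T) (ε : ℝ) (hε : 3 / T < ε) (C : ℝ) :
    ∃ k0 : ℕ, ∀ k ≥ k0, C * ((2 : ℝ) ^ sOf T k) ^ 3 ≤ (k * Real.log 2) ^ (3 + ε) := by
  have hT0 : (0 : ℝ) < T := by exact_mod_cast hT
  have hl : 0 < Real.log 2 := Real.log_pos (by norm_num)
  set D : ℝ := |C| * 4096 / Real.log 2 ^ 3 * (2 / Real.log 2) ^ (3 / T : ℝ) with hD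
  have h1 : Tendsto (fun k : ℕ => ((k : ℝ) * Real.log 2) ^ (ε - 3 / T)) atTop atTop :=
    (tendsto_rpow_atTop (by linarith)).comp (tendsto_natCast_atTop_atTop.atTop_mul_const hl)
  obtain ⟨k1, hk1⟩ := eventually_atTop.1 (h1.eventually_ge_atTop D)
  refine ⟨max k1 1, fun k hk => ?_⟩
  have hk1' := hk1 k ((le_max_left _ _).trans hk)
  have hk2 : 1 ≤ k := (le_max_right _ _).trans hk
  have hk0 : (0 : ℝ) < k := by exact_mod_cast hk2
  have hy : 0 < (k : ℝ) * Real.log 2 := by positivity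
  -- the bound for `q`
  have h2 : (2 : ℝ) ^ rOf T k ≤ 2 * (2 * k) ^ (1 / T : ℝ) := by
    rw [rOf, pow_succ, mul_comm]
    refine mul_le_mul_of_nonneg_left ?_ (by norm_num)
    have h3 : ((Nat.size k / T : ℕ) : ℝ) ≤ (Nat.size k : ℝ) / T := Nat.cast_div_le
    calc (2 : ℝ) ^ (Nat.size k / T) = (2 : ℝ) ^ ((Nat.size k / T : ℕ) : ℝ) := by
          rw [Real.rpow_natCast]
      _ ≤ (2 : ℝ) ^ ((Nat.size k : ℝ) / T) :=
          Real.rpow_le_rpow_of_exponent_le (by norm_num) h3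
      _ = ((2 : ℝ) ^ (Nat.size k : ℕ)) ^ (1 / T : ℝ) := by
          rw [← Real.rpow_natCast, ← Real.rpow_mul (by norm_num)]
          congr 1
          ring
      _ ≤ (2 * k) ^ (1 / T : ℝ) := by
          apply Real.rpow_le_rpow (by positivity) _ (by positivity)
          exact_mod_cast two_pow_size_le (by omega)
  have h4 : (2 : ℝ) ^ sOf T k ≤ 16 * k * (2 * k) ^ (1 / T : ℝ) := by
    have h5 : (2 : ℝ) ^ sOf T k ≤ 4 * mOf T k * 2 ^ rOf T k := by exact_mod_cast q_le T k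
    have h6 : (mOf T k : ℝ) ≤ 2 * k := by exact_mod_cast mOf_le T k hk2
    calc _ ≤ _ := h5
      _ ≤ 4 * (2 * k) * (2 * (2 * k) ^ (1 / T : ℝ)) := by gcongr
      _ = _ := by ring
  have h7 : ((2 : ℝ) ^ sOf T k) ^ 3 ≤ 4096 * k ^ 3 * (2 * k) ^ (3 / T : ℝ) := by
    have h8 : (((2 : ℝ) * k) ^ (1 / T : ℝ)) ^ 3 = (2 * k) ^ (3 / T : ℝ) := by
      rw [← Real.rpow_natCast, ← Real.rpow_mul (by positivity)]
      congr 1
      push_cast
      ring
    calc ((2 : ℝ) ^ sOf T k) ^ 3 ≤ (16 * k * (2 * k) ^ (1 / T : ℝ)) ^ 3 := by gcongr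
      _ = 4096 * k ^ 3 * (((2 : ℝ) * k) ^ (1 / T : ℝ)) ^ 3 := by ring
      _ = _ := by rw [h8]
  have h9 : ((2 : ℝ) * k) ^ (3 / T : ℝ) =
      (2 / Real.log 2) ^ (3 / T : ℝ) * (k * Real.log 2) ^ (3 / T : ℝ) := by
    rw [← Real.mul_rpow (by positivity) (by positivity)]
    congr 1
    field_simp
  calc C * ((2 : ℝ) ^ sOf T k) ^ 3 ≤ |C| * ((2 : ℝ) ^ sOf T k) ^ 3 :=
        mul_le_mul_of_nonneg_right (le_abs_self C) (by positivity)
    _ ≤ |C| * (4096 * k ^ 3 * (2 * k) ^ (3 / T : ℝ)) :=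
        mul_le_mul_of_nonneg_left h7 (abs_nonneg C)
    _ = D * ((k * Real.log 2) ^ 3 * (k * Real.log 2) ^ (3 / T : ℝ)) := by
        rw [h9, hD]
        field_simp
    _ ≤ (k * Real.log 2) ^ (ε - 3 / T) * ((k * Real.log 2) ^ 3 *
          (k * Real.log 2) ^ (3 / T : ℝ)) := mul_le_mul_of_nonneg_right hk1' (by positivity)
    _ = (k * Real.log 2) ^ (3 + ε) := by
        rw [← Real.rpow_natCast, ← Real.rpow_add hy, ← Real.rpow_add hy]
        congr 1
        push_cast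
        ring

end Vale.Agent.P318.NPH
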