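import Vale.Agent.P318.NPH.Defs
import Vale.Agent.P318.NPH.Params
import Vale.Agent.Lib.PolyTime.Bitwise
import Vale.Agent.Lib.PolyTime.Lists2
import Vale.Agent.Lib.PolyTime.Lists3
import Vale.Agent.Lib.PolyTime.Unary
import Vale.Agent.Lib.PolyTime.NatArith2

/-!
The reduction is computable in polynomial time.
-/

namespace Vale.Agent.P318.NPH

open Vale.Agent.P333 Vale.Agent.Lib.PolyTime

variable {A : Set Word} {α β γ : Type*} [Enc α] [Enc β] [Enc γ]

/-! ### General facts -/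

theorem PBd.fst {k : α → ℕ} (hk : PBd k) : PBd (fun p : α × β => k p.1) :=
  hk.comp (A := ∅) PT.fst'

theorem PBd.sub {k : α → ℕ} (hk : PBd k) (l : α → ℕ) : PBd (fun a => k a - l a) :=
  hk.mono fun _ => Nat.sub_le _ _

theorem PT_two_pow {k : α → ℕ} (hk : PT A k) (hb : PBd k) : PT A (fun a => 2 ^ k a) :=
  PT.pow (PT.const 2) hk hb

/-- Maps over a range: the running number may be replaced by its minimum with the length. -/
theorem PT_mapRange {k : α → ℕ} {f : α → ℕ → β} (hk : PT A k) (hkb : PBd k)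
    (hf : PT A (fun p : α × ℕ => f p.1 (min p.2 (k p.1)))) :
    PT A (fun a => (List.range (k a)).map (f a)) := by
  refine (PT.map (f := fun a j => f a (min j (k a))) (PT.range hk hkb) hf).congr fun a => ?_
  apply List.map_congr_left
  intro j hj
  rw [min_eq_left (List.mem_range.1 hj).le]

theorem PT_flatMapRange {k : α → ℕ} {f : α → ℕ → List β} (hk : PT A k) (hkb : PBd k)
    (hf : PT A (fun p : α × ℕ => f p.1 (min p.2 (k p.1)))) :
    PT A (fun a => (List.range (k a)).flatMap (f a)) := by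
  refine (PT_mapRange hk hkb hf).flatten.congr fun a => ?_
  rw [List.flatMap_def]

/-- The running number. -/
theorem PT_run {k : α → ℕ} (hk : PT A k) : PT A (fun p : α × ℕ => min p.2 (k p.1)) :=
  PT.min PT.snd' (hk.comp PT.fst')

theorem PBd_run {k : α → ℕ} (hkb : PBd k) : PBd (fun p : α × ℕ => min p.2 (k p.1)) :=
  (PBd.fst hkb).mono fun _ => min_le_right _ _

/-! ### The field -/

theorem PT_xt {q P a : α → ℕ} (hq : PT A q) (hP : PT A P) (ha : PT A a) :
    PT A (fun x => xt (q x) (P x) (a x)) := by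
  unfold xt
  exact PT.ite (PT.lt ha.double hq) ha.double (PT.natXor ha.double hP)

theorem xt_size (q P a L : ℕ) (ha : a < 2 ^ L) (hP : P < 2 ^ (L + 1)) :
    xt q P a < 2 ^ (L + 1) := by
  unfold xt
  have : 2 * a < 2 ^ (L + 1) := by rw [pow_succ]; omega
  split_ifs
  · exact this
  · exact Nat.xor_lt_two_pow this hP

theorem mul_size (q P a : ℕ) (l : List Bool) (L : ℕ) (ha : a < 2 ^ L) (hP : P < 2 ^ L) :
    l.foldr (fun t acc => (if t then a else 0) ^^^ xt q P acc) 0 < 2 ^ (L + l.length) := by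
  have hlt : ∀ {x n : ℕ}, x < 2 ^ L → x < 2 ^ (L + n) := fun h =>
    lt_of_lt_of_le h (Nat.pow_le_pow_right (by norm_num) (by omega))
  induction l with
  | nil => simp
  | cons t l ih =>
    rw [List.foldr_cons, List.length_cons]
    apply Nat.xor_lt_two_pow
    · split_ifs
      · exact hlt ha
      · positivity
    · exact xt_size _ _ _ (L + l.length) ih (hlt (n := l.length + 1) hP)

theorem PT_mulN {q P a b : α → ℕ} (hq : PT A q) (hP : PT A P) (ha : PT A a) (hb : PT A b) :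
    PT A (fun x => mulN (q x) (P x) (a x) (b x)) := by
  unfold mulN
  have hB : PBd (fun x => esize (a x) + esize (P x) + esize (b x).bits) :=
    (ha.pbd.add hP.pbd).add (PT.natBits hb).pbd
  refine PT.foldr (init := fun _ => 0)
    (f := fun x t acc => (if t = true then a x else 0) ^^^ xt (q x) (P x) acc)
    (PT.natBits hb) (PT.const 0) ?_ hB fun x i => ?_
  · refine PT.natXor (PT.ite (p := fun p : α × Bool × ℕ => p.2.1 = true)
      (PT.snd'.fst.congr fun p => by simp) (ha.comp PT.fst') (PT.const 0)) ?_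
    exact PT_xt (hq.comp PT.fst') (hP.comp PT.fst') PT.snd'.snd
  · have h1 := mul_size (q x) (P x) (a x) ((b x).bits.drop i) (esize (a x) + esize (P x))
      ((lt_two_pow_esize (a x)).trans_le (Nat.pow_le_pow_right (by norm_num) (by omega)))
      ((lt_two_pow_esize (P x)).trans_le (Nat.pow_le_pow_right (by norm_num) (by omega)))
    refine (esize_nat_le h1).trans ?_
    have h2 : ((b x).bits.drop i).length ≤ esize (b x).bits := by
      refine (length_le_esize _).trans ?_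
      exact esize_drop_le _ _
    omega

theorem PT_isFld {q P : α → ℕ} (hq : PT A q) (hqb : PBd q) (hP : PT A P) :
    PT A (fun x => isFld (q x) (P x)) := by
  unfold isFld
  refine PT.all (PT.range hq hqb) (PT.all (PT.range (hq.comp PT.fst') (PBd.fst hqb)) ?_)
  refine PT.or (PT.or (PT.eqNat PT.fst'.snd (PT.const 0)) (PT.eqNat PT.snd' (PT.const 0))) ?_
  exact (PT.eqNat (PT_mulN (hq.comp PT.fst'.fst) (hP.comp PT.fst'.fst) PT.fst'.snd PT.snd')
    (PT.const 0)).not

theorem PT_findP {q : α → ℕ} (hq : PT A q) (hqb : PBd q) : PT A (fun x => findP (q x)) := by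
  unfold findP
  refine PT.optGetD (PT.find? (PT.map (f := fun x i => q x + i) (PT.range hq hqb)
    ((hq.comp PT.fst').add PT.snd')) ?_) (PT.const 0)
  exact PT_isFld (hq.comp PT.fst') (PBd.fst hqb) PT.snd'

/-! ### Points -/

theorem PT_smulN {q P M u h : α → ℕ} (hq : PT A q) (hP : PT A P) (hM : PT A M) (hMb : PBd M)
    (hu : PT A u) (hh : PT A h) : PT A (fun x => smulN (q x) (P x) (M x) (u x) (h x)) := by
  unfold smulN
  refine PT.sum (PT_mapRange hM hMb ?_)
  have hpow : PT A (fun p : α × ℕ => q p.1 ^ min p.2 (M p.1)) :=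
    PT.pow (hq.comp PT.fst') (PT_run hM) (PBd_run hMb)
  refine PT.mul (PT_mulN (hq.comp PT.fst') (hP.comp PT.fst') (hu.comp PT.fst') ?_) hpow
  exact PT.mod (PT.div (hh.comp PT.fst') hpow) (hq.comp PT.fst')

theorem PT_ptN {q P M y h g u : α → ℕ} (hq : PT A q) (hP : PT A P) (hM : PT A M) (hMb : PBd M)
    (hy : PT A y) (hh : PT A h) (hg : PT A g) (hu : PT A u) :
    PT A (fun x => ptN (q x) (P x) (M x) (y x) (h x) (g x) (u x)) := by
  unfold ptN
  exact PT.natXor (PT.natXor hy (PT_smulN hq hP hM hMb hu hh))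
    (PT_smulN hq hP hM hMb (PT_mulN hq hP hu hu) hg)

theorem PT_sysN {q H m v : α → ℕ} (hq : PT A q) (hH : PT A H) (hm : PT A m) (hmb : PBd m)
    (hv : PT A v) : PT A (fun x => sysN (q x) (H x) (m x) (v x)) := by
  unfold sysN
  refine PT.sum (PT_mapRange hm hmb ?_)
  have hpow : PT A (fun p : α × ℕ => q p.1 ^ min p.2 (m p.1)) :=
    PT.pow (hq.comp PT.fst') (PT_run hm) (PBd_run hmb)
  have hpow' : PT A (fun p : α × ℕ => H p.1 ^ min p.2 (m p.1)) :=
    PT.pow (hH.comp PT.fst') (PT_run hm) (PBd_run hmb)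
  exact PT.mul (PT.mod (PT.div (hv.comp PT.fst') hpow') (hH.comp PT.fst')) hpow

/-! ### Tests -/

theorem PT_mainPos {q P M t : α → ℕ} (hq : PT A q) (hqb : PBd q) (hP : PT A P) (hM : PT A M)
    (hMb : PBd M) (ht : PT A t) : PT A (fun x => mainPos (q x) (P x) (M x) (t x)) := by
  unfold mainPos
  have hQ : PT A (fun p : α × ℕ => q p.1 ^ M p.1) := (PT.pow hq hM hMb).comp PT.fst'
  have ht' : PT A (fun p : α × ℕ => t p.1) := ht.comp PT.fst'
  refine PT_mapRange hq hqb ?_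
  exact PT_ptN (hq.comp PT.fst') (hP.comp PT.fst') (hM.comp PT.fst') (PBd.fst hMb)
    (ht'.mod hQ) ((ht'.div hQ).mod hQ) ((ht'.div hQ).div hQ) (PT_run hq)

theorem PT_realPos {q P M t : α → ℕ} {π : α → List ℕ} (hq : PT A q) (hqb : PBd q) (hP : PT A P)
    (hM : PT A M) (hMb : PBd M) (hπ : PT A π) (ht : PT A t) :
    PT A (fun x => realPos (q x) (P x) (M x) (π x) (t x)) := by
  unfold realPos
  refine PT.flatMap (PT.const (List.range 4)) ?_
  refine PT_mapRange (k := fun p : α × ℕ => q p.1 - 1) ((hq.comp PT.fst').sub (PT.const 1))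
    (PBd.sub (PBd.fst hqb) _) ?_
  have hQ : PT A (fun p : (α × ℕ) × ℕ => q p.1.1 ^ M p.1.1) := (PT.pow hq hM hMb).comp PT.fst'.fst
  have ht' : PT A (fun p : (α × ℕ) × ℕ => t p.1.1) := ht.comp PT.fst'.fst
  have hMb' : PBd (fun p : (α × ℕ) × ℕ => M p.1.1) := PBd.fst (PBd.fst hMb)
  refine PT_ptN (hq.comp PT.fst'.fst) (hP.comp PT.fst'.fst) (hM.comp PT.fst'.fst) hMb'
    (PT.getD (hπ.comp PT.fst'.fst) PT.fst'.snd (PT.const 0))
    (PT.natXor (ht'.mod hQ) (PT_smulN (hq.comp PT.fst'.fst) (hP.comp PT.fst'.fst)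
      (hM.comp PT.fst'.fst) hMb' PT.fst'.snd ((ht'.div hQ).div hQ)))
    ((ht'.div hQ).mod hQ) ?_
  exact PT.add (PT.min PT.snd' ((hq.comp PT.fst'.fst).sub (PT.const 1))) (PT.const 1)

/-! ### Edges -/

theorem PT_cutE_sum {E : α → List (ℕ × ℕ × ℕ)} (hE : PT A E) :
    PT A (fun x => ((E x).map fun e => e.2.2).sum) :=
  PT.sum (PT.map (f := fun _ e => e.2.2) hE PT.snd'.snd.snd)

theorem PT_gadget {hs ht μ b base : α → ℕ} {ps : α → List ℕ} (hhs : PT A hs) (hht : PT A ht)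
    (hμ : PT A μ) (hb : PT A b) (hps : PT A ps) (hbase : PT A base) :
    PT A (fun x => gadget (hs x) (ht x) (μ x) (b x) (ps x) (base x)) := by
  unfold gadget
  refine PT.flatMap (f := fun x κ => if (κ + b x) % 2 = 1 then
      (base x + κ, hs x, μ x * ((ps x).length - κ)) :: (base x + κ, ht x, μ x * κ) ::
        (ps x).map fun p => (base x + κ, p, μ x)
    else [(base x + κ, hs x, μ x * (ps x).length), (base x + κ, ht x, μ x * (ps x).length)])
    (PT.range (hps.length.add (PT.const 1)) ((PBd.length hps).add (PBd.const 1))) ?_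
  have hbase' : PT A (fun p : α × ℕ => base p.1 + p.2) := (hbase.comp PT.fst').add PT.snd'
  have hhs' : PT A (fun p : α × ℕ => hs p.1) := hhs.comp PT.fst'
  have hht' : PT A (fun p : α × ℕ => ht p.1) := hht.comp PT.fst'
  have hμ' : PT A (fun p : α × ℕ => μ p.1) := hμ.comp PT.fst'
  have hps' : PT A (fun p : α × ℕ => ps p.1) := hps.comp PT.fst'
  refine PT.ite (PT.odd (PT.snd'.add (hb.comp PT.fst'))) ?_ ?_
  · refine PT.cons (hbase'.pair (hhs'.pair (hμ'.mul (hps'.length.sub PT.snd')))) ?_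
    refine PT.cons (hbase'.pair (hht'.pair (hμ'.mul PT.snd'))) ?_
    exact PT.map (f := fun (p : α × ℕ) (c : ℕ) => (base p.1 + p.2, c, μ p.1)) hps'
      ((hbase'.comp PT.fst').pair (PT.snd'.pair (hμ'.comp PT.fst')))
  · exact PT.cons (hbase'.pair (hhs'.pair (hμ'.mul hps'.length)))
      (PT.cons (hbase'.pair (hht'.pair (hμ'.mul hps'.length))) PT.nil)

theorem PT_vars {I : α → List Eqn} (hI : PT A I) : PT A (fun x => vars (I x)) := by
  unfold vars
  exact PT.flatMap (f := fun _ (e : Eqn) => [e.1.1, e.1.2.1, e.1.2.2]) hI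
    ((PT.snd'.fst.fst).cons ((PT.snd'.fst.snd.fst).cons ((PT.snd'.fst.snd.snd).cons PT.nil)))

theorem PT_vIdx {I : α → List Eqn} {v : α → ℕ} (hI : PT A I) (hv : PT A v) :
    PT A (fun x => vIdx (I x) (v x)) := by
  unfold vIdx
  exact (PT.takeWhile (f := fun x w => !decide (w = v x)) (PT_vars hI)
    (PT.eqNat PT.snd' (hv.comp PT.fst')).not).length

theorem PT_eqPts {q H m : α → ℕ} {I : α → List Eqn} {e : α → Eqn} (hq : PT A q) (hH : PT A H)
    (hm : PT A m) (hmb : PBd m) (hI : PT A I) (he : PT A e) :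
    PT A (fun x => eqPts (q x) (H x) (m x) (I x) (e x)) := by
  unfold eqPts
  have h : ∀ {v : α → ℕ}, PT A v → PT A (fun x => sysN (q x) (H x) (m x) (v x)) := fun hv =>
    PT_sysN hq hH hm hmb hv
  exact (h (PT_vIdx hI he.fst.fst)).cons ((h (PT_vIdx hI he.fst.snd.fst)).cons
    ((h (PT_vIdx hI he.fst.snd.snd)).cons ((h ((PT.const 3).mul hI.length)).cons PT.nil)))

/-! ### Numbers -/

section numbers

variable {q Q l : α → ℕ}

theorem PT_muN (hq : PT A q) (hl : PT A l) : PT A (fun x => muN (q x) (l x)) :=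
  ((PT.const 8).mul hq).mul hl

theorem PBd_muN (hq : PBd q) (hl : PBd l) : PBd (fun x => muN (q x) (l x)) :=
  ((PBd.const 8).mul hq).mul hl

theorem PT_w2N (hq : PT A q) : PT A (fun x => w2N (q x)) :=
  (PT.const 4).mul (hq.sub (PT.const 1))

theorem PBd_w2N (hq : PBd q) : PBd (fun x => w2N (q x)) :=
  (PBd.const 4).mul (PBd.sub hq _)

theorem PT_bN (hq : PT A q) (hQ : PT A Q) (hl : PT A l) :
    PT A (fun x => bN (q x) (Q x) (l x)) :=
  hQ.mul (((PT_muN hq hl).mul (hq.mul (hq.sub (PT.const 1)))).add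
    (hl.mul ((PT_w2N hq).mul ((PT_w2N hq).sub (PT.const 1)))))

theorem PBd_bN (hq : PBd q) (hQ : PBd Q) (hl : PBd l) :
    PBd (fun x => bN (q x) (Q x) (l x)) :=
  hQ.mul (((PBd_muN hq hl).mul (hq.mul (PBd.sub hq _))).add
    (hl.mul ((PBd_w2N hq).mul (PBd.sub (PBd_w2N hq) _))))

theorem PT_aN (hq : PT A q) (hQ : PT A Q) (hl : PT A l) :
    PT A (fun x => aN (q x) (Q x) (l x)) := ((PT.const 8).mul (PT_bN hq hQ hl)).mul hQ

theorem PBd_aN (hq : PBd q) (hQ : PBd Q) (hl : PBd l) :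
    PBd (fun x => aN (q x) (Q x) (l x)) := ((PBd.const 8).mul (PBd_bN hq hQ hl)).mul hQ

theorem PT_stN (hq : PT A q) (hQ : PT A Q) (hl : PT A l) :
    PT A (fun x => stN (q x) (Q x) (l x)) :=
  ((hQ.powConst 3).mul (hq.add (PT.const 1))).add
    ((hl.mul (hQ.powConst 3)).mul ((PT_w2N hq).add (PT.const 1)))

theorem PBd_stN (hq : PBd q) (hQ : PBd Q) (hl : PBd l) :
    PBd (fun x => stN (q x) (Q x) (l x)) :=
  ((hQ.pow 3).mul (hq.add (PBd.const 1))).add
    ((hl.mul (hQ.pow 3)).mul ((PBd_w2N hq).add (PBd.const 1)))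

theorem PT_lN (hq : PT A q) (hQ : PT A Q) (hl : PT A l) :
    PT A (fun x => lN (q x) (Q x) (l x)) :=
  (((PT.const (10 ^ 4)).mul (hq.powConst 3)).mul (PT_stN hq hQ hl)).mul (PT_aN hq hQ hl)

theorem PBd_lN (hq : PBd q) (hQ : PBd Q) (hl : PBd l) :
    PBd (fun x => lN (q x) (Q x) (l x)) :=
  (((PBd.const (10 ^ 4)).mul (hq.pow 3)).mul (PBd_stN hq hQ hl)).mul (PBd_aN hq hQ hl)

theorem PT_bigN (hq : PT A q) (hQ : PT A Q) (hl : PT A l) :
    PT A (fun x => bigN (q x) (Q x) (l x)) := ((PT.const 4).mul (PT_aN hq hQ hl)).mul hQ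

theorem PBd_bigN (hq : PBd q) (hQ : PBd Q) (hl : PBd l) :
    PBd (fun x => bigN (q x) (Q x) (l x)) := ((PBd.const 4).mul (PBd_aN hq hQ hl)).mul hQ

theorem PT_nN (hq : PT A q) (hQ : PT A Q) (hl : PT A l) :
    PT A (fun x => nN (q x) (Q x) (l x)) :=
  (((PT.const 3).mul hQ).mul (PT_lN hq hQ hl)).add (PT_stN hq hQ hl)

theorem PBd_nN (hq : PBd q) (hQ : PBd Q) (hl : PBd l) :
    PBd (fun x => nN (q x) (Q x) (l x)) :=
  (((PBd.const 3).mul hQ).mul (PBd_lN hq hQ hl)).add (PBd_stN hq hQ hl)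

theorem PT_dN {w b : α → ℕ} (hw : PT A w) (hb : PT A b) : PT A (fun x => dN (w x) (b x)) := by
  unfold dN
  have h : PT A (fun x => 3 * w x * w x / 2) :=
    PT.half (((PT.const 3).mul hw).mul hw)
  exact PT.ite (PT.eqNat hb (PT.const 0)) (h.add ((PT.const 2).mul hw))
    ((h.add hw).sub (PT.const 1))

theorem PT_denN (hq : PT A q) (hQ : PT A Q) (hl : PT A l) :
    PT A (fun x => denN (q x) (Q x) (l x)) :=
  ((PT.const 36).mul (hQ.powConst 2)).mul ((PT_lN hq hQ hl).powConst 2)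

theorem PT_toNat {b : α → Bool} (hb : PT A b) : PT A (fun x => (b x).toNat) :=
  (PT.cond hb (PT.const 1) (PT.const 0)).congr fun x => by cases b x <;> rfl

theorem PT_constN {I : α → List Eqn} (hq : PT A q) (hQ : PT A Q) (hI : PT A I) :
    PT A (fun x => constN (q x) (Q x) (I x)) := by
  unfold constN
  refine PT.add (((PT_muN hq hI.length).mul (hQ.powConst 3)).mul (PT_dN hq (PT.const 0)))
    ((hQ.powConst 3).mul (PT.sum ?_))
  exact PT.map (f := fun x (e : Eqn) => dN (w2N (q x)) e.2.toNat) hI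
    (PT_dN ((PT_w2N hq).comp PT.fst') (PT_toNat PT.snd'.snd))

theorem PT_numN {I : α → List Eqn} (hq : PT A q) (hQ : PT A Q) (hI : PT A I) :
    PT A (fun x => numN (q x) (Q x) (I x)) := by
  unfold numN
  exact (((((PT.const 16).mul (PT_aN hq hQ hI.length)).mul hQ).add
    (((PT.const 2).mul (PT_bN hq hQ hI.length)).mul (hQ.powConst 2))).add
    ((PT.const 8).mul (PT_constN hq hQ hI))).add (hI.length.mul (hQ.powConst 3))

end numbers

/-! ### The graph -/

theorem PT_clusterE {Q L big : α → ℕ} (hQ : PT A Q) (hQb : PBd Q) (hL : PT A L) (hLb : PBd L)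
    (hbig : PT A big) : PT A (fun x => clusterE (Q x) (L x) (big x)) := by
  unfold clusterE
  have h3Q : PT A (fun x => 3 * Q x) := (PT.const 3).mul hQ
  have h3Qb : PBd (fun x => 3 * Q x) := (PBd.const 3).mul hQb
  have hQ1 : PT A (fun x => Q x - 1) := hQ.sub (PT.const 1)
  have h2Q : PT A (fun x => 2 * Q x) := (PT.const 2).mul hQ
  refine PT.append (PT.append ?_ ?_) ?_
  · refine PT.flatMap (f := fun x u => (List.range (L x - 1)).map fun j =>
      (u, u + 3 * Q x * (j + 1), big x)) (PT.range h3Q h3Qb) ?_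
    refine PT.map (f := fun (p : α × ℕ) j => (p.2, p.2 + 3 * Q p.1 * (j + 1), big p.1))
      (PT.range ((hL.comp PT.fst').sub (PT.const 1)) (PBd.sub (PBd.fst hLb) _)) ?_
    exact PT.pair PT.fst'.snd (PT.pair (PT.fst'.snd.add
      ((h3Q.comp PT.fst'.fst).mul (PT.snd'.add (PT.const 1)))) (hbig.comp PT.fst'.fst))
  · refine PT.map (f := fun x i => (Q x, Q x + (i + 1), big x)) (PT.range hQ1 (PBd.sub hQb _)) ?_
    exact PT.pair (hQ.comp PT.fst') (PT.pair ((hQ.comp PT.fst').add (PT.snd'.add (PT.const 1)))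
      (hbig.comp PT.fst'))
  · refine PT.map (f := fun x i => (2 * Q x, 2 * Q x + (i + 1), big x))
      (PT.range hQ1 (PBd.sub hQb _)) ?_
    exact PT.pair (h2Q.comp PT.fst') (PT.pair ((h2Q.comp PT.fst').add (PT.snd'.add (PT.const 1)))
      (hbig.comp PT.fst'))

theorem PT_hubE {Q a : α → ℕ} (hQ : PT A Q) (hQb : PBd Q) (ha : PT A a) :
    PT A (fun x => hubE (Q x) (a x)) := by
  unfold hubE
  refine PT.flatMap (f := fun x p => [(p, Q x, a x), (p, 2 * Q x, a x)]) (PT.range hQ hQb) ?_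
  exact PT.cons (PT.snd'.pair ((hQ.comp PT.fst').pair (ha.comp PT.fst')))
    (PT.cons (PT.snd'.pair (((PT.const 2).mul (hQ.comp PT.fst')).pair (ha.comp PT.fst'))) PT.nil)

section graph

variable {q P M H m n0 n1 μ : α → ℕ} {I : α → List Eqn}

theorem PT_mainE (hq : PT A q) (hqb : PBd q) (hP : PT A P) (hM : PT A M) (hMb : PBd M)
    (hQb : PBd (fun x => q x ^ M x)) (hμ : PT A μ) (hn : PT A n0) :
    PT A (fun x => mainE (q x) (P x) (M x) (μ x) (n0 x)) := by
  unfold mainE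
  have hQ : PT A (fun x => q x ^ M x) := PT.pow hq hM hMb
  refine PT.flatMap (f := fun x t => gadget (q x ^ M x) (2 * q x ^ M x) (μ x) 0
    (mainPos (q x) (P x) (M x) t) (n0 x + t * (q x + 1)))
    (PT.range (hQ.powConst 3) (hQb.pow 3)) ?_
  exact PT_gadget (hQ.comp PT.fst') ((PT.const 2).mul (hQ.comp PT.fst')) (hμ.comp PT.fst')
    (PT.const 0) (PT_mainPos (hq.comp PT.fst') (PBd.fst hqb) (hP.comp PT.fst') (hM.comp PT.fst')
      (PBd.fst hMb) PT.snd')
    ((hn.comp PT.fst').add (PT.snd'.mul ((hq.comp PT.fst').add (PT.const 1))))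

theorem PT_realE (hq : PT A q) (hqb : PBd q) (hP : PT A P) (hM : PT A M) (hMb : PBd M)
    (hQb : PBd (fun x => q x ^ M x)) (hH : PT A H) (hm : PT A m) (hmb : PBd m) (hn : PT A n1)
    (hI : PT A I) :
    PT A (fun x => realE (q x) (P x) (M x) (H x) (m x) (n1 x) (I x)) := by
  unfold realE
  have hQ : PT A (fun x => q x ^ M x) := PT.pow hq hM hMb
  refine PT.flatMap (f := fun x i => (List.range ((q x ^ M x) ^ 3)).flatMap fun t =>
    gadget (q x ^ M x) (2 * q x ^ M x) 1 ((I x).getD i ((0, 0, 0), false)).2.toNat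
      (realPos (q x) (P x) (M x)
        (eqPts (q x) (H x) (m x) (I x) ((I x).getD i ((0, 0, 0), false))) t)
      (n1 x + (i * (q x ^ M x) ^ 3 + t) * (w2N (q x) + 1)))
    (PT.range hI.length (PBd.length hI)) ?_
  refine PT.flatMap (f := fun (p : α × ℕ) t =>
    gadget (q p.1 ^ M p.1) (2 * q p.1 ^ M p.1) 1 ((I p.1).getD p.2 ((0, 0, 0), false)).2.toNat
      (realPos (q p.1) (P p.1) (M p.1)
        (eqPts (q p.1) (H p.1) (m p.1) (I p.1) ((I p.1).getD p.2 ((0, 0, 0), false))) t)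
      (n1 p.1 + (p.2 * (q p.1 ^ M p.1) ^ 3 + t) * (w2N (q p.1) + 1)))
    (PT.range ((hQ.powConst 3).comp PT.fst') (PBd.fst (hQb.pow 3))) ?_
  have c1 : PT A (fun p : (α × ℕ) × ℕ => p.1.1) := PT.fst'.fst
  have hQ' : PT A (fun p : (α × ℕ) × ℕ => q p.1.1 ^ M p.1.1) := hQ.comp c1
  have he : PT A (fun p : (α × ℕ) × ℕ => (I p.1.1).getD p.1.2 ((0, 0, 0), false)) :=
    PT.getD (hI.comp c1) PT.fst'.snd (PT.const _)
  refine PT_gadget hQ' ((PT.const 2).mul hQ') (PT.const 1) (PT_toNat he.snd) ?_ ?_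
  · exact PT_realPos (hq.comp c1) (PBd.fst (PBd.fst hqb)) (hP.comp c1) (hM.comp c1)
      (PBd.fst (PBd.fst hMb)) (PT_eqPts (hq.comp c1) (hH.comp c1) (hm.comp c1)
        (PBd.fst (PBd.fst hmb)) (hI.comp c1) he) PT.snd'
  · exact PT.add (hn.comp c1) (PT.mul (PT.add (PT.mul PT.fst'.snd (hQ'.powConst 3)) PT.snd')
      (PT.add (PT_w2N (hq.comp c1)) (PT.const 1)))

theorem PT_allE (hq : PT A q) (hqb : PBd q) (hP : PT A P) (hM : PT A M) (hMb : PBd M)
    (hQb : PBd (fun x => q x ^ M x)) (hH : PT A H) (hm : PT A m) (hmb : PBd m)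
    (hI : PT A I) :
    PT A (fun x => allE (q x) (P x) (M x) (H x) (m x) (I x)) := by
  unfold allE
  have hQ : PT A (fun x => q x ^ M x) := PT.pow hq hM hMb
  have hl := hI.length
  have hlb : PBd (fun x => (I x).length) := PBd.length hI
  have hL := PT_lN hq hQ hl
  have h3 := ((PT.const 3).mul hQ).mul hL
  refine PT.append (PT.append (PT.append
    (PT_clusterE hQ hQb hL (PBd_lN hqb hQb hlb) (PT_bigN hq hQ hl))
    (PT_hubE hQ hQb (PT_aN hq hQ hl)))
    (PT_mainE hq hqb hP hM hMb hQb (PT_muN hq hl) h3))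
    (PT_realE hq hqb hP hM hMb hQb hH hm hmb ?_ hI)
  exact h3.add ((hQ.powConst 3).mul (hq.add (PT.const 1)))

end graph

/-! ### Capacities -/

theorem gadget_cap {hs ht μ b base : ℕ} {ps : List ℕ} {e : ℕ × ℕ × ℕ}
    (he : e ∈ gadget hs ht μ b ps base) : e.2.2 ≤ μ * (ps.length + 1) := by
  unfold gadget at he
  obtain ⟨κ, hκ, he⟩ := List.mem_flatMap.1 he
  have hκ' := List.mem_range.1 hκ
  split_ifs at he
  · rcases List.mem_cons.1 he with rfl | he
    · exact Nat.mul_le_mul_left _ (by omega)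
    · rcases List.mem_cons.1 he with rfl | he
      · exact Nat.mul_le_mul_left _ (by omega)
      · obtain ⟨p, _, rfl⟩ := List.mem_map.1 he
        exact Nat.le_mul_of_pos_right _ (by omega)
  · simp only [List.mem_cons, List.not_mem_nil, or_false] at he
    rcases he with rfl | rfl <;> exact Nat.mul_le_mul_left _ (by omega)

theorem allE_cap {q P M H m : ℕ} {I : List Eqn} {e : ℕ × ℕ × ℕ} (he : e ∈ allE q P M H m I) :
    e.2.2 ≤ bigN q (q ^ M) I.length + aN q (q ^ M) I.length + muN q I.length * (q + 1) +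
      (4 * (q - 1) + 1) := by
  simp only [allE, List.mem_append] at he
  rcases he with ((he | he) | he) | he
  · have : e.2.2 = bigN q (q ^ M) I.length := by
      simp only [clusterE, List.mem_append] at he
      rcases he with (he | he) | he
      · obtain ⟨u, _, he⟩ := List.mem_flatMap.1 he
        obtain ⟨j, _, rfl⟩ := List.mem_map.1 he
        rfl
      · obtain ⟨j, _, rfl⟩ := List.mem_map.1 he
        rfl
      · obtain ⟨j, _, rfl⟩ := List.mem_map.1 he
        rfl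
    omega
  · obtain ⟨p, _, he⟩ := List.mem_flatMap.1 he
    simp only [List.mem_cons, List.not_mem_nil, or_false] at he
    have : e.2.2 = aN q (q ^ M) I.length := by rcases he with rfl | rfl <;> rfl
    omega
  · obtain ⟨t, _, he⟩ := List.mem_flatMap.1 he
    have h := gadget_cap he
    rw [mainPos, List.length_map, List.length_range] at h
    omega
  · obtain ⟨i, _, he⟩ := List.mem_flatMap.1 he
    obtain ⟨t, _, he⟩ := List.mem_flatMap.1 he
    have h := gadget_cap he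
    rw [realPos, List.length_flatMap] at h
    simp only [List.length_map, List.length_range, List.map_const', List.sum_replicate,
      smul_eq_mul, one_mul] at h
    omega

theorem PBd_allE_sum {q P M H m : α → ℕ} {I : α → List Eqn} (hq : PT ∅ q) (hqb : PBd q)
    (hP : PT ∅ P) (hM : PT ∅ M) (hMb : PBd M)
    (hQb : PBd (fun x => q x ^ M x)) (hH : PT ∅ H) (hm : PT ∅ m) (hmb : PBd m)
    (hI : PT ∅ I) : PBd (fun x => ((allE (q x) (P x) (M x) (H x) (m x) (I x)).map
      fun e => e.2.2).sum) := by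
  have hlb : PBd (fun x => (I x).length) := PBd.length hI
  have h1 : PBd (fun x => bigN (q x) (q x ^ M x) (I x).length + aN (q x) (q x ^ M x) (I x).length +
      muN (q x) (I x).length * (q x + 1) + (4 * (q x - 1) + 1)) :=
    (((PBd_bigN hqb hQb hlb).add (PBd_aN hqb hQb hlb)).add
      ((PBd_muN hqb hlb).mul (hqb.add (PBd.const 1)))).add
      (((PBd.const 4).mul (PBd.sub hqb _)).add (PBd.const 1))
  have h2 := PBd.length (PT_allE hq hqb hP hM hMb hQb hH hm hmb hI)
  refine (h2.mul h1).mono fun x => ?_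
  have h3 := List.sum_le_card_nsmul ((allE (q x) (P x) (M x) (H x) (m x) (I x)).map
    fun e => e.2.2) _ (fun c hc => by
      obtain ⟨e, he, rfl⟩ := List.mem_map.1 hc
      exact allE_cap he)
  rwa [List.length_map, smul_eq_mul] at h3

/-! ### The unweighted graph -/

theorem PT_capE {E : α → List (ℕ × ℕ × ℕ)} {i j : α → ℕ} (hE : PT A E) (hi : PT A i)
    (hj : PT A j) : PT A (fun x => capE (E x) (i x) (j x)) := by
  unfold capE
  refine PT.sum (PT.map (f := fun x (e : ℕ × ℕ × ℕ) =>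
    if (e.1 = i x ∧ e.2.1 = j x) ∨ (e.1 = j x ∧ e.2.1 = i x) then e.2.2 else 0) hE ?_)
  have hi' : PT A (fun p : α × ℕ × ℕ × ℕ => i p.1) := hi.comp PT.fst'
  have hj' : PT A (fun p : α × ℕ × ℕ × ℕ => j p.1) := hj.comp PT.fst'
  exact PT.ite (PT.decide_or
    (PT.decide_and (PT.eqNat PT.snd'.fst hi') (PT.eqNat PT.snd'.snd.fst hj'))
    (PT.decide_and (PT.eqNat PT.snd'.fst hj') (PT.eqNat PT.snd'.snd.fst hi')))
    PT.snd'.snd.snd (PT.const 0)

theorem PT_blowAdj {N x y : α → ℕ} {E : α → List (ℕ × ℕ × ℕ)} (hN : PT A N) (hE : PT A E)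
    (hx : PT A x) (hy : PT A y) : PT A (fun a => blowAdj (N a) (E a) (x a) (y a)) := by
  unfold blowAdj
  exact PT.ite (PT.eqNat (hx.mod hN) (hy.mod hN)) (PT.decide_not (PT.eqNat hx hy))
    ((PT.eqNat (hx.div hN) (hy.div hN)).and
      (PT.lt (hx.div hN) (PT_capE hE (hx.mod hN) (hy.mod hN))))

theorem PT_blowMat {N R : α → ℕ} {E : α → List (ℕ × ℕ × ℕ)} (hN : PT A N) (hNb : PBd N)
    (hR : PT A R) (hRb : PBd R) (hE : PT A E) : PT A (fun a => blowMat (N a) (R a) (E a)) := by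
  unfold blowMat
  refine PT.map (f := fun a x => (List.range (N a * R a)).map fun y => blowAdj (N a) (E a) x y)
    (PT.range (hN.mul hR) (hNb.mul hRb)) ?_
  refine PT.map (f := fun (p : α × ℕ) y => blowAdj (N p.1) (E p.1) p.2 y)
    (PT.range ((hN.mul hR).comp PT.fst') (PBd.fst (hNb.mul hRb))) ?_
  exact PT_blowAdj (hN.comp PT.fst'.fst) (hE.comp PT.fst'.fst) PT.fst'.snd PT.snd'

theorem PT_rN {N : α → ℕ} {E : α → List (ℕ × ℕ × ℕ)} (hN : PT A N) (hE : PT A E) :
    PT A (fun a => rN (N a) (E a)) :=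
  ((PT.const 16).mul (hN.add (PT.const 1))).mul ((PT_cutE_sum hE).add (PT.const 1))

/-! ### The functions of the system -/

theorem PT_kI (k0 : ℕ) : PT A (fun I : List Eqn => kI k0 I) := by
  unfold kI kOf
  exact (PT.natSize (((PT.const 3).mul (PT.length PT.id)).add (PT.const 1))).add (PT.const k0)

theorem PBd_two_pow_kI (k0 : ℕ) : PBd (fun I : List Eqn => 2 ^ kI k0 I) := by
  have h : PBd (fun I : List Eqn => 2 * (3 * I.length + 1) * 2 ^ k0) :=
    ((PBd.const 2).mul (((PBd.const 3).mul (PBd.length (A := ∅) PT.id)).add (PBd.const 1))).mul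
      (PBd.const (2 ^ k0))
  refine h.mono fun I => ?_
  rw [kI, kOf, pow_add]
  exact Nat.mul_le_mul_right _ (two_pow_size_le (by omega))

theorem PBd_kI (k0 : ℕ) : PBd (fun I : List Eqn => kI k0 I) :=
  (PBd_two_pow_kI k0).mono fun _ => Nat.lt_two_pow_self.le

theorem PT_rOf (T k0 : ℕ) : PT A (fun I : List Eqn => rOf T (kI k0 I)) := by
  unfold rOf
  exact (PT.div (PT.natSize (PT_kI k0)) (PT.const T)).add (PT.const 1)

theorem rOf_le (T k : ℕ) : rOf T k ≤ k + 1 := by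
  rw [rOf]
  have h1 := size_le_self k
  have h2 := Nat.div_le_self (Nat.size k) T
  omega

theorem PBd_two_pow_rOf (T k0 : ℕ) : PBd (fun I : List Eqn => 2 ^ rOf T (kI k0 I)) := by
  refine ((PBd_two_pow_kI k0).mul (PBd.const 2)).mono fun I => ?_
  rw [← pow_succ]
  exact Nat.pow_le_pow_right (by norm_num) (rOf_le T _)

theorem PBd_rOf (T k0 : ℕ) : PBd (fun I : List Eqn => rOf T (kI k0 I)) :=
  (PBd_two_pow_rOf T k0).mono fun _ => Nat.lt_two_pow_self.le

theorem PT_mOf (T k0 : ℕ) : PT A (fun I : List Eqn => mOf T (kI k0 I)) := by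
  unfold mOf
  exact (PT.div (PT_kI k0) (PT_rOf T k0)).add (PT.const 1)

theorem PBd_mOf (T k0 : ℕ) : PBd (fun I : List Eqn => mOf T (kI k0 I)) := by
  refine ((PBd_kI k0).add (PBd.const 1)).mono fun I => ?_
  rw [mOf]
  have := Nat.div_le_self (kI k0 I) (rOf T (kI k0 I))
  omega

theorem PT_sOf (T k0 : ℕ) : PT A (fun I : List Eqn => sOf T (kI k0 I)) := by
  unfold sOf
  exact PT.natSize (((PT.const 2).mul (PT_mOf T k0)).mul
    (PT_two_pow (PT_rOf T k0) (PBd_rOf T k0)))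

theorem PBd_qI (T k0 : ℕ) : PBd (fun I : List Eqn => qI T k0 I) :=
  (((PBd.const 4).mul (PBd_mOf T k0)).mul (PBd_two_pow_rOf T k0)).mono fun _ => q_le T _

theorem PBd_sOf (T k0 : ℕ) : PBd (fun I : List Eqn => sOf T (kI k0 I)) :=
  (PBd_qI T k0).mono fun _ => Nat.lt_two_pow_self.le

theorem PT_qI (T k0 : ℕ) : PT A (fun I : List Eqn => qI T k0 I) :=
  PT_two_pow (PT_sOf T k0) (PBd_sOf T k0)

theorem PT_MI (T k0 : ℕ) : PT A (fun I : List Eqn => MI T k0 I) :=
  (PT_mOf T k0).add (PT.const 1)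

theorem PBd_MI (T k0 : ℕ) : PBd (fun I : List Eqn => MI T k0 I) :=
  (PBd_mOf T k0).add (PBd.const 1)

theorem PT_QI (T k0 : ℕ) : PT A (fun I : List Eqn => QI T k0 I) :=
  PT.pow (PT_qI T k0) (PT_MI T k0) (PBd_MI T k0)

theorem one_le_kI (k0 : ℕ) (I : List Eqn) : 1 ≤ kI k0 I := by
  have : 0 < Nat.size (3 * I.length + 1) := Nat.size_pos.2 (by omega)
  rw [kI, kOf]
  omega

theorem PBd_QI (T k0 : ℕ) (hT : 1 ≤ T) : PBd (fun I : List Eqn => QI T k0 I) :=
  ((PBd_two_pow_kI k0).pow (3 * (T + 3))).mono fun I => Q_le T _ hT (one_le_kI k0 I)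

theorem PT_edgesI (T k0 : ℕ) (hT : 1 ≤ T) : PT A (fun I : List Eqn => edgesI T k0 I) := by
  unfold edgesI
  exact PT_allE (PT_qI T k0) (PBd_qI T k0) (PT_findP (PT_qI T k0) (PBd_qI T k0)) (PT_MI T k0)
    (PBd_MI T k0) (PBd_QI T k0 hT) (PT_two_pow (PT_rOf T k0) (PBd_rOf T k0)) (PT_mOf T k0)
    (PBd_mOf T k0) PT.id

theorem PBd_edgesI_sum (T k0 : ℕ) (hT : 1 ≤ T) :
    PBd (fun I : List Eqn => ((edgesI T k0 I).map fun e => e.2.2).sum) := by
  unfold edgesI
  exact PBd_allE_sum (PT_qI T k0) (PBd_qI T k0) (PT_findP (PT_qI T k0) (PBd_qI T k0)) (PT_MI T k0)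
    (PBd_MI T k0) (PBd_QI T k0 hT) (PT_two_pow (PT_rOf T k0) (PBd_rOf T k0)) (PT_mOf T k0)
    (PBd_mOf T k0) PT.id

theorem PT_vertsI (T k0 : ℕ) : PT A (fun I : List Eqn => vertsI T k0 I) :=
  PT_nN (PT_qI T k0) (PT_QI T k0) (PT.length PT.id)

theorem PBd_vertsI (T k0 : ℕ) (hT : 1 ≤ T) : PBd (fun I : List Eqn => vertsI T k0 I) :=
  PBd_nN (PBd_qI T k0) (PBd_QI T k0 hT) (PBd.length (A := ∅) PT.id)

theorem PT_numI (T k0 : ℕ) : PT A (fun I : List Eqn => numI T k0 I) :=
  PT_numN (PT_qI T k0) (PT_QI T k0) PT.id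

theorem PT_denI (T k0 : ℕ) : PT A (fun I : List Eqn => denI T k0 I) :=
  PT_denN (PT_qI T k0) (PT_QI T k0) (PT.length PT.id)

theorem PT_rNI (T k0 : ℕ) (hT : 1 ≤ T) :
    PT A (fun I : List Eqn => rN (vertsI T k0 I) (edgesI T k0 I)) :=
  PT_rN (PT_vertsI T k0) (PT_edgesI T k0 hT)

theorem PBd_rNI (T k0 : ℕ) (hT : 1 ≤ T) :
    PBd (fun I : List Eqn => rN (vertsI T k0 I) (edgesI T k0 I)) :=
  ((PBd.const 16).mul ((PBd_vertsI T k0 hT).add (PBd.const 1))).mul
    ((PBd_edgesI_sum T k0 hT).add (PBd.const 1))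

/-- The unweighted graph is computable in polynomial time. -/
theorem PT_graphI (T k0 : ℕ) (hT : 1 ≤ T) : PT A (fun I : List Eqn => graphI T k0 I) :=
  PT_blowMat (PT_vertsI T k0) (PBd_vertsI T k0 hT) (PT_rNI T k0 hT) (PBd_rNI T k0 hT)
    (PT_edgesI T k0 hT)

end Vale.Agent.P318.NPH
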