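import Vale.Agent.P318.NPH.Blow
import Vale.Agent.P318.NPH.PTGraph
import Vale.Agent.P333.NP.Main

/-!
From a reduction with a gap to the equality of P and NP.
-/

namespace Vale.Agent.P318.NPH

open Finset Vale.Agent.P333 Vale.Agent.Lib.PolyTime Vale.Agent.P318

theorem graphW_eq (A : List (List Bool)) : graphW A = enc A := by
  have h : (listW fun b : Bool => [b]) = (enc : List Bool → List Bool) := by
    funext l
    exact listW_eq (α := Bool) l
  rw [graphW, h]
  exact listW_eq A

theorem vertexW_eq (l : List ℕ) : vertexW l = enc l := listW_eq l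

/-- A function on raw words which is computable in polynomial time. -/
theorem PT_of_polyTime {β : Type} [Enc β] {cb : β → List Bool} (hcb : ∀ b, cb b = enc b)
    {f : List Bool → β} (h : PolyTime (fun w : List Bool => w) cb f) :
    PT ∅ (fun r : Raw => f r.w) := by
  obtain ⟨M⟩ := h
  obtain ⟨g, hg, hg'⟩ := exists_FP_of_tm2 (A := ∅) M
  refine ⟨g, hg, fun r => ?_⟩
  rw [← hcb, ← hg']
  rfl

theorem polyTime_of_PT {β : Type} [Enc β] {cb : β → List Bool} (hcb : ∀ b, cb b = enc b)
    {f : List Bool → β} (h : PT ∅ (fun r : Raw => f r.w)) :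
    PolyTime (fun w : List Bool => w) cb f := by
  obtain ⟨g, hg, hg'⟩ := h
  refine tm2_of_polyTimeFun _ _ _ g (polyTimeFun_iff.2 hg) fun x => ?_
  rw [hcb]
  exact hg' ⟨x⟩

/-- Same for functions between encoded types. -/
theorem PT_of_polyTime' {α β : Type} [Enc α] [Enc β] {ca : α → List Bool} {cb : β → List Bool}
    (hca : ∀ a, ca a = enc a) (hcb : ∀ b, cb b = enc b) {f : α → β} (h : PolyTime ca cb f) :
    PT ∅ f := by
  obtain ⟨M⟩ := h
  obtain ⟨g, hg, hg'⟩ := exists_FP_of_tm2 (A := ∅) M
  refine ⟨g, hg, fun a => ?_⟩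
  rw [← hcb, ← hg', hca]

/-! ### The size of a cut is computable -/

theorem PT_adj {α : Type*} [Enc α] {A : α → List (List Bool)} {i j : α → ℕ} (hA : PT ∅ A)
    (hi : PT ∅ i) (hj : PT ∅ j) : PT ∅ (fun x => adj (A x) (i x) (j x)) := by
  unfold adj
  exact PT.getD (PT.getD hA hi (PT.const [])) hj (PT.const false)

/-- The side of the vertices of a list. -/
def sideL (l : List ℕ) (i : ℕ) : Bool := decide (i ∈ l)

theorem cutU_sideL (A : List (List Bool)) (l : List ℕ) : cutU A (sideL l) =
    ((List.range A.length).map fun i => ((List.range A.length).map fun j =>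
      if (sideL l i && (!sideL l j && adj A i j)) = true then 1 else 0).sum).sum := by
  rw [cutU, sum_map_range]
  refine sum_congr rfl fun i _ => ?_
  rw [sum_map_range]
  refine sum_congr rfl fun j _ => ?_
  refine if_congr ?_ rfl rfl
  simp

theorem cntN_sideL (n : ℕ) (l : List ℕ) : cntN (sideL l) 0 n =
    ((List.range n).map fun i => if sideL l i = true then 1 else 0).sum := by
  rw [cntN, sum_map_range]
  exact sum_congr rfl fun i _ => by rw [zero_add]

theorem PT_cutU {α : Type*} [Enc α] {A : α → List (List Bool)} {l : α → List ℕ} (hA : PT ∅ A)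
    (hl : PT ∅ l) : PT ∅ (fun x => cutU (A x) (sideL (l x))) := by
  simp only [cutU_sideL]
  refine PT.sum (PT.map (f := fun x i => ((List.range (A x).length).map fun j =>
    if (sideL (l x) i && (!sideL (l x) j && adj (A x) i j)) = true then 1 else 0).sum)
    (PT.range hA.length (PBd.length hA)) ?_)
  have hA' : PT ∅ (fun p : α × ℕ => A p.1) := hA.comp PT.fst'
  refine PT.sum (PT.map (f := fun (p : α × ℕ) j =>
    if (sideL (l p.1) p.2 && (!sideL (l p.1) j && adj (A p.1) p.2 j)) = true then 1 else 0)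
    (PT.range hA'.length (PBd.length hA')) ?_)
  have hl' : PT ∅ (fun p : (α × ℕ) × ℕ => l p.1.1) := hl.comp PT.fst'.fst
  refine PT.ite ?_ (PT.const 1) (PT.const 0)
  refine (PT.and (PT.mem hl' PT.fst'.snd) (PT.and (PT.not (PT.mem hl' PT.snd'))
    (PT_adj (hA.comp PT.fst'.fst) PT.fst'.snd PT.snd'))).congr fun p => ?_
  simp [sideL]

theorem PT_cntL {α : Type*} [Enc α] {A : α → List (List Bool)} {l : α → List ℕ} (hA : PT ∅ A)
    (hl : PT ∅ l) : PT ∅ (fun x => cntN (sideL (l x)) 0 (A x).length) := by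
  simp only [cntN_sideL]
  refine PT.sum (PT.map (f := fun x i => if sideL (l x) i = true then 1 else 0)
    (PT.range hA.length (PBd.length hA)) ?_)
  refine PT.ite ?_ (PT.const 1) (PT.const 0)
  exact (PT.mem (hl.comp PT.fst') PT.snd').congr fun p => by simp [sideL]

/-- The comparison of the ratio of a set of vertices with `a / b`. -/
def better (A : List (List Bool)) (l : List ℕ) (a b : ℕ) : Bool :=
  decide (cutU A (sideL l) * b <
    a * (cntN (sideL l) 0 A.length * (A.length - cntN (sideL l) 0 A.length)))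

theorem PT_better {α : Type*} [Enc α] {A : α → List (List Bool)} {l : α → List ℕ} {a b : α → ℕ}
    (hA : PT ∅ A) (hl : PT ∅ l) (ha : PT ∅ a) (hb : PT ∅ b) :
    PT ∅ (fun x => better (A x) (l x) (a x) (b x)) :=
  PT.lt ((PT_cutU hA hl).mul hb)
    (ha.mul ((PT_cntL hA hl).mul (hA.length.sub (PT_cntL hA hl))))

theorem better_iff (A : List (List Bool)) (l : List ℕ) (a b : ℕ) (hb : 0 < b)
    (h1 : (toSet A.length l).Nonempty) (h2 : toSet A.length l ≠ univ) :
    better A l a b = true ↔ ratio (capU A) (toSet A.length l) < (a : ℝ) / b := by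
  have hT : ∀ i : Fin A.length, sideL l i = true ↔ i ∈ toSet A.length l := by
    intro i
    simp [sideL, toSet]
  have hc := card_eq_cntN (toSet A.length l) (sideL l) hT
  have hpos : 0 < cntN (sideL l) 0 A.length := by
    rw [← hc]
    exact card_pos.2 h1
  have hlt : cntN (sideL l) 0 A.length < A.length := by
    rw [← hc]
    have := (card_lt_iff_ne_univ (toSet A.length l)).2 h2
    rwa [Fintype.card_fin] at this
  rw [ratio_eq A (toSet A.length l) (sideL l) hT, better, decide_eq_true_eq]
  set c := cntN (sideL l) 0 A.length with hcdef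
  have hc0 : (0 : ℝ) < c := by exact_mod_cast hpos
  have hc1 : (0 : ℝ) < (A.length : ℝ) - c := by
    have : (c : ℝ) < A.length := by exact_mod_cast hlt
    linarith
  have hb0 : (0 : ℝ) < b := by exact_mod_cast hb
  rw [div_lt_div_iff₀ (mul_pos hc0 hc1) hb0]
  rw [← Nat.cast_lt (α := ℝ)]
  push_cast [Nat.cast_sub hlt.le]
  rfl

/-! ### Reductions with a gap -/

/-- The language reduces to the approximation of Uniform Sparsest Cut within the factor `F N`:
graphs and thresholds are computed in polynomial time. -/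
def GapRed (F : ℕ → ℝ) (L : Set (List Bool)) : Prop :=
  ∃ (G : List Bool → List (List Bool)) (a b a' b' : List Bool → ℕ),
    PolyTime (fun w : List Bool => w) graphW G ∧
    PolyTime (fun w : List Bool => w) Nat.bits a ∧ PolyTime (fun w : List Bool => w) Nat.bits b ∧
    PolyTime (fun w : List Bool => w) Nat.bits a' ∧ PolyTime (fun w : List Bool => w) Nat.bits b' ∧
    ∀ x, IsGraph (G x) ∧ 0 < a x ∧ 0 < b x ∧ 0 < b' x ∧
      F (G x).length * ((a x : ℝ) / b x) < (a' x : ℝ) / b' x ∧
      (x ∈ L → Phi (capU (G x)) ≤ (a x : ℝ) / b x) ∧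
      (x ∉ L → (a' x : ℝ) / b' x ≤ Phi (capU (G x)))

/-- An approximation algorithm solves the languages with such a reduction. -/
theorem GapRed.mem_P {F : ℕ → ℝ} (hF : ∀ N, 2 ≤ N → 0 ≤ F N) {L : Set (List Bool)}
    (h : GapRed F L) (halg : Vale.Agent.P318.HasApprox F) : L ∈ classP := by
  obtain ⟨G, a, b, a', b', hG, -, -, ha', hb', hx⟩ := h
  obtain ⟨alg, halg, hal⟩ := halg
  have hG1 := PT_of_polyTime graphW_eq hG
  have ha1 := PT_of_polyTime (cb := Nat.bits) (fun _ => rfl) ha'
  have hb1 := PT_of_polyTime (cb := Nat.bits) (fun _ => rfl) hb'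
  have hal1 := PT_of_polyTime' graphW_eq vertexW_eq halg
  refine ⟨fun x => better (G x) (alg (G x)) (a' x) (b' x), ?_, ?_⟩
  · exact polyTime_of_PT (fun _ => rfl) (PT_better hG1 (hal1.comp hG1) ha1 hb1)
  · intro x
    obtain ⟨h1, -, -, h4, h5, h6, h7⟩ := hx x
    obtain ⟨h8, h9, h10⟩ := hal (G x) h1
    rw [better_iff _ _ _ _ h4 h8 h9]
    constructor
    · intro hxL
      refine lt_of_le_of_lt (h10.trans ?_) h5
      exact mul_le_mul_of_nonneg_left (h6 hxL) (hF _ h1.1)
    · intro hlt
      by_contra hxL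
      have h11 := h7 hxL
      have h12 := Phi_le (capU (G x)) (capU_nonneg _) _ h8 h9
      linarith

theorem gap_imp {F : ℕ → ℝ} (hF : ∀ N, 2 ≤ N → 0 ≤ F N) (h : ∀ L ∈ classNP, GapRed F L)
    (halg : Vale.Agent.P318.HasApprox F) : classNP = classP :=
  Set.Subset.antisymm (fun L hL => (h L hL).mem_P hF halg) Vale.Agent.P333.NP.classP_subset

end Vale.Agent.P318.NPH
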