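import Mathlib
import Vale.Agent.P318.NPH.Defs

/-!
The field with `2 ^ s` elements on the naturals `< 2 ^ s`: addition is `xor`, multiplication is
`mulN`, the modulus is `findP (2 ^ s)`.
-/

namespace Vale.Agent.P318.NPH

open Polynomial

/-! ### Polynomials over the field with two elements coded by naturals -/

/-- The polynomial with code `n`. -/
noncomputable def poly (n : ℕ) : (ZMod 2)[X] :=
  ∑ i ∈ Finset.range n, if n.testBit i then X ^ i else 0

theorem testBit_of_le {n i : ℕ} (h : n ≤ i) : n.testBit i = false :=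
  Nat.testBit_lt_two_pow (lt_of_le_of_lt h Nat.lt_two_pow_self)

theorem coeff_poly (n i : ℕ) : (poly n).coeff i = if n.testBit i then 1 else 0 := by
  unfold poly
  rw [finsetSum_coeff]
  by_cases h : i < n
  · rw [Finset.sum_eq_single i]
    · split_ifs <;> simp
    · intro j _ hj
      split_ifs <;> simp [coeff_X_pow, Ne.symm hj]
    · intro hi
      exact absurd (Finset.mem_range.2 h) hi
  · rw [testBit_of_le (not_lt.1 h)]
    simp only [Bool.false_eq_true, if_false]
    apply Finset.sum_eq_zero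
    intro j hj
    have : i ≠ j := by
      have := Finset.mem_range.1 hj
      omega
    split_ifs <;> simp [coeff_X_pow, this]

theorem poly_zero : poly 0 = 0 := by simp [poly]

theorem poly_one : poly 1 = 1 := by simp [poly]

theorem poly_inj {a b : ℕ} (h : poly a = poly b) : a = b := by
  apply Nat.eq_of_testBit_eq
  intro i
  have := congrArg (fun p => p.coeff i) h
  simp only [coeff_poly] at this
  cases ha : a.testBit i <;> cases hb : b.testBit i <;> simp_all

theorem poly_xor (a b : ℕ) : poly (a ^^^ b) = poly a + poly b := by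
  ext i
  rw [coeff_add, coeff_poly, coeff_poly, coeff_poly, Nat.testBit_xor]
  cases a.testBit i <;> cases b.testBit i <;> simp [CharTwo.add_self_eq_zero]

theorem poly_double (a : ℕ) : poly (2 * a) = X * poly a := by
  ext i
  cases i with
  | zero => simp [coeff_poly, Nat.testBit_zero]
  | succ i => rw [coeff_X_mul, coeff_poly, coeff_poly, Nat.testBit_succ,
      Nat.mul_div_cancel_left _ (by norm_num)]

theorem degree_poly_lt {n s : ℕ} (h : n < 2 ^ s) : (poly n).degree < s := by
  rw [degree_lt_iff_coeff_zero]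
  intro i hi
  rw [coeff_poly, Nat.testBit_lt_two_pow (lt_of_lt_of_le h (Nat.pow_le_pow_right (by norm_num) hi))]
  simp

theorem monic_poly {n s : ℕ} (h : 2 ^ s ≤ n) (h' : n < 2 ^ (s + 1)) :
    (poly n).Monic ∧ (poly n).natDegree = s := by
  have h1 : (poly n).coeff s = 1 := by
    rw [coeff_poly, Nat.testBit_eq_decide_div_mod_eq]
    have : n / 2 ^ s = 1 := by
      rw [Nat.div_eq_iff (by positivity)]
      rw [pow_succ] at h'
      omega
    rw [this]
    simp
  have h2 : (poly n).degree ≤ s := by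
    rw [degree_le_iff_coeff_zero]
    intro i hi
    have hi' : s + 1 ≤ i := by
      have : s < i := by exact_mod_cast hi
      omega
    rw [coeff_poly, Nat.testBit_lt_two_pow
      (lt_of_lt_of_le h' (Nat.pow_le_pow_right (by norm_num) hi'))]
    simp
  have h3 : (poly n).natDegree = s := natDegree_eq_of_le_of_coeff_ne_zero
    (natDegree_le_iff_degree_le.2 h2) (by rw [h1]; exact one_ne_zero)
  exact ⟨by rw [Monic, leadingCoeff, h3, h1], h3⟩

/-- Every polynomial of degree `< s` has a code `< 2 ^ s`. -/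
theorem exists_code (f : (ZMod 2)[X]) (s : ℕ) (h : f.degree < s) : ∃ n < 2 ^ s, poly n = f := by
  induction s generalizing f with
  | zero =>
    refine ⟨0, by norm_num, ?_⟩
    have : f = 0 := by
      rw [← degree_eq_bot]
      simpa [Nat.WithBot.lt_zero_iff] using h
    rw [this, poly_zero]
  | succ s ih =>
    obtain ⟨m, hm, hm'⟩ := ih f.divX (by
      rcases eq_or_ne f.divX 0 with h0 | h0
      · rw [h0]; simp
      · rw [degree_lt_iff_coeff_zero] at h ⊢
        intro i hi
        rw [coeff_divX]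
        exact h _ (by omega))
    have hc : f.coeff 0 = 0 ∨ f.coeff 0 = 1 := by
      generalize f.coeff 0 = c
      revert c
      decide
    have hf := divX_mul_X_add f
    rcases hc with h0 | h0
    · refine ⟨2 * m, by rw [pow_succ]; omega, ?_⟩
      rw [poly_double, hm', mul_comm]
      rw [h0] at hf
      simpa using hf
    · refine ⟨(2 * m) ^^^ 1, ?_, ?_⟩
      · apply Nat.xor_lt_two_pow
        · rw [pow_succ]; omega
        · rw [pow_succ]
          have : 0 < 2 ^ s := by positivity
          omega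
      · rw [poly_xor, poly_double, hm', poly_one, mul_comm]
        rw [h0] at hf
        simpa using hf

/-! ### The quotient ring -/

/-- The residue class of the polynomial with code `n`. -/
noncomputable def el (P n : ℕ) : AdjoinRoot (poly P) := AdjoinRoot.mk (poly P) (poly n)

theorem el_zero (P : ℕ) : el P 0 = 0 := by simp [el, poly_zero]

theorem el_one (P : ℕ) : el P 1 = 1 := by simp [el, poly_one]

theorem el_xor (P a b : ℕ) : el P (a ^^^ b) = el P a + el P b := by
  simp [el, poly_xor]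

theorem el_self (P : ℕ) : el P P = 0 := by simp [el]

theorem el_double (P a : ℕ) : el P (2 * a) = AdjoinRoot.root (poly P) * el P a := by
  simp [el, poly_double, AdjoinRoot.mk_X]

theorem el_xt (q P a : ℕ) : el P (xt q P a) = AdjoinRoot.root (poly P) * el P a := by
  unfold xt
  split_ifs
  · exact el_double P a
  · rw [el_xor, el_self, el_double, add_zero]

variable {s P : ℕ}

theorem xt_lt (h : 2 ^ s ≤ P) (h' : P < 2 ^ (s + 1)) {a : ℕ} (ha : a < 2 ^ s) :
    xt (2 ^ s) P a < 2 ^ s := by
  unfold xt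
  split_ifs with h1
  · exact h1
  · have h2 : 2 * a < 2 ^ (s + 1) := by rw [pow_succ]; omega
    apply Nat.lt_pow_two_of_testBit
    intro i hi
    rw [Nat.testBit_xor]
    rcases eq_or_lt_of_le hi with rfl | hi
    · have e : ∀ n : ℕ, 2 ^ s ≤ n → n < 2 ^ (s + 1) → n.testBit s = true := by
        intro n hn hn'
        rw [Nat.testBit_eq_decide_div_mod_eq]
        have : n / 2 ^ s = 1 := by
          rw [Nat.div_eq_iff (by positivity)]
          rw [pow_succ] at hn'
          omega
        rw [this]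
        simp
      rw [e _ (not_lt.1 h1) h2, e _ h h']
      rfl
    · rw [Nat.testBit_lt_two_pow (lt_of_lt_of_le h2 (Nat.pow_le_pow_right (by norm_num) hi)),
        Nat.testBit_lt_two_pow (lt_of_lt_of_le h' (Nat.pow_le_pow_right (by norm_num) hi))]
      rfl

theorem mulN_lt (h : 2 ^ s ≤ P) (h' : P < 2 ^ (s + 1)) {a : ℕ} (b : ℕ) (ha : a < 2 ^ s) :
    mulN (2 ^ s) P a b < 2 ^ s := by
  unfold mulN
  induction b.bits with
  | nil => simp
  | cons t l ih =>
    rw [List.foldr_cons]
    apply Nat.xor_lt_two_pow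
    · split_ifs
      · exact ha
      · positivity
    · exact xt_lt h h' ih

theorem poly_bit (t : Bool) (n : ℕ) : poly (Nat.bit t n) = (if t then 1 else 0) + X * poly n := by
  have h2 : (2 * n) % 2 = 0 := by omega
  cases t with
  | false => rw [Nat.bit_false_apply, poly_double]; simp
  | true =>
    have : Nat.bit true n = (2 * n) ^^^ 1 := by
      rw [Nat.bit_true_apply, Nat.xor_one_of_even (even_two_mul n)]
    rw [this, poly_xor, poly_double, poly_one, add_comm]
    simp

theorem el_mulN (q P a b : ℕ) : el P (mulN q P a b) = el P a * el P b := by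
  unfold mulN
  induction b using Nat.binaryRec' with
  | zero => simp [el_zero]
  | bit t n h ih =>
    rw [Nat.bits_append_bit n t h, List.foldr_cons, el_xor, el_xt, ih]
    have : el P (Nat.bit t n) = (if t then 1 else 0) + AdjoinRoot.root (poly P) * el P n := by
      rw [el, poly_bit, map_add, map_mul, AdjoinRoot.mk_X]
      congr 1
      split_ifs
      · exact map_one _
      · exact map_zero _
    rw [this]
    split_ifs
    · ring
    · rw [el_zero]; ring

theorem el_inj (h : 2 ^ s ≤ P) (h' : P < 2 ^ (s + 1)) {a b : ℕ} (ha : a < 2 ^ s)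
    (hb : b < 2 ^ s) (hab : el P a = el P b) : a = b := by
  obtain ⟨hm, hd⟩ := monic_poly h h'
  have h1 : el P (a ^^^ b) = 0 := by
    have : (a ^^^ b) ^^^ b = a := by rw [Nat.xor_assoc, Nat.xor_self, Nat.xor_zero]
    have h2 := el_xor P (a ^^^ b) b
    rw [this, hab] at h2
    simpa using h2
  rw [el, AdjoinRoot.mk_eq_zero] at h1
  have h2 : poly (a ^^^ b) = 0 := by
    apply eq_zero_of_dvd_of_degree_lt h1
    rw [degree_eq_natDegree hm.ne_zero, hd]
    exact degree_poly_lt (Nat.xor_lt_two_pow ha hb)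
  rw [← poly_zero] at h2
  exact Nat.xor_eq_zero_iff.1 (poly_inj h2)

theorem el_surj (h : 2 ^ s ≤ P) (h' : P < 2 ^ (s + 1)) (x : AdjoinRoot (poly P)) :
    ∃ n < 2 ^ s, el P n = x := by
  obtain ⟨hm, hd⟩ := monic_poly h h'
  obtain ⟨f, rfl⟩ := AdjoinRoot.mk_surjective x
  obtain ⟨n, hn, hn'⟩ := exists_code (f %ₘ poly P) s (by
    have := degree_modByMonic_lt f hm
    rwa [degree_eq_natDegree hm.ne_zero, hd] at this)
  refine ⟨n, hn, ?_⟩
  rw [el, hn', AdjoinRoot.mk_eq_mk]
  have := modByMonic_add_div f (poly P)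
  refine ⟨-(f /ₘ poly P), ?_⟩
  linear_combination this

/-- The test for the modulus, as a statement. -/
theorem isFld_iff {q P : ℕ} : isFld q P = true ↔
    ∀ a < q, ∀ b < q, mulN q P a b = 0 → a = 0 ∨ b = 0 := by
  simp only [isFld, List.all_eq_true, List.mem_range, Bool.or_eq_true, decide_eq_true_eq,
    Bool.not_eq_true', decide_eq_false_iff_not]
  constructor
  · intro h a ha b hb h0
    rcases h a ha b hb with h1 | h1
    · exact h1
    · exact absurd h0 h1
  · intro h a ha b hb
    by_cases h0 : mulN q P a b = 0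
    · exact Or.inl (h a ha b hb h0)
    · exact Or.inr h0

theorem irreducible (hs : 0 < s) (h : 2 ^ s ≤ P) (h' : P < 2 ^ (s + 1))
    (hg : isFld (2 ^ s) P = true) : Irreducible (poly P) := by
  have hne : poly P ≠ 0 := (monic_poly h h').1.ne_zero
  have h1 : (1 : ℕ) < 2 ^ s := Nat.one_lt_two_pow hs.ne'
  have hnt : Nontrivial (AdjoinRoot (poly P)) := ⟨0, 1, fun h0 => by
    rw [← el_zero P, ← el_one P] at h0
    have := el_inj h h' (by positivity) h1 h0
    omega⟩
  have hnz : NoZeroDivisors (AdjoinRoot (poly P)) := ⟨fun {x y} hxy => by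
    obtain ⟨a, ha, rfl⟩ := el_surj h h' x
    obtain ⟨b, hb, rfl⟩ := el_surj h h' y
    rw [← el_mulN (2 ^ s), ← el_zero P] at hxy
    have := el_inj h h' (mulN_lt h h' b ha) (by positivity) hxy
    rcases isFld_iff.1 hg a ha b hb this with rfl | rfl
    · exact Or.inl (el_zero P)
    · exact Or.inr (el_zero P)⟩
  have hd : IsDomain (AdjoinRoot (poly P)) := NoZeroDivisors.to_isDomain _
  have hp : (Ideal.span {poly P}).IsPrime := by
    rw [← Ideal.Quotient.isDomain_iff_prime]
    exact hd
  exact ((Ideal.span_singleton_prime hne).1 hp).irreducible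

theorem exists_irreducible (s : ℕ) (hs : 0 < s) :
    ∃ f : (ZMod 2)[X], f.Monic ∧ Irreducible f ∧ f.natDegree = s := by
  obtain ⟨α, hα⟩ := Field.exists_primitive_element (ZMod 2) (GaloisField 2 s)
  have hi : IsIntegral (ZMod 2) α := Algebra.IsIntegral.isIntegral α
  refine ⟨minpoly (ZMod 2) α, minpoly.monic hi, minpoly.irreducible hi, ?_⟩
  rw [← IntermediateField.adjoin.finrank hi, hα, IntermediateField.finrank_top',
    GaloisField.finrank 2 hs.ne']

theorem exists_good (s : ℕ) (hs : 0 < s) : ∃ j < 2 ^ s, isFld (2 ^ s) (2 ^ s + j) = true := by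
  obtain ⟨f, hm, hi, hd⟩ := exists_irreducible s hs
  obtain ⟨P, hP, rfl⟩ := exists_code f (s + 1) (by
    rw [degree_eq_natDegree hm.ne_zero, hd]
    exact_mod_cast Nat.lt_succ_self s)
  have hP' : 2 ^ s ≤ P := by
    by_contra hlt
    have := degree_poly_lt (not_le.1 hlt)
    rw [degree_eq_natDegree hm.ne_zero, hd] at this
    exact lt_irrefl _ this
  refine ⟨P - 2 ^ s, ?_, ?_⟩
  · rw [pow_succ] at hP
    omega
  · rw [Nat.add_sub_cancel' hP', isFld_iff]
    intro a ha b hb h0
    have : Fact (Irreducible (poly P)) := ⟨hi⟩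
    have h1 : el P a * el P b = 0 := by rw [← el_mulN (2 ^ s), h0, el_zero]
    rw [← el_zero P] at h1
    rcases mul_eq_zero.1 (h1.trans (el_zero P)) with h2 | h2
    · exact Or.inl (el_inj hP' hP ha (by positivity) (h2.trans (el_zero P).symm))
    · exact Or.inr (el_inj hP' hP hb (by positivity) (h2.trans (el_zero P).symm))

theorem findP_spec (hs : 0 < s) : 2 ^ s ≤ findP (2 ^ s) ∧ findP (2 ^ s) < 2 ^ (s + 1) ∧
    isFld (2 ^ s) (findP (2 ^ s)) = true := by
  obtain ⟨j, hj, hj'⟩ := exists_good s hs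
  unfold findP
  cases h : ((List.range (2 ^ s)).map fun i => 2 ^ s + i).find? fun P => isFld (2 ^ s) P with
  | none =>
    rw [List.find?_eq_none] at h
    exact absurd hj' (h _ (List.mem_map.2 ⟨j, List.mem_range.2 hj, rfl⟩))
  | some k =>
    have h1 := List.find?_some h
    obtain ⟨i, hi, rfl⟩ := List.mem_map.1 (List.mem_of_find?_eq_some h)
    have h2 := List.mem_range.1 hi
    simp only [Option.getD_some]
    refine ⟨by omega, by rw [pow_succ]; omega, h1⟩

/-! ### Vectors -/

theorem xor_digit (s a b j : ℕ) : (a ^^^ b) / (2 ^ s) ^ j % 2 ^ s =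
    (a / (2 ^ s) ^ j % 2 ^ s) ^^^ (b / (2 ^ s) ^ j % 2 ^ s) := by
  rw [← pow_mul, Nat.xor_div_two_pow, Nat.xor_mod_two_pow]

theorem xor_lt_pow {s M a b : ℕ} (ha : a < (2 ^ s) ^ M) (hb : b < (2 ^ s) ^ M) :
    a ^^^ b < (2 ^ s) ^ M := by
  rw [← pow_mul] at *
  exact Nat.xor_lt_two_pow ha hb

/-- The interface. -/
theorem exists_space (s : ℕ) (hs : 1 ≤ s) : ∃ (K : Type) (_ : Field K) (_ : Fintype K)
    (_ : DecidableEq K) (e : K ≃ Fin (2 ^ s)) (φ : K →+ ZMod 2) (θ : K), φ θ = 1 ∧
    (e 0 : ℕ) = 0 ∧ Fintype.card K = 2 ^ s ∧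
    ∀ M : ℕ, ∃ idx : (Fin M → K) ≃ Fin ((2 ^ s) ^ M),
      (∀ p, (idx p : ℕ) = ∑ j : Fin M, (e (p j) : ℕ) * (2 ^ s) ^ (j : ℕ)) ∧
      (∀ y h g u, (idx (y + u • h + (u * u) • g) : ℕ) =
        ptN (2 ^ s) (findP (2 ^ s)) M (idx y) (idx h) (idx g) (e u)) ∧
      (∀ h f u, (idx (h + u • f) : ℕ) =
        (idx h : ℕ) ^^^ smulN (2 ^ s) (findP (2 ^ s)) M (e u) (idx f)) := by
  obtain ⟨h, h', hg⟩ := findP_spec (s := s) hs
  set P := findP (2 ^ s) with hP
  have hirr := irreducible hs h h' hg
  have : Fact (Irreducible (poly P)) := ⟨hirr⟩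
  have hb : Function.Bijective (fun n : Fin (2 ^ s) => el P n) := by
    constructor
    · intro a b hab
      exact Fin.ext (el_inj h h' a.2 b.2 hab)
    · intro x
      obtain ⟨n, hn, rfl⟩ := el_surj h h' x
      exact ⟨⟨n, hn⟩, rfl⟩
  let e : AdjoinRoot (poly P) ≃ Fin (2 ^ s) := (Equiv.ofBijective _ hb).symm
  have he : ∀ x, el P (e x : ℕ) = x := fun x => (Equiv.ofBijective _ hb).apply_symm_apply x
  have hadd : ∀ x y, (e (x + y) : ℕ) = (e x : ℕ) ^^^ (e y : ℕ) := by
    intro x y
    apply el_inj h h' (e _).2 (Nat.xor_lt_two_pow (e x).2 (e y).2)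
    rw [he, el_xor, he, he]
  have hmul : ∀ x y, (e (x * y) : ℕ) = mulN (2 ^ s) P (e x) (e y) := by
    intro x y
    apply el_inj h h' (e _).2 (mulN_lt h h' _ (e x).2)
    rw [he, el_mulN, he, he]
  have h0 : (e 0 : ℕ) = 0 := by
    apply el_inj h h' (e _).2 (by positivity)
    rw [he, el_zero]
  have hfin : Finite (AdjoinRoot (poly P)) := Finite.of_equiv _ e.symm
  let ft : Fintype (AdjoinRoot (poly P)) := Fintype.ofFinite _
  obtain ⟨φ, hφ⟩ : ∃ φ : AdjoinRoot (poly P) →+ ZMod 2, φ 1 = 1 := by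
    obtain ⟨f, hf⟩ := Module.Projective.exists_dual_ne_zero (R := ZMod 2)
      (x := (1 : AdjoinRoot (poly P))) one_ne_zero
    refine ⟨f.toAddMonoidHom, ?_⟩
    have : ∀ c : ZMod 2, c ≠ 0 → c = 1 := by decide
    exact this _ hf
  refine ⟨AdjoinRoot (poly P), inferInstance, ft, Classical.decEq _, e, φ, 1, hφ, h0, ?_, ?_⟩
  · rw [Fintype.card_congr e, Fintype.card_fin]
  · intro M
    let idx : (Fin M → AdjoinRoot (poly P)) ≃ Fin ((2 ^ s) ^ M) :=
      ((Equiv.refl (Fin M)).arrowCongr e).trans finFunctionFinEquiv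
    have hidx : ∀ p, (idx p : ℕ) = ∑ j : Fin M, (e (p j) : ℕ) * (2 ^ s) ^ (j : ℕ) := by
      intro p
      simp only [idx, Equiv.trans_apply, finFunctionFinEquiv_apply]
      rfl
    have hdig : ∀ p (j : Fin M), (idx p : ℕ) / (2 ^ s) ^ (j : ℕ) % 2 ^ s = e (p j) := by
      intro p j
      rw [← finFunctionFinEquiv_symm_apply_val]
      simp only [idx, Equiv.trans_apply, Equiv.symm_apply_apply]
      rfl
    have hext : ∀ a b : ℕ, a < (2 ^ s) ^ M → b < (2 ^ s) ^ M →
        (∀ j : Fin M, a / (2 ^ s) ^ (j : ℕ) % 2 ^ s = b / (2 ^ s) ^ (j : ℕ) % 2 ^ s) → a = b := by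
      intro a b ha hb hab
      have : (⟨a, ha⟩ : Fin ((2 ^ s) ^ M)) = ⟨b, hb⟩ := by
        apply finFunctionFinEquiv.symm.injective
        funext j
        apply Fin.ext
        rw [finFunctionFinEquiv_symm_apply_val, finFunctionFinEquiv_symm_apply_val]
        exact hab j
      exact congrArg Fin.val this
    have hiadd : ∀ p r, (idx (p + r) : ℕ) = (idx p : ℕ) ^^^ (idx r : ℕ) := by
      intro p r
      apply hext _ _ (idx _).2
      · exact xor_lt_pow (idx p).2 (idx r).2
      · intro j
        rw [xor_digit, hdig, hdig, hdig, Pi.add_apply, hadd]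
    have hismul : ∀ u p, (idx (u • p) : ℕ) = smulN (2 ^ s) P M (e u) (idx p) := by
      intro u p
      have h1 : smulN (2 ^ s) P M (e u) (idx p) = ∑ j ∈ Finset.range M,
          mulN (2 ^ s) P (e u) ((idx p : ℕ) / (2 ^ s) ^ j % 2 ^ s) * (2 ^ s) ^ j := rfl
      rw [hidx, h1, Finset.sum_range]
      apply Finset.sum_congr rfl
      intro j _
      rw [hdig, Pi.smul_apply, smul_eq_mul, hmul]
    refine ⟨idx, hidx, ?_, ?_⟩
    · intro y h g u
      rw [hiadd, hiadd, hismul, hismul, hmul, ptN]
    · intro h f u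
      rw [hiadd, hismul]

end Vale.Agent.P318.NPH
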