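import Vale.Agent.P318.NPH.AlgSound

/-!
Completeness: every assignment of the systematic points extends to a balanced assignment of all
points which passes all main tests.
-/

set_option linter.unusedSectionVars false

namespace Vale.Agent.P318.NPH

open Finset Polynomial

section poly

variable {K : Type*} [Field K] [Fintype K]

theorem sum_eval_eq_zero (P : K[X]) (hP : P.natDegree < Fintype.card K - 1) :
    ∑ u : K, P.eval u = 0 := by
  simp_rw [eval_eq_sum_range]
  rw [sum_comm]
  refine sum_eq_zero fun i hi => ?_
  rw [mem_range] at hi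
  rw [← mul_sum, FiniteField.sum_pow_lt_card_sub_one K i (by omega), mul_zero]

end poly

variable {K : Type*} [Field K] [Fintype K] [DecidableEq K]

section comp

variable {D : Type*} [Fintype D] [DecidableEq D] {m : ℕ}

/-- The systematic point with coordinates `c`. -/
def sysPt (η : D → K) (c : Fin m → D) : Fin (m + 1) → K :=
  Fin.snoc (α := fun _ => K) (fun j => η (c j)) 0

/-- The extension of an assignment of the systematic points. -/
noncomputable def lde (η : D → K) (θ : K) (x : (Fin m → D) → K) (p : Fin (m + 1) → K) : K :=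
  ∑ c : Fin m → D, x c * θ * ∏ j : Fin m, (Lagrange.basis univ η (c j)).eval (p j.castSucc)

theorem lde_sysPt (η : D → K) (hη : Function.Injective η) (θ : K) (x : (Fin m → D) → K)
    (c : Fin m → D) : lde η θ x (sysPt η c) = x c * θ := by
  rw [lde, Finset.sum_eq_single c]
  · have : ∏ j : Fin m, (Lagrange.basis univ η (c j)).eval (sysPt η c j.castSucc) = 1 := by
      refine prod_eq_one fun j _ => ?_
      rw [sysPt, Fin.snoc_castSucc]
      exact Lagrange.eval_basis_self (hη.injOn) (mem_univ _)
    rw [this, mul_one]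
  · intro c' _ hc'
    obtain ⟨j, hj⟩ : ∃ j, c' j ≠ c j := by
      by_contra h
      push Not at h
      exact hc' (funext h)
    rw [prod_eq_zero (mem_univ j), mul_zero]
    rw [sysPt, Fin.snoc_castSucc]
    exact Lagrange.eval_basis_of_ne hj (mem_univ _)
  · intro h
    exact absurd (mem_univ _) h

theorem lde_update_last (η : D → K) (θ : K) (x : (Fin m → D) → K) (p : Fin (m + 1) → K) (z : K) :
    lde η θ x (Function.update p (Fin.last m) z) = lde η θ x p := by
  rw [lde, lde]
  refine sum_congr rfl fun c _ => ?_
  congr 1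
  refine prod_congr rfl fun j _ => ?_
  rw [Function.update_of_ne (Fin.castSucc_lt_last j).ne]

/-- The curve as a polynomial. -/
noncomputable def crv (y h g : K) : K[X] := C y + C h * X + C g * X ^ 2

theorem crv_eval (y h g u : K) : (crv y h g).eval u = y + u * h + (u * u) * g := by
  simp only [crv, eval_add, eval_C, eval_mul, eval_X, eval_pow]
  ring

theorem crv_natDegree (y h g : K) : (crv y h g).natDegree ≤ 2 := by
  unfold crv
  compute_degree

/-- The extension along a curve is a polynomial of small degree. -/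
noncomputable def ldePoly (η : D → K) (θ : K) (x : (Fin m → D) → K) (y h g : Fin (m + 1) → K) :
    K[X] :=
  ∑ c : Fin m → D, C (x c * θ) * ∏ j : Fin m, (Lagrange.basis univ η (c j)).comp
    (crv (y j.castSucc) (h j.castSucc) (g j.castSucc))

theorem ldePoly_eval (η : D → K) (θ : K) (x : (Fin m → D) → K) (y h g : Fin (m + 1) → K) (u : K) :
    (ldePoly η θ x y h g).eval u = lde η θ x (cpt y h g u) := by
  rw [ldePoly, lde, eval_finsetSum]
  refine sum_congr rfl fun c _ => ?_
  rw [eval_mul, eval_C, eval_prod]
  congr 1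
  refine prod_congr rfl fun j _ => ?_
  rw [eval_comp, crv_eval]
  simp [cpt]

theorem ldePoly_natDegree (η : D → K) (hη : Function.Injective η) (θ : K) (x : (Fin m → D) → K)
    (y h g : Fin (m + 1) → K) :
    (ldePoly η θ x y h g).natDegree ≤ 2 * m * (Fintype.card D - 1) := by
  rw [ldePoly]
  refine natDegree_sum_le_of_forall_le _ _ fun c _ => ?_
  refine (natDegree_C_mul_le _ _).trans ?_
  refine (natDegree_prod_le _ _).trans ?_
  have h1 : ∀ j : Fin m, ((Lagrange.basis univ η (c j)).comp
      (crv (y j.castSucc) (h j.castSucc) (g j.castSucc))).natDegree ≤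
      (Fintype.card D - 1) * 2 := by
    intro j
    refine natDegree_comp_le.trans ?_
    rw [Lagrange.natDegree_basis (hη.injOn) (mem_univ _), card_univ]
    exact Nat.mul_le_mul_left _ (crv_natDegree _ _ _)
  refine (sum_le_sum fun j _ => h1 j).trans ?_
  rw [sum_const, card_univ, Fintype.card_fin, smul_eq_mul]
  apply le_of_eq
  ring

/-- The honest assignment. -/
noncomputable def honest (η : D → K) (φ : K →+ ZMod 2) (θ : K) (x : (Fin m → D) → K)
    (p : Fin (m + 1) → K) : ZMod 2 := φ (lde η θ x p + p (Fin.last m))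

theorem honest_sum (η : D → K) (hη : Function.Injective η) (φ : K →+ ZMod 2) (θ : K)
    (x : (Fin m → D) → K) (h4 : 4 ≤ Fintype.card K)
    (hd : 2 * m * (Fintype.card D - 1) ≤ Fintype.card K - 2)
    (t : (Fin (m + 1) → K) × (Fin (m + 1) → K) × (Fin (m + 1) → K)) :
    ∑ u : K, honest η φ θ x (mpos t u) = 0 := by
  obtain ⟨y, h, g⟩ := t
  simp only [honest, mpos]
  rw [← map_sum, sum_add_distrib]
  have h1 : ∑ u : K, lde η θ x (cpt y h g u) = 0 := by
    simp_rw [← ldePoly_eval]
    refine sum_eval_eq_zero _ ?_
    have := ldePoly_natDegree η hη θ x y h g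
    omega
  have h2 : ∑ u : K, cpt y h g u (Fin.last m) = 0 := by
    have : ∀ u : K, cpt y h g u (Fin.last m) =
        (crv (y (Fin.last m)) (h (Fin.last m)) (g (Fin.last m))).eval u := by
      intro u
      rw [crv_eval]
      simp [cpt]
    simp_rw [this]
    refine sum_eval_eq_zero _ ?_
    have := crv_natDegree (y (Fin.last m)) (h (Fin.last m)) (g (Fin.last m))
    omega
  rw [h1, h2, add_zero, map_zero]

theorem honest_mainBad (η : D → K) (hη : Function.Injective η) (φ : K →+ ZMod 2) (θ : K)
    (x : (Fin m → D) → K) (h4 : 4 ≤ Fintype.card K)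
    (hd : 2 * m * (Fintype.card D - 1) ≤ Fintype.card K - 2) :
    mainBad K (honest η φ θ x) = 0 := by
  rw [mainBad, card_eq_zero, filter_eq_empty_iff]
  intro t _
  rw [not_not]
  exact honest_sum η hη φ θ x h4 hd t

theorem honest_sysPt (η : D → K) (hη : Function.Injective η) (φ : K →+ ZMod 2) (θ : K)
    (hθ : φ θ = 1) (x : (Fin m → D) → ZMod 2) (c : Fin m → D) :
    honest η φ θ (fun c => if x c = 1 then 1 else 0) (sysPt η c) = x c := by
  rw [honest, lde_sysPt η hη, sysPt, Fin.snoc_last, add_zero]
  have : ∀ z : ZMod 2, z = 1 ∨ z = 0 := by decide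
  rcases this (x c) with h | h
  · rw [h, if_pos rfl, one_mul, hθ]
  · rw [h, if_neg (by decide), zero_mul, map_zero]

theorem honest_real (η : D → K) (hη : Function.Injective η) (φ : K →+ ZMod 2) (θ : K)
    (x : (Fin m → D) → K) (h4 : 4 ≤ Fintype.card K)
    (hd : 2 * m * (Fintype.card D - 1) ≤ Fintype.card K - 2) {J : Type} [Fintype J] [DecidableEq J]
    (π : J → (Fin (m + 1) → K)) (c : J → K)
    (t : (Fin (m + 1) → K) × (Fin (m + 1) → K) × (Fin (m + 1) → K)) :
    ∑ i, honest η φ θ x (rpos π c t i) = ∑ j, honest η φ θ x (π j) := by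
  rw [Fintype.sum_prod_type]
  refine sum_congr rfl fun j _ => ?_
  have h1 := honest_sum η hη φ θ x h4 hd (π j, t.1 + c j • t.2.2, t.2.1)
  rw [sum_all_eq] at h1
  simp only [mpos] at h1
  rw [cpt_zero] at h1
  exact (zmod2_eq_of_add h1).symm

theorem honest_update (η : D → K) (φ : K →+ ZMod 2) (θ : K) (hθ : φ θ = 1)
    (x : (Fin m → D) → K) (p : Fin (m + 1) → K) :
    honest η φ θ x (Function.update p (Fin.last m) (p (Fin.last m) + θ)) =
      honest η φ θ x p + 1 := by
  rw [honest, honest, lde_update_last, Function.update_self, ← add_assoc, map_add, hθ]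

/-- The honest assignment is balanced. -/
theorem honest_balanced (η : D → K) (φ : K →+ ZMod 2) (θ : K) (hθ : φ θ = 1)
    (x : (Fin m → D) → K) :
    cnt (fun p => decide (honest η φ θ x p = 1)) =
      cnt (fun p => !decide (honest η φ θ x p = 1)) := by
  let T : (Fin (m + 1) → K) ≃ (Fin (m + 1) → K) := Equiv.addRight (Pi.single (Fin.last m) θ)
  have hT : ∀ p, T p = Function.update p (Fin.last m) (p (Fin.last m) + θ) := by
    intro p
    funext j
    show p j + (Pi.single (Fin.last m) θ : Fin (m + 1) → K) j = _
    by_cases hj : j = Fin.last m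
    · subst hj; simp
    · rw [Function.update_of_ne hj, Pi.single_eq_of_ne hj, add_zero]
  rw [cnt, cnt]
  refine card_bij (fun p _ => T p) ?_ ?_ ?_
  · intro p hp
    simp only [mem_filter, mem_univ, true_and, decide_eq_true_eq, Bool.not_eq_true',
      decide_eq_false_iff_not] at hp ⊢
    rw [hT, honest_update η φ θ hθ, hp]
    decide
  · intro p _ p' _ h
    exact T.injective h
  · intro p hp
    simp only [mem_filter, mem_univ, true_and, decide_eq_true_eq, Bool.not_eq_true',
      decide_eq_false_iff_not] at hp
    refine ⟨T.symm p, ?_, T.apply_symm_apply p⟩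
    simp only [mem_filter, mem_univ, true_and, decide_eq_true_eq]
    have h1 := honest_update η φ θ hθ x (T.symm p)
    rw [← hT, T.apply_symm_apply] at h1
    rw [h1] at hp
    revert hp
    generalize honest η φ θ x (T.symm p) = z
    revert z
    decide

end comp

end Vale.Agent.P318.NPH
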