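import Mathlib

/-!
Pairwise independence of the positions of the parity tests, in counting form.
-/

namespace Vale.Agent.P318.NPH

open Finset

section pair

variable {K X : Type*} [Field K] [AddCommGroup X] [Module K X]

/-- Change of variables for two linear forms with a non-zero determinant. -/
theorem sum_two [Fintype X] (α β γ δ : K) (hd : α * δ - β * γ ≠ 0) (p p' : X) (F : X → X → ℕ) :
    ∑ x : X, ∑ y : X, F (p + (α • x + β • y)) (p' + (γ • x + δ • y)) = ∑ a : X, ∑ b : X, F a b := by
  classical
  have hinj : Function.Injective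
      (fun z : X × X => (p + (α • z.1 + β • z.2), p' + (γ • z.1 + δ • z.2))) := by
    rintro ⟨x, y⟩ ⟨x', y'⟩ h
    simp only [Prod.mk.injEq, add_right_inj] at h
    obtain ⟨h1, h2⟩ := h
    have e1 : (α * δ - β * γ) • (x - x') = 0 := by
      have : (α * δ - β * γ) • (x - x') = δ • ((α • x + β • y) - (α • x' + β • y')) -
          β • ((γ • x + δ • y) - (γ • x' + δ • y')) := by module
      rw [this, h1, h2]; simp
    have e2 : (α * δ - β * γ) • (y - y') = 0 := by
      have : (α * δ - β * γ) • (y - y') = α • ((γ • x + δ • y) - (γ • x' + δ • y')) -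
          γ • ((α • x + β • y) - (α • x' + β • y')) := by module
      rw [this, h1, h2]; simp
    have e3 := (smul_eq_zero.1 e1).resolve_left hd
    have e4 := (smul_eq_zero.1 e2).resolve_left hd
    rw [sub_eq_zero] at e3 e4
    rw [e3, e4]
  have hbij := (Finite.injective_iff_bijective).1 hinj
  have h := hbij.sum_comp (fun z : X × X => F z.1 z.2)
  rw [Fintype.sum_prod_type, Fintype.sum_prod_type] at h
  exact h

end pair

section count

variable {ι T X : Type*} [Fintype ι] [DecidableEq ι] [Fintype T] [Fintype X]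

/-- The number of ones among the positions of a test. -/
def ones (σ : X → Bool) (p : ι → X) : ℕ := (univ.filter fun i => σ (p i) = true).card

theorem ones_le (σ : X → Bool) (p : ι → X) : ones σ p ≤ Fintype.card ι := card_le_univ _

/-- The number of points with `σ = true`. -/
def cnt (σ : X → Bool) : ℕ := (univ.filter fun x => σ x = true).card

/-- The sum of `k (w - k)` over a family of tests with pairwise independent positions. -/
theorem sum_quad (σ : X → Bool) (p : T → ι → X) (C : ℕ)
    (h : ∀ i j, i ≠ j → ∀ F : X → X → ℕ, ∑ t : T, F (p t i) (p t j) = C * ∑ a, ∑ b, F a b) :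
    ∑ t : T, ones σ (p t) * (Fintype.card ι - ones σ (p t)) =
      Fintype.card ι * (Fintype.card ι - 1) * C * (cnt σ * cnt (fun x => !σ x)) := by
  classical
  have h1 : ∀ t, ones σ (p t) * (Fintype.card ι - ones σ (p t)) =
      ∑ i : ι, ∑ j : ι, (if σ (p t i) = true then 1 else 0) *
        (if σ (p t j) = true then 0 else 1) := by
    intro t
    have e1 : Fintype.card ι - ones σ (p t) = ∑ j : ι, (if σ (p t j) = true then 0 else 1) := by
      have h2 : ones σ (p t) + ∑ j : ι, (if σ (p t j) = true then 0 else 1) =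
          Fintype.card ι := by
        rw [ones, card_eq_sum_ones, sum_filter, ← sum_add_distrib]
        rw [← card_univ, card_eq_sum_ones]
        refine sum_congr rfl fun i _ => ?_
        split_ifs <;> rfl
      omega
    have e2 : ones σ (p t) = ∑ i : ι, (if σ (p t i) = true then 1 else 0) := by
      rw [ones, card_eq_sum_ones, sum_filter]
    rw [e1, e2, sum_mul_sum]
  rw [sum_congr rfl fun t _ => h1 t, sum_comm]
  have h2 : ∀ i : ι, ∑ t : T, ∑ j : ι, (if σ (p t i) = true then 1 else 0) *
      (if σ (p t j) = true then 0 else 1) =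
      (Fintype.card ι - 1) * (C * (cnt σ * cnt (fun x => !σ x))) := by
    intro i
    rw [sum_comm]
    rw [← sum_erase_add _ _ (mem_univ i)]
    have h3 : ∑ t : T, (if σ (p t i) = true then 1 else 0) *
        (if σ (p t i) = true then 0 else 1) = 0 := by
      refine sum_eq_zero fun t _ => ?_
      split_ifs <;> rfl
    rw [h3, add_zero]
    have h4 : ∀ j ∈ univ.erase i, ∑ t : T, (if σ (p t i) = true then 1 else 0) *
        (if σ (p t j) = true then 0 else 1) = C * (cnt σ * cnt (fun x => !σ x)) := by
      intro j hj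
      rw [h i j (ne_of_mem_erase hj).symm (fun a b => (if σ a = true then 1 else 0) *
        (if σ b = true then 0 else 1))]
      congr 1
      rw [cnt, cnt, card_eq_sum_ones, card_eq_sum_ones, sum_filter, sum_filter, sum_mul_sum]
      refine sum_congr rfl fun a _ => sum_congr rfl fun b _ => ?_
      cases σ a <;> cases σ b <;> simp
    rw [sum_congr rfl h4, sum_const, card_erase_of_mem (mem_univ i), card_univ, smul_eq_mul]
  rw [sum_congr rfl fun i _ => h2 i, sum_const, card_univ, smul_eq_mul]
  ring

theorem cnt_add (σ : X → Bool) : cnt σ + cnt (fun x => !σ x) = Fintype.card X := by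
  rw [cnt, cnt, ← card_univ, ← card_filter_add_card_filter_not (s := univ) (fun x => σ x = true)]
  congr 1
  refine congrArg card (filter_congr fun x _ => ?_)
  cases σ x <;> simp

end count

section tests

variable {K X : Type*} [Field K] [Fintype K] [DecidableEq K] [AddCommGroup X] [Module K X]
  [Fintype X]

/-- The point with parameter `u` of the curve `y + u h + u² g`. -/
def cpt (y h g : X) (u : K) : X := y + u • h + (u * u) • g

/-- Positions of the main tests: `(y, h, g)` and `u`. -/
def mpos (t : X × X × X) (u : K) : X := cpt t.1 t.2.1 t.2.2 u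

/-- Positions of the tests of an equation: `(h, g, f)` and `(j, u)`, `u ≠ 0`. -/
def rpos {J : Type*} (π : J → X) (c : J → K) (t : X × X × X) (i : J × {u : K // u ≠ 0}) : X :=
  cpt (π i.1) (t.1 + c i.1 • t.2.2) t.2.1 i.2.1

theorem mpos_pair (u v : K) (huv : u ≠ v) (F : X → X → ℕ) :
    ∑ t : X × X × X, F (mpos t u) (mpos t v) = Fintype.card X * ∑ a, ∑ b, F a b := by
  have h1 : ∑ t : X × X × X, F (mpos t u) (mpos t v) =
      ∑ g : X, ∑ y : X, ∑ h : X, F (mpos (y, h, g) u) (mpos (y, h, g) v) := by
    rw [Fintype.sum_prod_type]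
    rw [sum_congr rfl fun y _ => Fintype.sum_prod_type _]
    rw [sum_congr rfl fun y _ => sum_comm]
    rw [sum_comm]
  rw [h1]
  have h2 : ∀ g : X, ∑ y : X, ∑ h : X, F (mpos (y, h, g) u) (mpos (y, h, g) v) =
      ∑ a, ∑ b, F a b := by
    intro g
    have := sum_two (1 : K) u 1 v (by rw [one_mul, mul_one]; exact sub_ne_zero.2 huv.symm)
      ((u * u) • g) ((v * v) • g) F
    rw [← this]
    refine sum_congr rfl fun y _ => sum_congr rfl fun h _ => ?_
    simp only [mpos, cpt]
    congr 1 <;> module
  rw [sum_congr rfl fun g _ => h2 g, sum_const, card_univ, smul_eq_mul]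

theorem rpos_pair {J : Type*} (π : J → X) (c : J → K) (hc : Function.Injective c)
    (i j : J × {u : K // u ≠ 0}) (hij : i ≠ j) (F : X → X → ℕ) :
    ∑ t : X × X × X, F (rpos π c t i) (rpos π c t j) = Fintype.card X * ∑ a, ∑ b, F a b := by
  obtain ⟨i, u, hu⟩ := i
  obtain ⟨j, v, hv⟩ := j
  by_cases huv : u = v
  · subst huv
    have hij' : c i ≠ c j := fun h => hij (by rw [hc h])
    have h1 : ∑ t : X × X × X, F (rpos π c t (i, ⟨u, hu⟩)) (rpos π c t (j, ⟨u, hv⟩)) =
        ∑ g : X, ∑ h : X, ∑ f : X, F (rpos π c (h, g, f) (i, ⟨u, hu⟩))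
          (rpos π c (h, g, f) (j, ⟨u, hv⟩)) := by
      rw [Fintype.sum_prod_type]
      rw [sum_congr rfl fun y _ => Fintype.sum_prod_type _]
      rw [sum_comm]
    rw [h1]
    have h2 : ∀ g : X, ∑ h : X, ∑ f : X, F (rpos π c (h, g, f) (i, ⟨u, hu⟩))
          (rpos π c (h, g, f) (j, ⟨u, hv⟩)) = ∑ a, ∑ b, F a b := by
      intro g
      have hd : u * (u * c j) - (u * c i) * u ≠ 0 := by
        have : u * (u * c j) - (u * c i) * u = u * u * (c j - c i) := by ring
        rw [this]
        exact mul_ne_zero (mul_ne_zero hu hu) (sub_ne_zero.2 hij'.symm)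
      have := sum_two u (u * c i) u (u * c j) hd (π i + (u * u) • g) (π j + (u * u) • g) F
      rw [← this]
      refine sum_congr rfl fun y _ => sum_congr rfl fun h _ => ?_
      simp only [rpos, cpt]
      congr 1 <;> module
    rw [sum_congr rfl fun g _ => h2 g, sum_const, card_univ, smul_eq_mul]
  · have h1 : ∑ t : X × X × X, F (rpos π c t (i, ⟨u, hu⟩)) (rpos π c t (j, ⟨v, hv⟩)) =
        ∑ f : X, ∑ h : X, ∑ g : X, F (rpos π c (h, g, f) (i, ⟨u, hu⟩))
          (rpos π c (h, g, f) (j, ⟨v, hv⟩)) := by
      rw [Fintype.sum_prod_type]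
      rw [sum_congr rfl fun y _ => Fintype.sum_prod_type _]
      rw [sum_congr rfl fun y _ => sum_comm]
      rw [sum_comm]
    rw [h1]
    have h2 : ∀ f : X, ∑ h : X, ∑ g : X, F (rpos π c (h, g, f) (i, ⟨u, hu⟩))
          (rpos π c (h, g, f) (j, ⟨v, hv⟩)) = ∑ a, ∑ b, F a b := by
      intro f
      have hd : u * (v * v) - (u * u) * v ≠ 0 := by
        have : u * (v * v) - (u * u) * v = u * v * (v - u) := by ring
        rw [this]
        exact mul_ne_zero (mul_ne_zero hu hv) (sub_ne_zero.2 (Ne.symm huv))
      have := sum_two u (u * u) v (v * v) hd (π i + (u * c i) • f) (π j + (v * c j) • f) F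
      rw [← this]
      refine sum_congr rfl fun y _ => sum_congr rfl fun h _ => ?_
      simp only [rpos, cpt]
      congr 1 <;> module
    rw [sum_congr rfl fun g _ => h2 g, sum_const, card_univ, smul_eq_mul]

/-- The quadratic part of the main tests. -/
theorem mpos_quad (σ : X → Bool) :
    ∑ t : X × X × X, ones σ (mpos (K := K) t) * (Fintype.card K - ones σ (mpos (K := K) t)) =
      Fintype.card K * (Fintype.card K - 1) * Fintype.card X * (cnt σ * cnt (fun x => !σ x)) :=
  sum_quad σ (fun t => mpos (K := K) t) (Fintype.card X) fun i j hij F => mpos_pair i j hij F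

/-- The quadratic part of the tests of an equation. -/
theorem rpos_quad {J : Type*} [Fintype J] [DecidableEq J] (π : J → X) (c : J → K)
    (hc : Function.Injective c) (σ : X → Bool) :
    ∑ t : X × X × X, ones σ (rpos π c t) *
        (Fintype.card (J × {u : K // u ≠ 0}) - ones σ (rpos π c t)) =
      Fintype.card (J × {u : K // u ≠ 0}) * (Fintype.card (J × {u : K // u ≠ 0}) - 1) *
        Fintype.card X * (cnt σ * cnt (fun x => !σ x)) :=
  sum_quad σ (fun t => rpos π c t) (Fintype.card X) fun i j hij F => rpos_pair π c hc i j hij F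

end tests

end Vale.Agent.P318.NPH
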