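import Vale.Agent.P318.NPH.AlgPair

/-!
Self-correction: an assignment which passes almost all main tests is consistent, on the
equation tests, with an assignment of the systematic points.
-/

set_option linter.unusedSectionVars false

namespace Vale.Agent.P318.NPH

open Finset

variable {K X : Type*} [Field K] [Fintype K] [DecidableEq K] [AddCommGroup X] [Module K X]
  [Fintype X] [DecidableEq X]

theorem cpt_zero (y h g : X) : cpt y h g (0 : K) = y := by simp [cpt]

theorem cpt_comm (a h g h' g' : X) (u v : K) :
    cpt (cpt a h g u) h' g' v = cpt (cpt a h' g' v) h g u := by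
  simp only [cpt]; abel

/-- The prediction of the value at `a`. -/
def pred (K : Type*) [Field K] [Fintype K] [DecidableEq K] [Module K X]
    (τ : X → ZMod 2) (a h g : X) : ZMod 2 := ∑ u : {u : K // u ≠ 0}, τ (cpt a h g u.1)

theorem sum_all_eq (F : K → ZMod 2) : ∑ u : K, F u = F 0 + ∑ u : {u : K // u ≠ 0}, F u.1 := by
  rw [← Finset.add_sum_erase _ _ (mem_univ (0 : K))]
  congr 1
  refine (Finset.sum_subtype (univ.erase (0 : K)) (p := fun u => u ≠ 0) (fun x => by simp) F)

theorem zmod2_eq_of_add {x y : ZMod 2} (h : x + y = 0) : x = y := by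
  revert x y; decide

/-- Number of violated main tests. -/
def mainBad (K : Type*) [Field K] [Fintype K] [DecidableEq K] [Module K X] (τ : X → ZMod 2) : ℕ :=
  (univ.filter fun t : X × X × X => ∑ u : K, τ (mpos t u) ≠ 0).card

/-- Number of violated tests of an equation. -/
def realBad {J : Type*} [Fintype J] (τ : X → ZMod 2) (π : J → X) (c : J → K) (β : ZMod 2) : ℕ :=
  (univ.filter fun t : X × X × X => ∑ i, τ (rpos π c t i) ≠ β).card

theorem bij_cpt (a g : X) {u : K} (hu : u ≠ 0) : Function.Bijective fun h : X => cpt a h g u := by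
  refine (Finite.injective_iff_bijective).1 fun h h' e => ?_
  simp only [cpt, add_left_inj, add_right_inj] at e
  exact (smul_right_injective X hu) e

/-- For each `u ≠ 0` the lifted main test is uniformly distributed. -/
theorem card_lift (τ : X → ZMod 2) (a : X) {u : K} (hu : u ≠ 0) :
    (univ.filter fun t : (X × X) × (X × X) =>
      ∑ v : K, τ (cpt (cpt a t.1.1 t.1.2 u) t.2.1 t.2.2 v) ≠ 0).card =
      Fintype.card X * mainBad K τ := by
  classical
  have h1 : mainBad K τ = ∑ y : X, (univ.filter fun t : X × X =>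
      ∑ v : K, τ (cpt y t.1 t.2 v) ≠ 0).card := by
    rw [mainBad, card_filter, Fintype.sum_prod_type]
    refine sum_congr rfl fun y _ => ?_
    rw [card_filter]
    rfl
  rw [card_filter, Fintype.sum_prod_type, Fintype.sum_prod_type, sum_comm]
  have h2 : ∀ g : X, ∑ h : X, ∑ t : X × X,
      (if ∑ v : K, τ (cpt (cpt a h g u) t.1 t.2 v) ≠ 0 then 1 else 0) = mainBad K τ := by
    intro g
    rw [h1]
    rw [← (bij_cpt a g hu).sum_comp (fun y => (univ.filter fun t : X × X =>
      ∑ v : K, τ (cpt y t.1 t.2 v) ≠ 0).card)]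
    refine sum_congr rfl fun h _ => ?_
    rw [card_filter]
  rw [sum_congr rfl fun g _ => h2 g, sum_const, card_univ, smul_eq_mul]

/-- The double sum. -/
def dbl (K : Type*) [Field K] [Fintype K] [DecidableEq K] [Module K X] (τ : X → ZMod 2)
    (a h g h' g' : X) : ZMod 2 :=
  ∑ u : {u : K // u ≠ 0}, ∑ v : {v : K // v ≠ 0}, τ (cpt (cpt a h g u.1) h' g' v.1)

theorem dbl_comm (τ : X → ZMod 2) (a h g h' g' : X) :
    dbl K τ a h g h' g' = dbl K τ a h' g' h g := by
  rw [dbl, dbl, sum_comm]
  exact sum_congr rfl fun v _ => sum_congr rfl fun u _ => by rw [cpt_comm]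

theorem card_pred_ne_dbl (τ : X → ZMod 2) (a : X) :
    (univ.filter fun t : (X × X) × (X × X) =>
      pred K τ a t.1.1 t.1.2 ≠ dbl K τ a t.1.1 t.1.2 t.2.1 t.2.2).card ≤
      (Fintype.card K - 1) * (Fintype.card X * mainBad K τ) := by
  classical
  have hsub : (univ.filter fun t : (X × X) × (X × X) =>
      pred K τ a t.1.1 t.1.2 ≠ dbl K τ a t.1.1 t.1.2 t.2.1 t.2.2) ⊆
      (univ : Finset {u : K // u ≠ 0}).biUnion fun u => univ.filter fun t : (X × X) × (X × X) =>
        ∑ v : K, τ (cpt (cpt a t.1.1 t.1.2 u.1) t.2.1 t.2.2 v) ≠ 0 := by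
    intro t ht
    rw [mem_filter] at ht
    by_contra hcon
    apply ht.2
    rw [pred, dbl]
    refine sum_congr rfl fun u _ => ?_
    simp only [mem_biUnion, mem_univ, mem_filter, true_and, not_exists, not_not] at hcon
    have h1 := hcon u
    rw [sum_all_eq, cpt_zero] at h1
    exact zmod2_eq_of_add h1
  refine (card_le_card hsub).trans ?_
  refine card_biUnion_le.trans ?_
  rw [sum_congr rfl fun (u : {u : K // u ≠ 0}) _ => card_lift τ a u.2, sum_const, card_univ,
    smul_eq_mul]
  have : Fintype.card {u : K // u ≠ 0} = Fintype.card K - 1 := by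
    rw [Fintype.card_subtype_compl, Fintype.card_subtype_eq]
  rw [this]

theorem card_pred_ne_pred (τ : X → ZMod 2) (a : X) :
    (univ.filter fun t : (X × X) × (X × X) =>
      pred K τ a t.1.1 t.1.2 ≠ pred K τ a t.2.1 t.2.2).card ≤
      2 * (Fintype.card K - 1) * (Fintype.card X * mainBad K τ) := by
  classical
  have hsub : (univ.filter fun t : (X × X) × (X × X) =>
      pred K τ a t.1.1 t.1.2 ≠ pred K τ a t.2.1 t.2.2) ⊆
      (univ.filter fun t : (X × X) × (X × X) =>
        pred K τ a t.1.1 t.1.2 ≠ dbl K τ a t.1.1 t.1.2 t.2.1 t.2.2) ∪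
      (univ.filter fun t : (X × X) × (X × X) =>
        pred K τ a t.1.1 t.1.2 ≠ dbl K τ a t.1.1 t.1.2 t.2.1 t.2.2).map
          (Equiv.prodComm (X × X) (X × X)).toEmbedding := by
    intro t ht
    rw [mem_filter] at ht
    rw [mem_union]
    by_contra hcon
    push Not at hcon
    obtain ⟨h1, h2⟩ := hcon
    apply ht.2
    simp only [mem_filter, mem_univ, true_and, not_not] at h1
    rw [h1]
    by_contra h3
    apply h2
    rw [mem_map]
    refine ⟨(t.2, t.1), ?_, rfl⟩
    simp only [mem_filter, mem_univ, true_and]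
    rw [dbl_comm]
    exact fun h => h3 h.symm
  refine (card_le_card hsub).trans ((card_union_le _ _).trans ?_)
  rw [card_map]
  have := card_pred_ne_dbl (K := K) τ a
  calc _ ≤ (Fintype.card K - 1) * (Fintype.card X * mainBad K τ) +
      (Fintype.card K - 1) * (Fintype.card X * mainBad K τ) := add_le_add this this
    _ = _ := by ring

/-- Majority: if `P y ≠ P y'` for few pairs then `P` is almost constant. -/
theorem exists_majority {Y : Type*} [Fintype Y] [DecidableEq Y] (P : Y → ZMod 2) :
    ∃ γ : ZMod 2, Fintype.card Y * (univ.filter fun y => P y ≠ γ).card ≤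
      (univ.filter fun t : Y × Y => P t.1 ≠ P t.2).card := by
  classical
  have h01 : ∀ x : ZMod 2, x ≠ 0 ↔ x = 1 := by decide
  have h10 : ∀ x : ZMod 2, x ≠ 1 ↔ x = 0 := by decide
  set c0 := (univ.filter fun y => P y = 0).card with hc0
  set c1 := (univ.filter fun y => P y = 1).card with hc1
  have hsum : c0 + c1 = Fintype.card Y := by
    rw [hc0, hc1, ← card_univ, ← card_filter_add_card_filter_not (s := univ) (fun y => P y = 0)]
    congr 1
    exact congrArg card (filter_congr fun y _ => (h01 _).symm)
  have hpairs : (univ.filter fun t : Y × Y => P t.1 ≠ P t.2).card = 2 * (c0 * c1) := by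
    have h1 : (univ.filter fun t : Y × Y => P t.1 ≠ P t.2) =
        ((univ.filter fun y => P y = 0) ×ˢ (univ.filter fun y => P y = 1)) ∪
        ((univ.filter fun y => P y = 1) ×ˢ (univ.filter fun y => P y = 0)) := by
      ext t
      simp only [mem_filter, mem_univ, true_and, mem_union, mem_product]
      generalize P t.1 = x
      generalize P t.2 = y
      revert x y; decide
    have hdis : Disjoint ((univ.filter fun y => P y = 0) ×ˢ (univ.filter fun y => P y = 1))
        ((univ.filter fun y => P y = 1) ×ˢ (univ.filter fun y => P y = 0)) := by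
      rw [disjoint_left]
      intro t h1 h2
      simp only [mem_filter, mem_univ, true_and, mem_product] at h1 h2
      rw [h1.1] at h2
      exact absurd h2.1 (by decide)
    rw [h1, card_union_of_disjoint hdis, card_product, card_product, ← hc0, ← hc1]
    ring
  rw [hpairs]
  rcases le_total c0 c1 with h | h
  · refine ⟨1, ?_⟩
    have : (univ.filter fun y => P y ≠ 1).card = c0 := by
      rw [hc0]; exact congrArg card (filter_congr fun y _ => h10 _)
    rw [this, ← hsum]
    nlinarith
  · refine ⟨0, ?_⟩
    have : (univ.filter fun y => P y ≠ 0).card = c1 := by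
      rw [hc1]; exact congrArg card (filter_congr fun y _ => h01 _)
    rw [this, ← hsum]
    nlinarith

/-- The corrected value at `a`. -/
theorem exists_corr [Nonempty X] (τ : X → ZMod 2) (a : X) :
    ∃ γ : ZMod 2, Fintype.card X * (univ.filter fun y : X × X => pred K τ a y.1 y.2 ≠ γ).card ≤
      2 * (Fintype.card K - 1) * mainBad K τ := by
  obtain ⟨γ, hγ⟩ := exists_majority (fun y : X × X => pred K τ a y.1 y.2)
  refine ⟨γ, ?_⟩
  have h1 := hγ.trans (card_pred_ne_pred (K := K) τ a)
  rw [Fintype.card_prod] at h1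
  have hX : 0 < Fintype.card X := Fintype.card_pos
  refine Nat.le_of_mul_le_mul_left (c := Fintype.card X) ?_ hX
  calc _ = Fintype.card X * Fintype.card X *
        (univ.filter fun y : X × X => pred K τ a y.1 y.2 ≠ γ).card := by ring
    _ ≤ _ := h1
    _ = _ := by ring

/-- **Soundness.** There is an assignment of all points such that the tests of each equation it
violates are violated, up to the violated main tests. -/
theorem exists_assign [Nonempty X] (τ : X → ZMod 2) : ∃ γ : X → ZMod 2,
    ∀ (J : Type) [Fintype J] [DecidableEq J] (π : J → X) (c : J → K) (β : ZMod 2),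
      ∑ j, γ (π j) ≠ β → Fintype.card X ^ 3 ≤ realBad τ π c β +
        Fintype.card J * (2 * (Fintype.card K - 1) * mainBad K τ) := by
  classical
  choose γ hγ using exists_corr (K := K) τ
  refine ⟨γ, fun J _ _ π c β hβ => ?_⟩
  have htot : Fintype.card X ^ 3 = (univ.filter fun t : X × X × X =>
      ∑ i, τ (rpos π c t i) ≠ β).card + (univ.filter fun t : X × X × X =>
      ¬ (∑ i, τ (rpos π c t i) ≠ β)).card := by
    rw [card_filter_add_card_filter_not, card_univ, Fintype.card_prod, Fintype.card_prod]
    ring
  rw [htot, realBad]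
  refine Nat.add_le_add_left ?_ _
  have hsub : (univ.filter fun t : X × X × X => ¬ (∑ i, τ (rpos π c t i) ≠ β)) ⊆
      (univ : Finset J).biUnion fun j => univ.filter fun t : X × X × X =>
        pred K τ (π j) (t.1 + c j • t.2.2) t.2.1 ≠ γ (π j) := by
    intro t ht
    rw [mem_filter, not_not] at ht
    by_contra hcon
    apply hβ
    simp only [mem_biUnion, mem_univ, mem_filter, true_and, not_exists, not_not] at hcon
    rw [← ht.2, Fintype.sum_prod_type]
    exact sum_congr rfl fun j _ => (hcon j).symm
  refine (card_le_card hsub).trans (card_biUnion_le.trans ?_)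
  have hj : ∀ j ∈ (univ : Finset J), (univ.filter fun t : X × X × X =>
        pred K τ (π j) (t.1 + c j • t.2.2) t.2.1 ≠ γ (π j)).card ≤
      2 * (Fintype.card K - 1) * mainBad K τ := by
    intro j _
    refine le_trans (le_of_eq ?_) (hγ (π j))
    rw [card_filter, Fintype.sum_prod_type]
    rw [sum_congr rfl fun y _ => Fintype.sum_prod_type _]
    rw [sum_congr rfl fun y _ => sum_comm]
    rw [sum_comm]
    have h2 : ∀ f : X, ∑ h : X, ∑ g : X,
        (if pred K τ (π j) (h + c j • f) g ≠ γ (π j) then 1 else 0) =
        (univ.filter fun y : X × X => pred K τ (π j) y.1 y.2 ≠ γ (π j)).card := by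
      intro f
      rw [card_filter, Fintype.sum_prod_type]
      exact Equiv.sum_comp (Equiv.addRight (c j • f)) (fun h => ∑ g : X,
        if pred K τ (π j) h g ≠ γ (π j) then 1 else 0)
    rw [sum_congr rfl fun f _ => h2 f, sum_const, card_univ, smul_eq_mul]
  refine (sum_le_sum hj).trans ?_
  rw [sum_const, card_univ, smul_eq_mul]

end Vale.Agent.P318.NPH
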