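import Vale.Agent.P318.NPH.EdgesOk
import Vale.Agent.P318.NPH.FieldN
import Vale.Agent.P318.NPH.Params
import Vale.Agent.P318.NPH.Blow

/-!
The gap for the unweighted graph of a system of linear equations.
-/

namespace Vale.Agent.P318.NPH

open Finset Vale.Agent.P333 Vale.Agent.P318

/-- The space with `2 ^ s` scalars. -/
theorem exists_space' (s M : ℕ) (hs : 1 ≤ s) : ∃ (K : Type) (_ : Field K) (_ : Fintype K)
    (_ : DecidableEq K) (_ : Space (2 ^ s) (findP (2 ^ s)) M K) (φ : K →+ ZMod 2) (θ : K),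
    φ θ = 1 := by
  obtain ⟨K, i1, i2, i3, e, φ, θ, hθ, e0, -, hM⟩ := exists_space s hs
  obtain ⟨idx, h1, h2, h3⟩ := hM M
  exact ⟨K, i1, i2, i3, ⟨e, e0, idx, h1, h2, h3⟩, φ, θ, hθ⟩

/-- The number `R` of copies. -/
def rI (T k0 : ℕ) (I : List Eqn) : ℕ := rN (vertsI T k0 I) (edgesI T k0 I)

theorem graphI_eq (T k0 : ℕ) (I : List Eqn) :
    graphI T k0 I = blowMat (vertsI T k0 I) (rI T k0 I) (edgesI T k0 I) := rfl

section

variable (T k0 : ℕ) (I : List Eqn)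

theorem hn_kI : 3 * I.length < (2 ^ rOf T (kI k0 I)) ^ mOf T (kI k0 I) := by
  rw [← pow_mul]
  have h1 := le_rOf_mul_mOf T (kI k0 I)
  have h2 : 3 * I.length + 1 < 2 ^ Nat.size (3 * I.length + 1) := Nat.lt_size_self _
  have h3 : Nat.size (3 * I.length + 1) ≤ rOf T (kI k0 I) * mOf T (kI k0 I) :=
    le_trans (by rw [kI, kOf]; omega) h1
  have h4 := Nat.pow_le_pow_right (show 0 < 2 by norm_num) h3
  omega

theorem q_even : (2 ^ sOf T (kI k0 I)) % 2 = 0 := by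
  have h1 := one_le_sOf T (kI k0 I)
  obtain ⟨s, hs⟩ : ∃ s, sOf T (kI k0 I) = s + 1 := ⟨sOf T (kI k0 I) - 1, by omega⟩
  rw [hs, pow_succ]
  omega

theorem two_pow_k_le : 2 ^ kI k0 I ≤ QI T k0 I := by
  rw [QI, qI, MI, ← pow_mul]
  refine Nat.pow_le_pow_right (by norm_num) ?_
  have h1 := le_rOf_mul_mOf T (kI k0 I)
  have h2 : rOf T (kI k0 I) ≤ sOf T (kI k0 I) := by
    have := H_le_q T (kI k0 I)
    exact (Nat.pow_le_pow_iff_right (by norm_num)).1 this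
  calc kI k0 I ≤ rOf T (kI k0 I) * mOf T (kI k0 I) := h1
    _ ≤ sOf T (kI k0 I) * (mOf T (kI k0 I) + 1) := Nat.mul_le_mul h2 (Nat.le_succ _)

theorem QI_pos : 1 ≤ QI T k0 I := le_trans Nat.one_le_two_pow (two_pow_k_le T k0 I)

theorem QI_le_vertsI (hl : 1 ≤ I.length) : 2 * QI T k0 I ≤ vertsI T k0 I := by
  have hL : 1 ≤ lN (qI T k0 I) (QI T k0 I) I.length :=
    lN_pos (four_le_q _ _) (QI_pos T k0 I) hl
  rw [vertsI, nN]
  have : 3 * QI T k0 I * 1 ≤ 3 * QI T k0 I * lN (qI T k0 I) (QI T k0 I) I.length :=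
    Nat.mul_le_mul_left _ hL
  omega

theorem edgesI_ok (hl : 1 ≤ I.length) : ∀ e ∈ edgesI T k0 I, EOk (vertsI T k0 I) e := by
  obtain ⟨K, _, _, _, Z, φ, θ, hθ⟩ := exists_space' (sOf T (kI k0 I)) (mOf T (kI k0 I) + 1)
    (one_le_sOf _ _)
  exact allE_ok Z (four_le_q _ _) (H_le_q _ _) I (hn_kI T k0 I) hl

theorem verts_two (hl : 1 ≤ I.length) : 2 ≤ vertsI T k0 I := by
  have h1 := QI_le_vertsI T k0 I hl
  have h2 := QI_pos T k0 I
  omega

theorem isGraph_graphI (hl : 1 ≤ I.length) : IsGraph (graphI T k0 I) :=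
  isGraph_blowMat (verts_two T k0 I hl) one_le_rN

theorem graphI_length : (graphI T k0 I).length = vertsI T k0 I * rI T k0 I :=
  blowMat_length

theorem rI_pos : 1 ≤ rI T k0 I := by
  rw [rI, rN]
  exact Nat.mul_pos (by omega) (by omega)

theorem denI_pos (hl : 1 ≤ I.length) : 0 < denI T k0 I := by
  rw [denI, denN]
  have h1 := QI_pos T k0 I
  have hL : 1 ≤ lN (qI T k0 I) (QI T k0 I) I.length :=
    lN_pos (four_le_q _ _) (QI_pos T k0 I) hl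
  positivity

theorem numI_pos (hl : 1 ≤ I.length) : 0 < numI T k0 I := by
  rw [numI, numN]
  have h1 : 0 < I.length * QI T k0 I ^ 3 := Nat.mul_pos hl (Nat.pow_pos (QI_pos T k0 I))
  omega

theorem phi_yes (hl : 1 ≤ I.length) (hV : 8 * minViolated I ≤ I.length) :
    Phi (capU (graphI T k0 I)) ≤ (numI T k0 I : ℝ) / ((denI T k0 I * rI T k0 I ^ 2 : ℕ) : ℝ) := by
  obtain ⟨K, _, _, _, Z, φ, θ, hθ⟩ := exists_space' (sOf T (kI k0 I)) (mOf T (kI k0 I) + 1)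
    (one_le_sOf _ _)
  obtain ⟨S, h1, h2, h3⟩ := weighted_yes Z (four_le_q _ _) (q_even T k0 I) (H_le_q _ _) I
    (hn_kI T k0 I) hl (deg_le_q _ _) φ θ hθ hV
  have h4 := phi_blow_le (verts_two T k0 I hl) (edgesI_ok T k0 I hl) S h1 h2 (numI T k0 I)
    (denI T k0 I) (denI_pos T k0 I hl) h3
  push_cast
  exact h4

theorem phi_no (hl : 1 ≤ I.length) (hV : 3 * I.length ≤ 8 * minViolated I) :
    (((2000 * qI T k0 I ^ 3 + 1) * numI T k0 I : ℕ) : ℝ) /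
      ((denI T k0 I * (2000 * qI T k0 I ^ 3) * rI T k0 I ^ 2 : ℕ) : ℝ) ≤
      Phi (capU (graphI T k0 I)) := by
  obtain ⟨K, _, _, _, Z, φ, θ, hθ⟩ := exists_space' (sOf T (kI k0 I)) (mOf T (kI k0 I) + 1)
    (one_le_sOf _ _)
  have h3 := fun S => weighted_no Z (four_le_q _ _) (q_even T k0 I) (H_le_q _ _) I
    (hn_kI T k0 I) hl S hV
  have h5 : 0 < denI T k0 I * (2000 * qI T k0 I ^ 3) := by
    have := denI_pos T k0 I hl
    have := four_le_q T (kI k0 I)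
    have h6 : 0 < qI T k0 I := by rw [qI]; omega
    positivity
  have h4 := phi_blow_ge (verts_two T k0 I hl) (edgesI_ok T k0 I hl)
    ((2000 * qI T k0 I ^ 3 + 1) * numI T k0 I) (denI T k0 I * (2000 * qI T k0 I ^ 3)) h5 h3
  push_cast
  push_cast at h4
  exact h4

theorem log_ge (hl : 1 ≤ I.length) :
    (kI k0 I : ℝ) * Real.log 2 ≤ Real.log ((graphI T k0 I).length : ℝ) := by
  have h1 : 2 ^ kI k0 I ≤ (graphI T k0 I).length := by
    rw [graphI_length]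
    have h2 := two_pow_k_le T k0 I
    have h3 := QI_le_vertsI T k0 I hl
    have h4 := rI_pos T k0 I
    calc 2 ^ kI k0 I ≤ vertsI T k0 I := by omega
      _ = vertsI T k0 I * 1 := (mul_one _).symm
      _ ≤ _ := Nat.mul_le_mul_left _ h4
  rw [← Real.log_pow]
  refine Real.log_le_log (by positivity) ?_
  exact_mod_cast h1

end

theorem gap_arith (n d q r : ℕ) (hn : 0 < n) (hd : 0 < d) (hq : 0 < q) (hr : 0 < r) (x : ℝ)
    (hx : 1 / x < 1 / (2000 * (q : ℝ) ^ 3)) :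
    (1 + 1 / x) * ((n : ℝ) / ((d * r ^ 2 : ℕ) : ℝ)) <
      (((2000 * q ^ 3 + 1) * n : ℕ) : ℝ) / ((d * (2000 * q ^ 3) * r ^ 2 : ℕ) : ℝ) := by
  have hn0 : (0 : ℝ) < n := by exact_mod_cast hn
  have hd0 : (0 : ℝ) < d := by exact_mod_cast hd
  have hq0 : (0 : ℝ) < q := by exact_mod_cast hq
  have hr0 : (0 : ℝ) < r := by exact_mod_cast hr
  have h6 : (((2000 * q ^ 3 + 1) * n : ℕ) : ℝ) / ((d * (2000 * q ^ 3) * r ^ 2 : ℕ) : ℝ) =
      (1 + 1 / (2000 * (q : ℝ) ^ 3)) * ((n : ℝ) / ((d * r ^ 2 : ℕ) : ℝ)) := by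
    push_cast
    field_simp
  rw [h6]
  refine mul_lt_mul_of_pos_right (by linarith) ?_
  push_cast
  positivity

theorem gap_param (ε : ℝ) (hε : 0 < ε) : ∃ T k0 : ℕ, 1 ≤ T ∧ ∀ I : List Eqn, I ≠ [] →
    1 / Real.log ((graphI T k0 I).length : ℝ) ^ (3 + ε) < 1 / (2000 * (qI T k0 I : ℝ) ^ 3) := by
  obtain ⟨T, hT⟩ := exists_nat_gt (3 / ε)
  have hT0 : (0 : ℝ) < T := lt_trans (by positivity) hT
  have hT1 : 1 ≤ T := by
    have : 0 < T := by exact_mod_cast hT0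
    omega
  have hε' : 3 / (T : ℝ) < ε := by
    rw [div_lt_iff₀ hT0]
    rw [div_lt_iff₀ hε] at hT
    linarith
  obtain ⟨k0, hk0⟩ := q_small T hT1 ε hε' 2001
  refine ⟨T, k0, hT1, fun I hI => ?_⟩
  have hl : 1 ≤ I.length := List.length_pos_iff.2 hI
  have hq : 0 < qI T k0 I := by rw [qI]; exact Nat.pow_pos (by norm_num)
  have h1 := hk0 (kI k0 I) (by rw [kI, kOf]; omega)
  have h2 := log_ge T k0 I hl
  have hk : 0 ≤ (kI k0 I : ℝ) * Real.log 2 :=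
    mul_nonneg (Nat.cast_nonneg _) (Real.log_nonneg (by norm_num))
  have h3 := Real.rpow_le_rpow hk h2 (show 0 ≤ 3 + ε by linarith)
  have e : (qI T k0 I : ℝ) = (2 : ℝ) ^ sOf T (kI k0 I) := by
    rw [qI, Nat.cast_pow, Nat.cast_ofNat]
  have hq0 : (0 : ℝ) < qI T k0 I := by exact_mod_cast hq
  rw [← e] at h1
  have hq3 : (0 : ℝ) < (qI T k0 I : ℝ) ^ 3 := pow_pos hq0 3
  refine one_div_lt_one_div_of_lt (by linarith) ?_
  linarith

/-- **The gap.** -/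
theorem gap_core (ε : ℝ) (hε : 0 < ε) : ∃ T k0 : ℕ, 1 ≤ T ∧ ∀ I : List Eqn, I ≠ [] →
    IsGraph (graphI T k0 I) ∧ 0 < numI T k0 I ∧ 0 < denI T k0 I * rI T k0 I ^ 2 ∧
    0 < denI T k0 I * (2000 * qI T k0 I ^ 3) * rI T k0 I ^ 2 ∧
    (1 + 1 / Real.log ((graphI T k0 I).length : ℝ) ^ (3 + ε)) *
      ((numI T k0 I : ℝ) / ((denI T k0 I * rI T k0 I ^ 2 : ℕ) : ℝ)) <
      (((2000 * qI T k0 I ^ 3 + 1) * numI T k0 I : ℕ) : ℝ) /
      ((denI T k0 I * (2000 * qI T k0 I ^ 3) * rI T k0 I ^ 2 : ℕ) : ℝ) ∧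
    (8 * minViolated I ≤ I.length → Phi (capU (graphI T k0 I)) ≤
      (numI T k0 I : ℝ) / ((denI T k0 I * rI T k0 I ^ 2 : ℕ) : ℝ)) ∧
    (3 * I.length ≤ 8 * minViolated I →
      (((2000 * qI T k0 I ^ 3 + 1) * numI T k0 I : ℕ) : ℝ) /
      ((denI T k0 I * (2000 * qI T k0 I ^ 3) * rI T k0 I ^ 2 : ℕ) : ℝ) ≤
      Phi (capU (graphI T k0 I))) := by
  obtain ⟨T, k0, hT1, hx⟩ := gap_param ε hε
  refine ⟨T, k0, hT1, fun I hI => ?_⟩
  have hl : 1 ≤ I.length := List.length_pos_iff.2 hI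
  have hq : 0 < qI T k0 I := by rw [qI]; exact Nat.pow_pos (by norm_num)
  have hden := denI_pos T k0 I hl
  have hr : 0 < rI T k0 I := rI_pos T k0 I
  have hnum := numI_pos T k0 I hl
  exact ⟨isGraph_graphI T k0 I hl, hnum, Nat.mul_pos hden (Nat.pow_pos hr),
    Nat.mul_pos (Nat.mul_pos hden (Nat.mul_pos (by norm_num) (Nat.pow_pos hq))) (Nat.pow_pos hr),
    gap_arith _ _ _ _ hnum hden hq hr _ (hx I hI), phi_yes T k0 I hl, phi_no T k0 I hl⟩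

end Vale.Agent.P318.NPH
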