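import Vale.Agent.P318.NPH.Weighted

/-!
The edges of the weighted graph join distinct vertices.
-/

set_option linter.unusedSectionVars false

namespace Vale.Agent.P318.NPH

open Finset Vale.Agent.P333

/-- The edge joins two distinct vertices below `N`. -/
def EOk (N : ℕ) (e : ℕ × ℕ × ℕ) : Prop := e.1 < N ∧ e.2.1 < N ∧ e.1 ≠ e.2.1

theorem gadget_ok {N Q hs ht μ b base : ℕ} {ps : List ℕ} (hhs : hs < 3 * Q) (hht : ht < 3 * Q)
    (hb : 3 * Q ≤ base) (hN : base + ps.length < N) (hps : ∀ p ∈ ps, p < Q) :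
    ∀ e ∈ gadget hs ht μ b ps base, EOk N e := by
  intro e he
  rw [gadget, List.mem_flatMap] at he
  obtain ⟨κ, hκ, he⟩ := he
  rw [List.mem_range] at hκ
  split_ifs at he
  · rw [List.mem_cons, List.mem_cons, List.mem_map] at he
    rcases he with rfl | rfl | ⟨p, hp, rfl⟩
    · exact ⟨by dsimp only; omega, by dsimp only; omega, by dsimp only; omega⟩
    · exact ⟨by dsimp only; omega, by dsimp only; omega, by dsimp only; omega⟩
    · have := hps p hp
      exact ⟨by dsimp only; omega, by dsimp only; omega, by dsimp only; omega⟩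
  · rw [List.mem_cons, List.mem_singleton] at he
    rcases he with rfl | rfl
    · exact ⟨by dsimp only; omega, by dsimp only; omega, by dsimp only; omega⟩
    · exact ⟨by dsimp only; omega, by dsimp only; omega, by dsimp only; omega⟩

section

variable {q P m H : ℕ} {K : Type} [Field K] [Fintype K] [DecidableEq K]
  (Z : Space q P (m + 1) K)
  (h4 : 4 ≤ q) (hH : H ≤ q) (I : List Eqn)
  (hn : 3 * I.length < H ^ m) (hl : 1 ≤ I.length)

include Z h4 hH hn hl in
theorem allE_ok : ∀ e ∈ allE q P (m + 1) H m I, EOk (nN q (q ^ (m + 1)) I.length) e := by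
  have hQ : 1 ≤ q ^ (m + 1) := Nat.one_le_pow _ _ (by omega)
  have hL : 1 ≤ lN q (q ^ (m + 1)) I.length := lN_pos h4 hQ hl
  have hmp := fun t ht => mainPos_lt Z t ht
  have hrp := fun e t ht => realPos_lt Z h4 hH I hn e t ht
  intro e he
  rw [allE] at he
  set Q := q ^ (m + 1) with hQdef
  set L := lN q Q I.length with hLdef
  set N := nN q Q I.length with hN
  have hNN : N = 3 * Q * L + stN q Q I.length := rfl
  have hSt : stN q Q I.length = Q ^ 3 * (q + 1) + I.length * Q ^ 3 * (w2N q + 1) := rfl
  have h3QL : 3 * Q ≤ 3 * Q * L := Nat.le_mul_of_pos_right _ hL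
  have hSt1 : 1 ≤ stN q Q I.length := stN_pos (I := I) hQ
  rw [List.mem_append, List.mem_append, List.mem_append] at he
  rcases he with ((he | he) | he) | he
  · rw [clusterE, List.mem_append, List.mem_append, List.mem_flatMap] at he
    rcases he with (⟨u, hu, he⟩ | he) | he
    · obtain ⟨j, hj, rfl⟩ := List.mem_map.1 he
      rw [List.mem_range] at hu hj
      have h1 : 3 * Q * (j + 1) + 3 * Q ≤ 3 * Q * L := by
        calc 3 * Q * (j + 1) + 3 * Q = 3 * Q * (j + 2) := by ring
          _ ≤ 3 * Q * L := Nat.mul_le_mul_left _ (by omega)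
      have h2 : 1 ≤ 3 * Q * (j + 1) := Nat.mul_pos (by omega) (by omega)
      exact ⟨by dsimp only; omega, by dsimp only; omega, by dsimp only; omega⟩
    · obtain ⟨i, hi, rfl⟩ := List.mem_map.1 he
      rw [List.mem_range] at hi
      exact ⟨by dsimp only; omega, by dsimp only; omega, by dsimp only; omega⟩
    · obtain ⟨i, hi, rfl⟩ := List.mem_map.1 he
      rw [List.mem_range] at hi
      exact ⟨by dsimp only; omega, by dsimp only; omega, by dsimp only; omega⟩
  · rw [hubE, List.mem_flatMap] at he
    obtain ⟨p, hp, he⟩ := he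
    rw [List.mem_range] at hp
    rw [List.mem_cons, List.mem_singleton] at he
    rcases he with rfl | rfl
    · exact ⟨by dsimp only; omega, by dsimp only; omega, by dsimp only; omega⟩
    · exact ⟨by dsimp only; omega, by dsimp only; omega, by dsimp only; omega⟩
  · rw [mainE, List.mem_flatMap] at he
    obtain ⟨t, ht, he⟩ := he
    rw [List.mem_range, ← hQdef] at ht
    refine gadget_ok (Q := Q) (by omega) (by omega) ?_ ?_ (hmp t ht) e he
    · exact h3QL.trans (Nat.le_add_right _ _)
    · rw [mainPos_length, hNN, hSt]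
      have h1 : (t + 1) * (q + 1) ≤ Q ^ 3 * (q + 1) := Nat.mul_le_mul_right _ ht
      have h2 : (t + 1) * (q + 1) = t * (q + 1) + (q + 1) := by ring
      omega
  · rw [realE, List.mem_flatMap] at he
    obtain ⟨i, hi, he⟩ := he
    rw [List.mem_flatMap] at he
    obtain ⟨t, ht, he⟩ := he
    rw [List.mem_range] at hi ht
    rw [← hQdef] at ht
    refine gadget_ok (Q := Q) (by omega) (by omega) ?_ ?_ (hrp _ t ht) e he
    · rw [← hQdef]
      omega
    · rw [realPos_length, hNN, hSt, ← hQdef]
      have h1 : (i * Q ^ 3 + t + 1) * (w2N q + 1) ≤ I.length * Q ^ 3 * (w2N q + 1) := by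
        refine Nat.mul_le_mul_right _ ?_
        calc i * Q ^ 3 + t + 1 ≤ i * Q ^ 3 + Q ^ 3 := by omega
          _ = (i + 1) * Q ^ 3 := by ring
          _ ≤ I.length * Q ^ 3 := Nat.mul_le_mul_right _ hi
      have h2 : (i * Q ^ 3 + t + 1) * (w2N q + 1) =
        (i * Q ^ 3 + t) * (w2N q + 1) + (w2N q + 1) := by ring
      omega

end

end Vale.Agent.P318.NPH
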