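import Vale.Agent.P318.NPH.Core
import Vale.Agent.P318.NPH.Red

/-!
NP-hardness of the approximation of Uniform Sparsest Cut.
-/

namespace Vale.Agent.P318.NPH

open Finset Vale.Agent.P333 Vale.Agent.Lib.PolyTime Vale.Agent.P318

theorem gapRed_three (ε : ℝ) (hε : 0 < ε) {L : Set (List Bool)} (hL : L ∈ classNP) :
    GapRed (fun N => 1 + 1 / Real.log N ^ (3 + ε)) L := by
  obtain ⟨T, k0, hT, hcore⟩ := gap_core ε hε
  obtain ⟨d, Φ, g, hg, hg', hΦ⟩ := Vale.Agent.P333.NP.np_gap hL (ε := 1 / 8) (by norm_num)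
  have hPT : PT ∅ (fun r : Raw => Φ r.w) := ⟨g, hg, fun r => hg' r.w⟩
  have hq : PT ∅ (fun r : Raw => qI T k0 (Φ r.w)) := (PT_qI T k0).comp hPT
  have hr : PT ∅ (fun r : Raw => rI T k0 (Φ r.w)) := (PT_rNI T k0 hT).comp hPT
  have hn : PT ∅ (fun r : Raw => numI T k0 (Φ r.w)) := (PT_numI T k0).comp hPT
  have hd : PT ∅ (fun r : Raw => denI T k0 (Φ r.w)) := (PT_denI T k0).comp hPT
  have hG : PT ∅ (fun r : Raw => graphI T k0 (Φ r.w)) := (PT_graphI T k0 hT).comp hPT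
  refine ⟨fun x => graphI T k0 (Φ x), fun x => numI T k0 (Φ x),
    fun x => denI T k0 (Φ x) * rI T k0 (Φ x) ^ 2,
    fun x => (2000 * qI T k0 (Φ x) ^ 3 + 1) * numI T k0 (Φ x),
    fun x => denI T k0 (Φ x) * (2000 * qI T k0 (Φ x) ^ 3) * rI T k0 (Φ x) ^ 2,
    polyTime_of_PT graphW_eq hG, polyTime_of_PT (fun _ => rfl) hn,
    polyTime_of_PT (fun _ => rfl) (hd.mul (hr.powConst 2)),
    polyTime_of_PT (fun _ => rfl) ((((PT.const 2000).mul (hq.powConst 3)).add (PT.const 1)).mul hn),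
    polyTime_of_PT (fun _ => rfl) ((hd.mul ((PT.const 2000).mul (hq.powConst 3))).mul
      (hr.powConst 2)), ?_⟩
  intro x
  obtain ⟨h1, -, h3, h4⟩ := hΦ x
  obtain ⟨c1, c2, c3, c4, c5, c6, c7⟩ := hcore (Φ x) h1
  refine ⟨c1, c2, c3, c4, c5, fun hx => c6 ?_, fun hx => c7 ?_⟩
  · have h5 := h3 hx
    have h6 : (8 * minViolated (Φ x) : ℝ) ≤ (Φ x).length := by linarith
    exact_mod_cast h6
  · have h5 := h4 hx
    have h6 : (3 * (Φ x).length : ℝ) ≤ 8 * minViolated (Φ x) := by linarith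
    exact_mod_cast h6

theorem factor_nonneg (e : ℝ) (N : ℕ) (hN : 2 ≤ N) : 0 ≤ 1 + 1 / Real.log (N : ℝ) ^ e := by
  have h1 : (1 : ℝ) ≤ N := by
    have : 1 ≤ N := by omega
    exact_mod_cast this
  have h2 : 0 ≤ Real.log (N : ℝ) ^ e := Real.rpow_nonneg (Real.log_nonneg h1) _
  positivity

theorem np_eq_p_three (ε : ℝ) (hε : 0 < ε)
    (h : Vale.Agent.P318.HasApprox (fun N => 1 + 1 / Real.log N ^ (3 + ε))) : classNP = classP :=
  gap_imp (factor_nonneg _) (fun _ hL => gapRed_three ε hε hL) h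

end Vale.Agent.P318.NPH
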