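import Mathlib
import Vale.Agent.P318.NPH.Defs

/-!
Cuts of the gadgets.
-/

namespace Vale.Agent.P318.NPH

open Finset

/-! ### Sums of capacities -/

theorem cutE_nil (S : ℕ → Bool) : cutE [] S = 0 := rfl

theorem cutE_cons (e : ℕ × ℕ × ℕ) (E : List (ℕ × ℕ × ℕ)) (S : ℕ → Bool) :
    cutE (e :: E) S = (if S e.1 = S e.2.1 then 0 else e.2.2) + cutE E S := rfl

theorem cutE_append (E E' : List (ℕ × ℕ × ℕ)) (S : ℕ → Bool) :
    cutE (E ++ E') S = cutE E S + cutE E' S := by
  simp [cutE]

theorem cutE_flatMap {α : Type*} (l : List α) (f : α → List (ℕ × ℕ × ℕ)) (S : ℕ → Bool) :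
    cutE (l.flatMap f) S = (l.map fun x => cutE (f x) S).sum := by
  induction l with
  | nil => rfl
  | cons a l ih => rw [List.flatMap_cons, cutE_append, ih, List.map_cons, List.sum_cons]

theorem sum_map_range (n : ℕ) (f : ℕ → ℕ) : ((List.range n).map f).sum = ∑ i ∈ range n, f i := by
  induction n with
  | zero => rfl
  | succ n ih => rw [List.range_succ, List.map_append, List.sum_append, ih, Finset.sum_range_succ]
                 simp

theorem cutE_range (n : ℕ) (f : ℕ → List (ℕ × ℕ × ℕ)) (S : ℕ → Bool) :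
    cutE ((List.range n).flatMap f) S = ∑ i ∈ range n, cutE (f i) S := by
  rw [cutE_flatMap, sum_map_range]

theorem cutE_map {α : Type*} (l : List α) (f : α → ℕ × ℕ × ℕ) (S : ℕ → Bool) :
    cutE (l.map f) S = (l.map fun x => if S (f x).1 = S (f x).2.1 then 0 else (f x).2.2).sum := by
  rw [cutE, List.map_map]; rfl

theorem sum_map_ite (ps : List ℕ) (S : ℕ → Bool) (b : Bool) (μ : ℕ) :
    (ps.map fun p => if b = S p then 0 else μ).sum =
      μ * (if b = true then ps.length - ps.countP S else ps.countP S) := by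
  induction ps with
  | nil => cases b <;> simp
  | cons p ps ih =>
    rw [List.map_cons, List.sum_cons, ih]
    have h1 : ps.countP S ≤ ps.length := List.countP_le_length
    cases b <;> cases h : S p <;> simp [h]
    · ring
    · rw [show ps.length + 1 - ps.countP S = (ps.length - ps.countP S) + 1 by omega]; ring

/-! ### The value of a gadget -/

/-- The least capacity of a cut of the gadget with `k` of the `w` positions on the side of the
first hub. -/
def aVal (w b k : ℕ) : ℕ :=
  ∑ κ ∈ range (w + 1), if (κ + b) % 2 = 1 then w - ((k - κ) + (κ - k)) else w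

theorem gadget_ge (hs ht μ b : ℕ) (ps : List ℕ) (base : ℕ) (S : ℕ → Bool) (h1 : S hs = true)
    (h2 : S ht = false) :
    μ * aVal ps.length b (ps.countP S) ≤ cutE (gadget hs ht μ b ps base) S := by
  rw [gadget, cutE_range, aVal, mul_sum]
  refine sum_le_sum fun κ hκ => ?_
  rw [mem_range] at hκ
  have hk : ps.countP S ≤ ps.length := List.countP_le_length
  split_ifs with h
  · rw [cutE_cons, cutE_cons, cutE_map]
    dsimp only
    rw [h1, h2, sum_map_ite]
    cases hb : S (base + κ)
    · simp only [Bool.false_eq_true, if_false, if_true]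
      rw [zero_add, ← mul_add]
      exact Nat.mul_le_mul_left _ (by omega)
    · simp only [Bool.true_eq_false, if_false, if_true]
      rw [zero_add, ← mul_add]
      exact Nat.mul_le_mul_left _ (by omega)
  · rw [cutE_cons, cutE_cons, cutE_nil]
    dsimp only
    rw [h1, h2]
    cases hb : S (base + κ) <;> simp

theorem gadget_eq (hs ht μ b : ℕ) (ps : List ℕ) (base : ℕ) (S : ℕ → Bool) (h1 : S hs = true)
    (h2 : S ht = false)
    (h3 : ∀ κ ≤ ps.length, S (base + κ) = decide (κ ≤ ps.countP S)) :
    cutE (gadget hs ht μ b ps base) S = μ * aVal ps.length b (ps.countP S) := by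
  rw [gadget, cutE_range, aVal, mul_sum]
  refine sum_congr rfl fun κ hκ => ?_
  rw [mem_range] at hκ
  have hk : ps.countP S ≤ ps.length := List.countP_le_length
  split_ifs with h
  · rw [cutE_cons, cutE_cons, cutE_map]
    dsimp only
    rw [h1, h2, sum_map_ite]
    have hb := h3 κ (by omega)
    by_cases hc : κ ≤ ps.countP S
    · rw [decide_eq_true hc] at hb
      rw [hb]
      simp only [Bool.true_eq_false, if_false, if_true]
      rw [zero_add, ← mul_add]
      congr 1
      omega
    · rw [decide_eq_false hc] at hb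
      rw [hb]
      simp only [Bool.false_eq_true, if_false, if_true]
      rw [zero_add, ← mul_add]
      congr 1
      omega
  · rw [cutE_cons, cutE_cons, cutE_nil]
    dsimp only
    rw [h1, h2]
    cases hb : S (base + κ) <;> simp

/-- Cuts which do not separate the hubs. -/
theorem gadget_same (hs ht μ b : ℕ) (hμ : 1 ≤ μ) (ps : List ℕ) (hw : 1 ≤ ps.length) (base : ℕ)
    (S : ℕ → Bool) (h1 : S hs = false) (h2 : S ht = false) :
    ((range (ps.length + 1)).filter fun κ => S (base + κ) = true).card ≤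
      cutE (gadget hs ht μ b ps base) S := by
  rw [gadget, cutE_range, card_filter]
  refine sum_le_sum fun κ hκ => ?_
  rw [mem_range] at hκ
  split_ifs with h h' h'
  · rw [cutE_cons, cutE_cons]
    dsimp only
    rw [h1, h2, h]
    simp only [Bool.true_eq_false, if_false]
    have : 1 ≤ μ * (ps.length - κ) + μ * κ := by
      rw [← mul_add]
      exact Nat.mul_pos hμ (by omega)
    omega
  · rw [cutE_cons, cutE_cons]
    dsimp only
    rw [h1, h2, h]
    simp only [Bool.true_eq_false, if_false]
    have : 1 ≤ μ * ps.length := Nat.mul_pos hμ hw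
    omega
  · exact Nat.zero_le _
  · exact Nat.zero_le _

/-! ### Closed form -/

/-- Partial sums of `|k - κ|` over one parity class, up to `k`. -/
theorem gsum_le (b k : ℕ) (hb : b ≤ 1) (n : ℕ) (hn : n ≤ k + 1) :
    (∑ κ ∈ range n, if (κ + b) % 2 = 1 then (((k - κ) + (κ - k) : ℕ) : ℤ) else 0) =
      (((n + b) / 2 : ℕ) : ℤ) * k - (((n + b) / 2 : ℕ) : ℤ) ^ 2 + b * (((n + b) / 2 : ℕ) : ℤ) := by
  induction n with
  | zero =>
    have : (0 + b) / 2 = 0 := by omega
    rw [this]
    simp
  | succ n ih =>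
    rw [sum_range_succ, ih (by omega)]
    by_cases h : (n + b) % 2 = 1
    · rw [if_pos h]
      obtain ⟨c, hc⟩ : ∃ c, n + b = 2 * c + 1 := ⟨(n + b) / 2, by omega⟩
      have h1 : (n + b) / 2 = c := by omega
      have h2 : (n + 1 + b) / 2 = c + 1 := by omega
      rw [h1, h2]
      have h3 : (((k - n) + (n - k) : ℕ) : ℤ) = k - n := by omega
      have h4 : (n : ℤ) = 2 * c + 1 - b := by omega
      rw [h3, h4]
      push_cast
      have h5 : (b : ℤ) * b = b := by
        interval_cases b <;> simp
      linear_combination h5 * 0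
    · rw [if_neg h, add_zero]
      have h2 : (n + 1 + b) / 2 = (n + b) / 2 := by omega
      rw [h2]

theorem gsum_ge (b k : ℕ) (hb : b ≤ 1) (n : ℕ) (hn : k + 1 ≤ n) :
    (∑ κ ∈ range n, if (κ + b) % 2 = 1 then (((k - κ) + (κ - k) : ℕ) : ℤ) else 0) =
      2 * ((((k + 1 + b) / 2 : ℕ) : ℤ) * k - (((k + 1 + b) / 2 : ℕ) : ℤ) ^ 2 +
        b * (((k + 1 + b) / 2 : ℕ) : ℤ)) +
      ((((n + b) / 2 : ℕ) : ℤ) ^ 2 - b * (((n + b) / 2 : ℕ) : ℤ) -
        k * (((n + b) / 2 : ℕ) : ℤ)) := by
  induction n, hn using Nat.le_induction with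
  | base =>
    rw [gsum_le b k hb (k + 1) le_rfl]
    ring
  | succ n hn ih =>
    rw [sum_range_succ, ih]
    by_cases h : (n + b) % 2 = 1
    · rw [if_pos h]
      obtain ⟨c, hc⟩ : ∃ c, n + b = 2 * c + 1 := ⟨(n + b) / 2, by omega⟩
      have h1 : (n + b) / 2 = c := by omega
      have h2 : (n + 1 + b) / 2 = c + 1 := by omega
      rw [h1, h2]
      have h3 : (((k - n) + (n - k) : ℕ) : ℤ) = n - k := by omega
      have h4 : (n : ℤ) = 2 * c + 1 - b := by omega
      rw [h3, h4]
      push_cast
      ring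
    · rw [if_neg h, add_zero]
      have h2 : (n + 1 + b) / 2 = (n + b) / 2 := by omega
      rw [h2]

theorem aVal_eq (w b k : ℕ) (hw2 : 2 ≤ w) (hw : w % 2 = 0) (hb : b ≤ 1) (hk : k ≤ w) :
    2 * aVal w b k = k * (w - k) + dN w b + (if (k + b) % 2 = 1 then 1 else 0) := by
  have h0 : (aVal w b k : ℤ) = w * (w + 1) -
      ∑ κ ∈ range (w + 1), if (κ + b) % 2 = 1 then (((k - κ) + (κ - k) : ℕ) : ℤ) else 0 := by
    have h1 : (w : ℤ) * (w + 1) = ∑ κ ∈ range (w + 1), (w : ℤ) := by
      rw [sum_const, card_range, nsmul_eq_mul]; push_cast; ring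
    rw [h1, ← sum_sub_distrib, aVal]
    push_cast
    refine sum_congr rfl fun κ hκ => ?_
    rw [mem_range] at hκ
    split_ifs with h
    · omega
    · simp
  rw [gsum_ge b k hb (w + 1) (by omega)] at h0
  obtain ⟨v, hv⟩ : ∃ v, w = 2 * v := ⟨w / 2, by omega⟩
  subst hv
  have hd0 : 3 * (2 * v) * (2 * v) / 2 = 6 * v * v := by
    rw [show 3 * (2 * v) * (2 * v) = 2 * (6 * v * v) by ring]; omega
  have hv1 : 1 ≤ v := by omega
  have key : (2 * aVal (2 * v) b k : ℤ) = k * (2 * v - k) + (dN (2 * v) b : ℕ) +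
      (if (k + b) % 2 = 1 then 1 else 0) := by
    interval_cases b
    · -- b = 0
      have hc : (2 * v + 1 + 0) / 2 = v := by omega
      rw [hc] at h0
      have hdN : ((dN (2 * v) 0 : ℕ) : ℤ) = 6 * v * v + 2 * (2 * v) := by
        rw [dN, if_pos rfl, hd0]; push_cast; ring
      rw [hdN, h0]
      rcases Nat.even_or_odd' k with ⟨j, hj | hj⟩
      · have hj1 : (k + 1 + 0) / 2 = j := by omega
        rw [hj1, if_neg (by omega), hj]
        push_cast
        ring
      · have hj1 : (k + 1 + 0) / 2 = j + 1 := by omega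
        rw [hj1, if_pos (by omega), hj]
        push_cast
        ring
    · have hc : (2 * v + 1 + 1) / 2 = v + 1 := by omega
      rw [hc] at h0
      have hdN : ((dN (2 * v) 1 : ℕ) : ℤ) = 6 * v * v + (2 * v) - 1 := by
        rw [dN, if_neg (by omega), hd0]
        have : 1 ≤ 6 * v * v + 2 * v := by nlinarith
        push_cast [Nat.cast_sub this]
        ring
      rw [hdN, h0]
      rcases Nat.even_or_odd' k with ⟨j, hj | hj⟩
      · have hj1 : (k + 1 + 1) / 2 = j + 1 := by omega
        rw [hj1, if_pos (by omega), hj]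
        push_cast
        ring
      · have hj1 : (k + 1 + 1) / 2 = j + 1 := by omega
        rw [hj1, if_neg (by omega), hj]
        push_cast
        ring
  have hk' : ((2 * v - k : ℕ) : ℤ) = 2 * v - k := by omega
  have hfin : ((2 * aVal (2 * v) b k : ℕ) : ℤ) =
      ((k * (2 * v - k) + dN (2 * v) b + (if (k + b) % 2 = 1 then 1 else 0) : ℕ) : ℤ) := by
    rw [Nat.cast_mul, Nat.cast_add, Nat.cast_add, Nat.cast_mul, hk', Nat.cast_ite]
    exact_mod_cast key
  exact_mod_cast hfin

end Vale.Agent.P318.NPH
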