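import Vale.Agent.P318.NPH.TestSum

/-!
Cuts of the whole graph.
-/

set_option linter.unusedSectionVars false

namespace Vale.Agent.P318.NPH

open Finset Vale.Agent.P333

/-! ### Counting -/

/-- Number of vertices `a, ..., a + n - 1` on the side `true`. -/
def cntN (S : ℕ → Bool) (a n : ℕ) : ℕ := ∑ i ∈ range n, if S (a + i) = true then 1 else 0

theorem cntN_add (S : ℕ → Bool) (a m n : ℕ) :
    cntN S a (m + n) = cntN S a m + cntN S (a + m) n := by
  rw [cntN, cntN, cntN, sum_range_add]
  congr 1
  exact sum_congr rfl fun i _ => by rw [add_assoc]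

theorem cntN_le (S : ℕ → Bool) (a n : ℕ) : cntN S a n ≤ n := by
  rw [cntN]
  refine (sum_le_sum (g := fun _ => 1) fun i _ => ?_).trans ?_
  · split_ifs <;> omega
  · simp

theorem cntN_not (S : ℕ → Bool) (a n : ℕ) : cntN S a n + cntN (fun v => !S v) a n = n := by
  rw [cntN, cntN, ← sum_add_distrib]
  rw [sum_congr rfl (g := fun _ => 1)]
  · simp
  · intro i _
    cases S (a + i) <;> simp

theorem cntN_mul (S : ℕ → Bool) (a A B : ℕ) :
    cntN S a (A * B) = ∑ t ∈ range A, cntN S (a + t * B) B := by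
  induction A with
  | zero => simp [cntN]
  | succ A ih => rw [add_mul, one_mul, cntN_add, ih, sum_range_succ]

theorem cntN_congr {S S' : ℕ → Bool} {a n : ℕ} (h : ∀ i < n, S (a + i) = S' (a + i)) :
    cntN S a n = cntN S' a n :=
  sum_congr rfl fun i hi => by rw [h i (mem_range.1 hi)]

theorem cntN_const (S : ℕ → Bool) (a n : ℕ) (b : Bool) (h : ∀ i < n, S (a + i) = b) :
    cntN S a n = if b = true then n else 0 := by
  rw [cntN, sum_congr rfl (g := fun _ => if b = true then 1 else 0)]
  · cases b <;> simp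
  · intro i hi
    rw [h i (mem_range.1 hi)]

theorem cutE_not (E : List (ℕ × ℕ × ℕ)) (S : ℕ → Bool) :
    cutE E (fun v => !S v) = cutE E S := by
  rw [cutE, cutE]
  congr 1
  refine List.map_congr_left fun e _ => ?_
  cases S e.1 <;> cases S e.2.1 <;> rfl

theorem le_cutE {E : List (ℕ × ℕ × ℕ)} {S : ℕ → Bool} {e : ℕ × ℕ × ℕ} (he : e ∈ E)
    (h : S e.1 ≠ S e.2.1) : e.2.2 ≤ cutE E S := by
  rw [cutE]
  refine le_trans (le_of_eq ?_) (List.single_le_sum (fun _ _ => Nat.zero_le _) _
    (List.mem_map_of_mem (f := fun e : ℕ × ℕ × ℕ => if S e.1 = S e.2.1 then 0 else e.2.2) he))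
  beta_reduce
  rw [if_neg h]

/-! ### Clusters -/

/-- The cut respects the clusters. -/
structure Unif (Q L : ℕ) (S : ℕ → Bool) : Prop where
  copy : ∀ u < 3 * Q, ∀ j < L, S (u + 3 * Q * j) = S u
  hub1 : ∀ i < Q, S (Q + i) = S Q
  hub2 : ∀ i < Q, S (2 * Q + i) = S (2 * Q)

theorem cluster_unif {Q L big : ℕ} {S : ℕ → Bool} (h : cutE (clusterE Q L big) S < big) :
    Unif Q L S := by
  have key : ∀ e ∈ clusterE Q L big, e.2.2 = big → S e.1 = S e.2.1 := by
    intro e he hb
    by_contra hne
    have := le_cutE he hne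
    omega
  constructor
  · intro u hu j hj
    rcases Nat.eq_zero_or_pos j with rfl | h0
    · simp
    · have := key (u, u + 3 * Q * (j - 1 + 1), big) (by
        rw [clusterE, List.mem_append, List.mem_append]
        refine Or.inl (Or.inl ?_)
        rw [List.mem_flatMap]
        exact ⟨u, List.mem_range.2 hu, List.mem_map.2 ⟨j - 1, List.mem_range.2 (by omega), rfl⟩⟩)
        rfl
      dsimp only at this
      rw [Nat.sub_add_cancel h0] at this
      exact this.symm
  · intro i hi
    rcases Nat.eq_zero_or_pos i with rfl | h0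
    · simp
    · have := key (Q, Q + (i - 1 + 1), big) (by
        rw [clusterE, List.mem_append, List.mem_append]
        refine Or.inl (Or.inr ?_)
        exact List.mem_map.2 ⟨i - 1, List.mem_range.2 (by omega), rfl⟩) rfl
      dsimp only at this
      rw [Nat.sub_add_cancel h0] at this
      exact this.symm
  · intro i hi
    rcases Nat.eq_zero_or_pos i with rfl | h0
    · simp
    · have := key (2 * Q, 2 * Q + (i - 1 + 1), big) (by
        rw [clusterE, List.mem_append]
        refine Or.inr ?_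
        exact List.mem_map.2 ⟨i - 1, List.mem_range.2 (by omega), rfl⟩) rfl
      dsimp only at this
      rw [Nat.sub_add_cancel h0] at this
      exact this.symm

theorem cutE_eq_zero {E : List (ℕ × ℕ × ℕ)} {S : ℕ → Bool} (h : ∀ e ∈ E, S e.1 = S e.2.1) :
    cutE E S = 0 := by
  rw [cutE]
  refine List.sum_eq_zero fun x hx => ?_
  obtain ⟨e, he, rfl⟩ := List.mem_map.1 hx
  rw [if_pos (h e he)]

theorem Unif.cluster {Q L : ℕ} {S : ℕ → Bool} (hS : Unif Q L S) (big : ℕ) :
    cutE (clusterE Q L big) S = 0 := by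
  refine cutE_eq_zero fun e he => ?_
  rw [clusterE, List.mem_append, List.mem_append, List.mem_flatMap] at he
  rcases he with (⟨u, hu, he⟩ | he) | he
  · obtain ⟨j, hj, rfl⟩ := List.mem_map.1 he
    rw [List.mem_range] at hu hj
    exact (hS.copy u hu (j + 1) (by omega)).symm
  · obtain ⟨i, hi, rfl⟩ := List.mem_map.1 he
    rw [List.mem_range] at hi
    exact (hS.hub1 (i + 1) (by omega)).symm
  · obtain ⟨i, hi, rfl⟩ := List.mem_map.1 he
    rw [List.mem_range] at hi
    exact (hS.hub2 (i + 1) (by omega)).symm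

/-- Number of vertices of the clusters on the side `true`. -/
theorem Unif.count {Q L : ℕ} {S : ℕ → Bool} (hS : Unif Q L S) :
    cntN S 0 (3 * Q * L) = L * (cntN S 0 Q + (if S Q = true then Q else 0) +
      (if S (2 * Q) = true then Q else 0)) := by
  have h1 : 3 * Q * L = L * (3 * Q) := by ring
  rw [h1, cntN_mul]
  have h2 : ∀ t ∈ range L, cntN S (0 + t * (3 * Q)) (3 * Q) =
      cntN S 0 Q + (if S Q = true then Q else 0) + (if S (2 * Q) = true then Q else 0) := by
    intro t ht
    rw [mem_range] at ht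
    have h3 : cntN S (0 + t * (3 * Q)) (3 * Q) = cntN S 0 (3 * Q) := by
      rw [cntN, cntN]
      refine sum_congr rfl fun i hi => ?_
      rw [mem_range] at hi
      have := hS.copy i hi t ht
      rw [show 0 + t * (3 * Q) + i = i + 3 * Q * t by ring, this, zero_add]
    rw [h3, show 3 * Q = Q + Q + Q by ring, cntN_add, cntN_add, zero_add]
    rw [cntN_const S Q Q (S Q) hS.hub1]
    rw [show 0 + (Q + Q) = 2 * Q by ring]
    rw [cntN_const S (2 * Q) Q (S (2 * Q)) hS.hub2]
  rw [sum_congr rfl h2, sum_const, card_range, smul_eq_mul]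

/-! ### Edges to the hubs -/

theorem hub_sep (Q a : ℕ) (S : ℕ → Bool) (h1 : S Q = true) (h2 : S (2 * Q) = false) :
    cutE (hubE Q a) S = a * Q := by
  rw [hubE, cutE_range, sum_congr rfl (g := fun _ => a)]
  · rw [sum_const, card_range, smul_eq_mul, mul_comm]
  · intro p _
    rw [cutE_cons, cutE_cons, cutE_nil]
    dsimp only
    rw [h1, h2]
    cases S p <;> simp

theorem hub_same (Q a : ℕ) (S : ℕ → Bool) (h1 : S Q = false) (h2 : S (2 * Q) = false) :
    cutE (hubE Q a) S = 2 * a * cntN S 0 Q := by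
  rw [hubE, cutE_range, cntN, mul_sum]
  refine sum_congr rfl fun p _ => ?_
  rw [cutE_cons, cutE_cons, cutE_nil, zero_add]
  dsimp only
  rw [h1, h2]
  cases S p <;> simp <;> ring

/-! ### The points -/

section

variable {q P m H : ℕ} {K : Type} [Field K] [Fintype K] [DecidableEq K]
  (Z : Space q P (m + 1) K)

theorem cnt_side {M : ℕ} (Z : Space q P M K) (S : ℕ → Bool) :
    cnt (Z.side S) = cntN S 0 (q ^ M) := by
  rw [cnt, card_filter, cntN, sum_range_equiv Z.idx]
  refine sum_congr rfl fun p _ => ?_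
  rw [zero_add]
  rfl

/-- The digits as scalars. -/
def Space.eta (hH : H ≤ q) (d : Fin H) : K := Z.e.symm (Fin.castLE hH d)

theorem Space.eta_inj (hH : H ≤ q) : Function.Injective (Z.eta hH) := by
  intro a b h
  exact Fin.castLE_injective hH (Z.e.symm.injective h)

/-- The systematic point of a number. -/
def Space.sysX (hH : H ≤ q) (v : Fin (H ^ m)) : Fin (m + 1) → K :=
  sysPt (Z.eta hH) (finFunctionFinEquiv.symm v)

theorem Space.idx_sysX (hH : H ≤ q) (v : Fin (H ^ m)) :
    (Z.idx (Z.sysX hH v) : ℕ) = sysN q H m v := by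
  rw [Z.idx_sum, Fin.sum_univ_castSucc, Space.sysX, sysPt, Fin.snoc_last, Z.e0, zero_mul,
    add_zero, sysN, sum_map_range, ← Fin.sum_univ_eq_sum_range (fun j => (v / H ^ j % H) * q ^ j)]
  refine sum_congr rfl fun j _ => ?_
  rw [Fin.snoc_castSucc, Space.eta, Equiv.apply_symm_apply, Fin.val_castLE,
    finFunctionFinEquiv_symm_apply_val, Fin.val_castSucc]

end

end Vale.Agent.P318.NPH
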