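import Vale.Agent.P318.NPH.Graph

/-!
Cuts of the whole graph: the exact value of the cuts which separate the hubs.
-/

set_option linter.unusedSectionVars false

namespace Vale.Agent.P318.NPH

open Finset Vale.Agent.P333

theorem mainPos_length (q P M t : ℕ) : (mainPos q P M t).length = q := by
  rw [mainPos, List.length_map, List.length_range]

theorem realPos_length (q P M : ℕ) (π : List ℕ) (t : ℕ) :
    (realPos q P M π t).length = w2N q := by
  rw [realPos, List.length_flatMap, sum_map_range]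
  simp [w2N]

theorem sum_getD {β : Type*} (l : List β) (d : β) (f : β → ℕ) :
    ∑ i ∈ range l.length, f (l.getD i d) = (l.map f).sum := by
  induction l with
  | nil => simp
  | cons a l ih =>
    rw [List.length_cons, sum_range_succ', List.map_cons, List.sum_cons, ← ih]
    simp [add_comm]

theorem vars_length (I : List Eqn) : (vars I).length = 3 * I.length := by
  rw [vars, List.length_flatMap]
  induction I with
  | nil => rfl
  | cons a l ih => rw [List.map_cons, List.sum_cons, ih, List.length_cons]; simp; ring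

theorem vIdx_le (I : List Eqn) (v : ℕ) : vIdx I v ≤ 3 * I.length := by
  rw [vIdx, ← vars_length]
  exact (List.takeWhile_sublist _).length_le

/-- The default equation. -/
def dEqn : Eqn := ((0, 0, 0), false)

section

variable {q P m H : ℕ} {K : Type} [Field K] [Fintype K] [DecidableEq K]
  (Z : Space q P (m + 1) K)

/-- The systematic points of an equation. -/
def Space.eqX (hH : H ≤ q) (I : List Eqn) (hn : 3 * I.length < H ^ m) (e : Eqn) :
    Fin 4 → (Fin (m + 1) → K) :=
  ![Z.sysX hH ⟨vIdx I e.1.1, (vIdx_le _ _).trans_lt hn⟩,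
    Z.sysX hH ⟨vIdx I e.1.2.1, (vIdx_le _ _).trans_lt hn⟩,
    Z.sysX hH ⟨vIdx I e.1.2.2, (vIdx_le _ _).trans_lt hn⟩, Z.sysX hH ⟨3 * I.length, hn⟩]

theorem Space.eqX_idx (hH : H ≤ q) (I : List Eqn) (hn : 3 * I.length < H ^ m) (e : Eqn)
    (j : Fin 4) : (eqPts q H m I e).getD j 0 = Z.idx (Z.eqX hH I hn e j) := by
  fin_cases j <;> simp [eqPts, Space.eqX, Z.idx_sysX]

variable (h4 : 4 ≤ q) (hq2 : q % 2 = 0) (hH : H ≤ q) (I : List Eqn)
  (hn : 3 * I.length < H ^ m) (S : ℕ → Bool)

/-- Number of violated tests of the equation number `i`. -/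
def Space.rBad (i : ℕ) : ℕ :=
  realBad (tau (Z.side S)) (Z.eqX hH I hn (I.getD i dEqn)) (Z.c4 h4)
    (((I.getD i dEqn).2.toNat : ℕ) : ZMod 2)

/-- Total weighted number of violated tests. -/
def Space.viol : ℕ :=
  muN q I.length * mainBad K (tau (Z.side S)) + ∑ i ∈ range I.length, Z.rBad h4 hH I hn S i

/-- The value of a cut which separates the hubs (times two). -/
def Space.val : ℕ :=
  2 * (aN q (q ^ (m + 1)) I.length * q ^ (m + 1)) +
    bN q (q ^ (m + 1)) I.length * (cnt (Z.side S) * cnt (fun x => !Z.side S x)) +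
    constN q (q ^ (m + 1)) I + Z.viol h4 hH I hn S

include h4 hq2 in
theorem main_val (μ : ℕ) :
    2 * ∑ t ∈ range ((q ^ (m + 1)) ^ 3), μ * aVal q 0 ((mainPos q P (m + 1) t).countP S) =
      μ * (q * (q - 1) * q ^ (m + 1) * (cnt (Z.side S) * cnt (fun x => !Z.side S x)) +
      (q ^ (m + 1)) ^ 3 * dN q 0 + mainBad K (tau (Z.side S))) := by
  have h2 : 2 ≤ q := le_trans (by norm_num) h4
  rw [← main_sum Z S h2 hq2, ← mul_sum]
  ring

theorem real_val :
    2 * ∑ i ∈ range I.length, ∑ t ∈ range ((q ^ (m + 1)) ^ 3), aVal (w2N q)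
      (I.getD i dEqn).2.toNat
      ((realPos q P (m + 1) (eqPts q H m I (I.getD i dEqn)) t).countP S) =
    I.length * (w2N q * (w2N q - 1) * q ^ (m + 1) *
      (cnt (Z.side S) * cnt (fun x => !Z.side S x))) +
      (q ^ (m + 1)) ^ 3 * (I.map fun e => dN (w2N q) e.2.toNat).sum +
      ∑ i ∈ range I.length, Z.rBad h4 hH I hn S i := by
  rw [mul_sum]
  have h1 : ∀ i ∈ range I.length, 2 * ∑ t ∈ range ((q ^ (m + 1)) ^ 3), aVal (w2N q)
      (I.getD i dEqn).2.toNat
      ((realPos q P (m + 1) (eqPts q H m I (I.getD i dEqn)) t).countP S) =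
      w2N q * (w2N q - 1) * q ^ (m + 1) * (cnt (Z.side S) * cnt (fun x => !Z.side S x)) +
      (q ^ (m + 1)) ^ 3 * dN (w2N q) (I.getD i dEqn).2.toNat + Z.rBad h4 hH I hn S i := by
    intro i _
    exact real_sum Z h4 S _ _ (Z.eqX_idx hH I hn _) _ (Bool.toNat_le _)
  rw [sum_congr rfl h1, sum_add_distrib, sum_add_distrib, sum_const, card_range, smul_eq_mul,
    ← mul_sum, sum_getD I dEqn (fun e => dN (w2N q) e.2.toNat)]

include hq2 in
/-- The value, from the gadgets. -/
theorem val_eq :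
    Z.val h4 hH I hn S = 2 * (aN q (q ^ (m + 1)) I.length * q ^ (m + 1) +
      ∑ t ∈ range ((q ^ (m + 1)) ^ 3), muN q I.length *
        aVal q 0 ((mainPos q P (m + 1) t).countP S) +
      ∑ i ∈ range I.length, ∑ t ∈ range ((q ^ (m + 1)) ^ 3), aVal (w2N q)
        (I.getD i dEqn).2.toNat
        ((realPos q P (m + 1) (eqPts q H m I (I.getD i dEqn)) t).countP S)) := by
  rw [mul_add, mul_add, main_val Z h4 hq2 S, real_val Z h4 hH I hn S, Space.val, Space.viol,
    constN, bN]
  ring

include hq2 in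
theorem sep_ge (h1 : S (q ^ (m + 1)) = true) (h2 : S (2 * q ^ (m + 1)) = false) :
    Z.val h4 hH I hn S ≤ 2 * cutE (allE q P (m + 1) H m I) S := by
  rw [val_eq Z h4 hq2 hH I hn S]
  refine Nat.mul_le_mul_left _ ?_
  rw [allE, cutE_append, cutE_append, cutE_append, hub_sep _ _ _ h1 h2]
  refine add_le_add (add_le_add (Nat.le_add_left _ _) ?_) ?_
  · rw [mainE, cutE_range]
    refine sum_le_sum fun t _ => ?_
    have := gadget_ge (q ^ (m + 1)) (2 * q ^ (m + 1)) (muN q I.length) 0
      (mainPos q P (m + 1) t) (3 * q ^ (m + 1) * lN q (q ^ (m + 1)) I.length + t * (q + 1)) S h1 h2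
    rw [mainPos_length] at this
    exact this
  · rw [realE, cutE_range]
    refine sum_le_sum fun i _ => ?_
    rw [cutE_range]
    refine sum_le_sum fun t _ => ?_
    have := gadget_ge (q ^ (m + 1)) (2 * q ^ (m + 1)) 1 (I.getD i dEqn).2.toNat
      (realPos q P (m + 1) (eqPts q H m I (I.getD i dEqn)) t)
      (3 * q ^ (m + 1) * lN q (q ^ (m + 1)) I.length + (q ^ (m + 1)) ^ 3 * (q + 1) +
        (i * (q ^ (m + 1)) ^ 3 + t) * (w2N q + 1)) S h1 h2
    rw [realPos_length, one_mul] at this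
    exact this

/-- The auxiliary vertices are on the better side. -/
structure Good (q P m H : ℕ) (I : List Eqn) (S : ℕ → Bool) : Prop where
  main : ∀ t < (q ^ (m + 1)) ^ 3, ∀ κ ≤ q,
    S (3 * q ^ (m + 1) * lN q (q ^ (m + 1)) I.length + t * (q + 1) + κ) =
      decide (κ ≤ (mainPos q P (m + 1) t).countP S)
  real : ∀ i < I.length, ∀ t < (q ^ (m + 1)) ^ 3, ∀ κ ≤ w2N q,
    S (3 * q ^ (m + 1) * lN q (q ^ (m + 1)) I.length + (q ^ (m + 1)) ^ 3 * (q + 1) +
        (i * (q ^ (m + 1)) ^ 3 + t) * (w2N q + 1) + κ) =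
      decide (κ ≤ (realPos q P (m + 1) (eqPts q H m I (I.getD i dEqn)) t).countP S)

include hq2 in
theorem sep_eq (h1 : S (q ^ (m + 1)) = true) (h2 : S (2 * q ^ (m + 1)) = false)
    (hU : Unif (q ^ (m + 1)) (lN q (q ^ (m + 1)) I.length) S) (hG : Good q P m H I S) :
    2 * cutE (allE q P (m + 1) H m I) S = Z.val h4 hH I hn S := by
  rw [val_eq Z h4 hq2 hH I hn S]
  congr 1
  rw [allE, cutE_append, cutE_append, cutE_append, hub_sep _ _ _ h1 h2, hU.cluster, zero_add]
  congr 1
  · congr 1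
    rw [mainE, cutE_range]
    refine sum_congr rfl fun t ht => ?_
    rw [mem_range] at ht
    have := gadget_eq (q ^ (m + 1)) (2 * q ^ (m + 1)) (muN q I.length) 0
      (mainPos q P (m + 1) t) (3 * q ^ (m + 1) * lN q (q ^ (m + 1)) I.length + t * (q + 1)) S h1 h2
      (by rw [mainPos_length]; exact hG.main t ht)
    rw [mainPos_length] at this
    exact this
  · rw [realE, cutE_range]
    refine sum_congr rfl fun i hi => ?_
    rw [mem_range] at hi
    rw [cutE_range]
    refine sum_congr rfl fun t ht => ?_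
    rw [mem_range] at ht
    have := gadget_eq (q ^ (m + 1)) (2 * q ^ (m + 1)) 1 (I.getD i dEqn).2.toNat
      (realPos q P (m + 1) (eqPts q H m I (I.getD i dEqn)) t)
      (3 * q ^ (m + 1) * lN q (q ^ (m + 1)) I.length + (q ^ (m + 1)) ^ 3 * (q + 1) +
        (i * (q ^ (m + 1)) ^ 3 + t) * (w2N q + 1)) S h1 h2
      (by rw [realPos_length]; exact hG.real i hi t ht)
    rw [realPos_length, one_mul] at this
    exact this

/-- Cuts which do not separate the hubs. -/
theorem same_ge (h4 : 4 ≤ q) (hl : 1 ≤ I.length) (h1 : S (q ^ (m + 1)) = false)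
    (h2 : S (2 * q ^ (m + 1)) = false) :
    2 * aN q (q ^ (m + 1)) I.length * cntN S 0 (q ^ (m + 1)) +
      cntN S (3 * q ^ (m + 1) * lN q (q ^ (m + 1)) I.length) (stN q (q ^ (m + 1)) I.length) ≤
      cutE (allE q P (m + 1) H m I) S := by
  rw [allE, cutE_append, cutE_append, cutE_append, hub_same _ _ _ h1 h2, stN, cntN_add]
  suffices hs : cntN S (3 * q ^ (m + 1) * lN q (q ^ (m + 1)) I.length)
      ((q ^ (m + 1)) ^ 3 * (q + 1)) ≤ cutE (mainE q P (m + 1) (muN q I.length)
        (3 * q ^ (m + 1) * lN q (q ^ (m + 1)) I.length)) S ∧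
      cntN S (3 * q ^ (m + 1) * lN q (q ^ (m + 1)) I.length + (q ^ (m + 1)) ^ 3 * (q + 1))
      (I.length * (q ^ (m + 1)) ^ 3 * (w2N q + 1)) ≤ cutE (realE q P (m + 1) H m
        (3 * q ^ (m + 1) * lN q (q ^ (m + 1)) I.length + (q ^ (m + 1)) ^ 3 * (q + 1)) I) S by
    obtain ⟨ha, hb⟩ := hs
    omega
  constructor
  · rw [mainE, cutE_range, cntN_mul]
    refine sum_le_sum fun t _ => ?_
    have := gadget_same (q ^ (m + 1)) (2 * q ^ (m + 1)) (muN q I.length) 0
      (by rw [muN]; exact Nat.mul_pos (by omega) hl) (mainPos q P (m + 1) t)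
      (by rw [mainPos_length]; omega)
      (3 * q ^ (m + 1) * lN q (q ^ (m + 1)) I.length + t * (q + 1)) S h1 h2
    rw [mainPos_length, card_filter] at this
    exact this
  · rw [realE, cutE_range, show I.length * (q ^ (m + 1)) ^ 3 * (w2N q + 1) =
      I.length * ((q ^ (m + 1)) ^ 3 * (w2N q + 1)) by ring, cntN_mul]
    refine sum_le_sum fun i _ => ?_
    rw [cutE_range, cntN_mul]
    refine sum_le_sum fun t _ => ?_
    have := gadget_same (q ^ (m + 1)) (2 * q ^ (m + 1)) 1 (I.getD i dEqn).2.toNat le_rfl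
      (realPos q P (m + 1) (eqPts q H m I (I.getD i dEqn)) t)
      (by rw [realPos_length, w2N]; omega)
      (3 * q ^ (m + 1) * lN q (q ^ (m + 1)) I.length + (q ^ (m + 1)) ^ 3 * (q + 1) +
        (i * (q ^ (m + 1)) ^ 3 + t) * (w2N q + 1)) S h1 h2
    rw [realPos_length, card_filter] at this
    refine le_trans (le_of_eq ?_) this
    rw [cntN]
    refine sum_congr rfl fun κ _ => ?_
    congr 3
    ring

end

end Vale.Agent.P318.NPH
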