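import Mathlib

/-!
Numerical inequalities.
-/

namespace Vale.Agent.P318.NPH

/-- The numbers of the construction. -/
structure Nums (q Q L a b C U St num : ℝ) : Prop where
  q4 : 4 ≤ q
  Q1 : 1 ≤ Q
  b0 : 0 ≤ b
  U0 : 0 ≤ U
  C0 : 0 ≤ C
  St0 : 0 ≤ St
  a1 : 1 ≤ a
  ha : a = 8 * b * Q
  lo : 6 * q ^ 3 * U ≤ b * Q ^ 2
  hi : b * Q ^ 2 ≤ 10 * q ^ 3 * U
  hC : C ≤ 23 * q ^ 3 * U
  hL : 10 ^ 4 * q ^ 3 * St ≤ L
  hLa : 10 ^ 4 * a ≤ L
  hnum : num = 16 * a * Q + 2 * b * Q ^ 2 + 8 * C + U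

variable {q Q L a b C U St num : ℝ}

namespace Nums

variable (h : Nums q Q L a b C U St num)

include h

theorem q3 : 64 ≤ q ^ 3 := by
  have := h.q4
  calc (64 : ℝ) = 4 ^ 3 := by norm_num
    _ ≤ q ^ 3 := by gcongr

theorem L0 : 0 ≤ L := by
  have := h.a1
  have := h.hLa
  linarith

theorem num_eq : num = 130 * (b * Q ^ 2) + 8 * C + U := by
  rw [h.hnum, h.ha]; ring

theorem Y0 : 0 ≤ b * Q ^ 2 := mul_nonneg h.b0 (sq_nonneg _)

theorem U_le : 384 * U ≤ b * Q ^ 2 := by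
  have h1 := h.lo
  have h2 := h.q3
  have h3 : 64 * U ≤ q ^ 3 * U := mul_le_mul_of_nonneg_right h2 h.U0
  linarith

theorem C_le : 6 * C ≤ 23 * (b * Q ^ 2) := by
  have h1 := h.lo
  have h2 := h.hC
  linarith

theorem num_le : num ≤ 161 * (b * Q ^ 2) := by
  have h1 := h.num_eq
  have h2 := h.U_le
  have h3 := h.C_le
  have h4 := h.Y0
  linarith

theorem num_ge : 130 * (b * Q ^ 2) ≤ num := by
  have h1 := h.num_eq
  have h2 := h.U0
  have h3 := h.C0
  linarith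

theorem num0 : 0 ≤ num := by
  have h1 := h.num_ge
  have h2 := h.Y0
  linarith

theorem W_St : 10 ^ 4 * q ^ 3 * St ≤ Q * L := by
  have h1 := h.hL
  have h2 := h.Q1
  have h3 := h.L0
  nlinarith

theorem St_le : 640000 * St ≤ Q * L := by
  have h1 := h.W_St
  have h2 := h.q3
  have h3 : 64 * St ≤ q ^ 3 * St := mul_le_mul_of_nonneg_right h2 h.St0
  nlinarith

theorem W0 : 0 ≤ Q * L := mul_nonneg (by linarith [h.Q1]) h.L0

/-- Separated hubs. -/
theorem case3 {n1 n0 z1 z0 cut : ℝ} (hn1 : 0 ≤ n1) (hn0 : 0 ≤ n0) (hn : n1 + n0 = Q)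
    (hz1 : 0 ≤ z1) (hz0 : 0 ≤ z0) (hz : z1 + z0 = St)
    (hc : 16 * a * Q + 8 * b * (n1 * n0) + 8 * C + 3 * U ≤ 16 * cut) :
    (2000 * q ^ 3 + 1) * num * ((L * (Q + n1) + z1) * (L * (Q + n0) + z0)) ≤
      cut * (36 * Q ^ 2 * L ^ 2) * (2000 * q ^ 3) := by
  set W := Q * L with hW
  set Y := b * Q ^ 2 with hY
  set G := 2000 * q ^ 3 with hG
  have hq3 := h.q3
  have hG1 : 128000 ≤ G := by rw [hG]; linarith
  have hL0 := h.L0
  have hW0 := h.W0
  rw [← hW] at hW0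
  have hnum0 := h.num0
  have hSt0 := h.St0
  have hStW := h.St_le
  rw [← hW] at hStW
  obtain ⟨d, hd⟩ : ∃ d, n1 * n0 = Q ^ 2 / 4 - d := ⟨Q ^ 2 / 4 - n1 * n0, by ring⟩
  have hd0 : 0 ≤ d := by
    have : d = (n1 - n0) ^ 2 / 4 := by
      have : d = Q ^ 2 / 4 - n1 * n0 := by linarith
      rw [this, ← hn]; ring
    rw [this]; positivity
  -- the product
  have hprod : (L * (Q + n1) + z1) * (L * (Q + n0) + z0) ≤
      9 / 4 * W ^ 2 - L ^ 2 * d + 3 * W * St := by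
    have e1 : (L * (Q + n1) + z1) * (L * (Q + n0) + z0) =
        L ^ 2 * (Q ^ 2 + Q * (n1 + n0) + n1 * n0) + L * (Q + n1) * z0 + L * (Q + n0) * z1 +
          z1 * z0 := by ring
    have e2 : L * (Q + n1) * z0 ≤ 2 * W * z0 := by
      refine mul_le_mul_of_nonneg_right ?_ hz0
      rw [hW]
      have : L * n1 ≤ L * Q := mul_le_mul_of_nonneg_left (by linarith) hL0
      nlinarith
    have e3 : L * (Q + n0) * z1 ≤ 2 * W * z1 := by
      refine mul_le_mul_of_nonneg_right ?_ hz1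
      rw [hW]
      have : L * n0 ≤ L * Q := mul_le_mul_of_nonneg_left (by linarith) hL0
      nlinarith
    have e4 : z1 * z0 ≤ W * St := by
      have : z1 * z0 ≤ St * St := mul_le_mul (by linarith) (by linarith) hz0 hSt0
      have : St * St ≤ W * St := mul_le_mul_of_nonneg_right (by linarith) hSt0
      linarith
    rw [e1, hn, hd]
    have e5 : L ^ 2 * (Q ^ 2 + Q * Q + (Q ^ 2 / 4 - d)) = 9 / 4 * W ^ 2 - L ^ 2 * d := by
      rw [hW]; ring
    rw [e5]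
    have e6 : 2 * W * z0 + 2 * W * z1 = 2 * W * St := by rw [← hz]; ring
    linarith
  -- the capacity
  have hcut : num + 2 * U - 8 * b * d ≤ 16 * cut := by
    refine le_trans (le_of_eq ?_) hc
    rw [hd, h.hnum]; ring
  have hcutW : (num + 2 * U - 8 * b * d) * (9 / 4 * W ^ 2 * G) ≤
      cut * (36 * Q ^ 2 * L ^ 2) * G := by
    have : (num + 2 * U - 8 * b * d) * (9 / 4 * W ^ 2 * G) ≤
        16 * cut * (9 / 4 * W ^ 2 * G) := mul_le_mul_of_nonneg_right hcut (by positivity)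
    refine this.trans (le_of_eq ?_)
    rw [hW]; ring
  refine le_trans (mul_le_mul_of_nonneg_left hprod (by positivity)) (le_trans ?_ hcutW)
  -- comparison
  have k1 : 400 * Y ≤ 2 * G * U := by
    have := h.hi
    rw [hG]; linarith
  have k2 : num ≤ 161 * Y := h.num_le
  have k3 : 130 * Y ≤ num := h.num_ge
  have hY0 : 0 ≤ Y := h.Y0
  have k4 : 0 ≤ 9 / 4 * W ^ 2 * (2 * G * U - num - 239 * Y) := by
    refine mul_nonneg (by positivity) ?_
    linarith
  have k5 : 0 ≤ L ^ 2 * d * ((G + 1) * num - 18 * G * Y) := by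
    refine mul_nonneg (by positivity) ?_
    have : 18 * Y ≤ num := by linarith
    have : G * (18 * Y) ≤ G * num := mul_le_mul_of_nonneg_left this (by linarith)
    nlinarith
  have k6 : 3 * (G + 1) * num * W * St ≤ 200 * Y * W ^ 2 := by
    have s1 : (G + 1) * St ≤ 2001 * (q ^ 3 * St) := by
      rw [hG]
      have : St ≤ q ^ 3 * St := by nlinarith
      nlinarith
    have s2 : q ^ 3 * St ≤ W / 10 ^ 4 := by
      have := h.W_St
      rw [← hW] at this
      rw [le_div_iff₀ (by norm_num)]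
      linarith
    have s3 : (G + 1) * St ≤ 0.2001 * W := by linarith
    have s4 : 3 * (G + 1) * num * W * St = 3 * num * W * ((G + 1) * St) := by ring
    rw [s4]
    have s5 : 3 * num * W * ((G + 1) * St) ≤ 3 * num * W * (0.2001 * W) :=
      mul_le_mul_of_nonneg_left s3 (by positivity)
    have s6 : 3 * num * W * (0.2001 * W) ≤ 3 * (161 * Y) * W * (0.2001 * W) := by
      gcongr
    refine s5.trans (s6.trans ?_)
    have e0 : 0 ≤ Y * W ^ 2 := by positivity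
    have e1 : 3 * (161 * Y) * W * (0.2001 * W) = 96.6483 * (Y * W ^ 2) := by ring
    have e2 : 200 * Y * W ^ 2 = 200 * (Y * W ^ 2) := by ring
    rw [e1, e2]
    linarith
  have k7 : 200 * Y * W ^ 2 ≤ 9 / 4 * W ^ 2 * (239 * Y) := by
    have e0 : 0 ≤ Y * W ^ 2 := by positivity
    have e1 : 9 / 4 * W ^ 2 * (239 * Y) = 537.75 * (Y * W ^ 2) := by ring
    have e2 : 200 * Y * W ^ 2 = 200 * (Y * W ^ 2) := by ring
    rw [e1, e2]
    linarith
  have hYd : 18 * G * Y * (L ^ 2 * d) = 8 * b * d * (9 / 4 * W ^ 2 * G) := by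
    rw [hY, hW]; ring
  have f1 : (G + 1) * num * (9 / 4 * W ^ 2 - L ^ 2 * d + 3 * W * St) =
      9 / 4 * W ^ 2 * G * num + 9 / 4 * W ^ 2 * num - L ^ 2 * d * ((G + 1) * num) +
        3 * (G + 1) * num * W * St := by ring
  have f2 : (num + 2 * U - 8 * b * d) * (9 / 4 * W ^ 2 * G) =
      9 / 4 * W ^ 2 * G * num + 9 / 4 * W ^ 2 * (2 * G * U) - 8 * b * d * (9 / 4 * W ^ 2 * G) := by
    ring
  have f3 : 9 / 4 * W ^ 2 * (2 * G * U - num - 239 * Y) = 9 / 4 * W ^ 2 * (2 * G * U) -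
      9 / 4 * W ^ 2 * num - 9 / 4 * W ^ 2 * (239 * Y) := by ring
  have f4 : L ^ 2 * d * ((G + 1) * num - 18 * G * Y) = L ^ 2 * d * ((G + 1) * num) -
      18 * G * Y * (L ^ 2 * d) := by ring
  rw [f1, f2, ← hYd]
  rw [f3] at k4
  rw [f4] at k5
  linarith

/-- Hubs on the same side. -/
theorem case2 {n1 z1 c0 cut : ℝ} (hn1 : 0 ≤ n1) (hz1 : 0 ≤ z1) (hc00 : 0 ≤ c0)
    (hc0 : c0 ≤ 3 * (Q * L) + St) (hc : 2 * a * n1 + z1 ≤ cut) :
    (2000 * q ^ 3 + 1) * num * ((L * n1 + z1) * c0) ≤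
      cut * (36 * Q ^ 2 * L ^ 2) * (2000 * q ^ 3) := by
  set W := Q * L with hW
  set Y := b * Q ^ 2 with hY
  set G := 2000 * q ^ 3 with hG
  have hq3 := h.q3
  have hG1 : 128000 ≤ G := by rw [hG]; linarith
  have hL0 := h.L0
  have hW0 := h.W0
  rw [← hW] at hW0
  have hnum0 := h.num0
  have hSt0 := h.St0
  have hStW := h.St_le
  rw [← hW] at hStW
  have hY0 : 0 ≤ Y := h.Y0
  have hQ0 : 0 ≤ Q := by linarith [h.Q1]
  have ha0 : 0 ≤ a := by linarith [h.a1]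
  have haQ : a * Q = 8 * Y := by rw [h.ha, hY]; ring
  have hc0' : c0 ≤ 3.01 * W := by linarith
  have k2 : (G + 1) * num ≤ 162 * Y * G := by
    have s1 : (G + 1) * num ≤ (G + 1) * (161 * Y) :=
      mul_le_mul_of_nonneg_left h.num_le (by linarith)
    have s2 : 161 * Y ≤ Y * G := by nlinarith
    nlinarith
  have k3 : (G + 1) * num * ((L * n1 + z1) * c0) ≤
      162 * Y * G * ((L * n1 + z1) * (3.01 * W)) := by
    refine mul_le_mul k2 ?_ (by positivity) (by positivity)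
    exact mul_le_mul_of_nonneg_left hc0' (by positivity)
  refine k3.trans ?_
  have k4 : (2 * a * n1 + z1) * (36 * Q ^ 2 * L ^ 2) * G ≤ cut * (36 * Q ^ 2 * L ^ 2) * G := by
    gcongr
  refine le_trans ?_ k4
  have k5 : 162 * Y * (3.01 * W) * (L * n1) ≤ 2 * a * n1 * (36 * W ^ 2) := by
    have : 2 * a * n1 * (36 * W ^ 2) = 72 * (a * Q) * W * (L * n1) := by rw [hW]; ring
    rw [this, haQ]
    have : 0 ≤ Y * W * (L * n1) := by positivity
    nlinarith
  have k6 : 162 * Y * (3.01 * W) * z1 ≤ z1 * (36 * W ^ 2) := by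
    have s1 : 488 * Y ≤ 36 * W := by
      have s2 : 10 ^ 4 * (a * Q) ≤ L * Q := by
        have := mul_le_mul_of_nonneg_right h.hLa hQ0
        linarith
      rw [haQ] at s2
      rw [hW]
      nlinarith
    have : 0 ≤ W * z1 := by positivity
    nlinarith
  have k7 : 36 * Q ^ 2 * L ^ 2 = 36 * W ^ 2 := by rw [hW]; ring
  rw [k7]
  have hG0 : 0 ≤ G := by linarith
  have k8 : 162 * Y * G * ((L * n1 + z1) * (3.01 * W)) =
      (162 * Y * (3.01 * W) * (L * n1) + 162 * Y * (3.01 * W) * z1) * G := by ring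
  rw [k8]
  refine mul_le_mul_of_nonneg_right ?_ hG0
  linarith

/-- A heavy edge is cut. -/
theorem case1 {c1 c0 cut : ℝ} (hc10 : 0 ≤ c1) (hc00 : 0 ≤ c0)
    (hs : c1 + c0 = 3 * (Q * L) + St) (hc : 4 * a * Q ≤ cut) :
    (2000 * q ^ 3 + 1) * num * (c1 * c0) ≤ cut * (36 * Q ^ 2 * L ^ 2) * (2000 * q ^ 3) := by
  set W := Q * L with hW
  set Y := b * Q ^ 2 with hY
  set G := 2000 * q ^ 3 with hG
  have hq3 := h.q3
  have hG1 : 128000 ≤ G := by rw [hG]; linarith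
  have hW0 := h.W0
  rw [← hW] at hW0
  have hnum0 := h.num0
  have hSt0 := h.St0
  have hStW := h.St_le
  rw [← hW] at hStW
  have hY0 : 0 ≤ Y := h.Y0
  have haQ : a * Q = 8 * Y := by rw [h.ha, hY]; ring
  have hp : c1 * c0 ≤ 2.5 * W ^ 2 := by
    have s1 : c1 * c0 ≤ (c1 + c0) ^ 2 / 4 := by nlinarith [sq_nonneg (c1 - c0)]
    have s2 : (c1 + c0) ^ 2 ≤ (3.01 * W) ^ 2 := by
      refine pow_le_pow_left₀ (by positivity) ?_ 2
      linarith
    nlinarith
  have k2 : (G + 1) * num ≤ 162 * Y * G := by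
    have s1 : (G + 1) * num ≤ (G + 1) * (161 * Y) :=
      mul_le_mul_of_nonneg_left h.num_le (by linarith)
    have s2 : 161 * Y ≤ Y * G := by nlinarith
    nlinarith
  have k3 : (G + 1) * num * (c1 * c0) ≤ 162 * Y * G * (2.5 * W ^ 2) :=
    mul_le_mul k2 hp (by positivity) (by positivity)
  refine k3.trans ?_
  have k4 : (4 * a * Q) * (36 * Q ^ 2 * L ^ 2) * G ≤ cut * (36 * Q ^ 2 * L ^ 2) * G := by
    gcongr
  refine le_trans ?_ k4
  have k5 : (4 * a * Q) * (36 * Q ^ 2 * L ^ 2) * G = 1152 * Y * W ^ 2 * G := by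
    have : (4 * a * Q) * (36 * Q ^ 2 * L ^ 2) * G = 144 * (a * Q) * W ^ 2 * G := by
      rw [hW]; ring
    rw [this, haQ]; ring
  rw [k5]
  have : 0 ≤ Y * W ^ 2 * G := by positivity
  nlinarith

end Nums

end Vale.Agent.P318.NPH
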