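import Vale.Agent.P318.NPH.Gadget
import Vale.Agent.P318.NPH.AlgComp

/-!
The sums of the values of the gadgets of all tests.
-/

set_option linter.unusedSectionVars false

namespace Vale.Agent.P318.NPH

open Finset

/-- A field with `q` elements and its vector space of dimension `M`, on numbers. -/
structure Space (q P M : ℕ) (K : Type) [Field K] where
  /-- numbers of the scalars -/
  e : K ≃ Fin q
  e0 : (e 0 : ℕ) = 0
  /-- numbers of the points -/
  idx : (Fin M → K) ≃ Fin (q ^ M)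
  idx_sum : ∀ p, (idx p : ℕ) = ∑ j : Fin M, (e (p j) : ℕ) * q ^ (j : ℕ)
  idx_pt : ∀ y h g u, (idx (cpt y h g u) : ℕ) = ptN q P M (idx y) (idx h) (idx g) (e u)
  idx_add : ∀ h f u, (idx (h + u • f) : ℕ) = (idx h : ℕ) ^^^ smulN q P M (e u) (idx f)

/-! ### Sums over ranges -/

theorem sum_range_mul (A B : ℕ) (f : ℕ → ℕ → ℕ) :
    ∑ t ∈ range (A * B), f (t % A) (t / A) = ∑ a ∈ range A, ∑ b ∈ range B, f a b := by
  rcases Nat.eq_zero_or_pos A with rfl | hA
  · simp
  rw [sum_comm]
  induction B with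
  | zero => simp
  | succ B ih =>
    rw [mul_add, mul_one, sum_range_add, ih, sum_range_succ]
    congr 1
    refine sum_congr rfl fun x hx => ?_
    rw [mem_range] at hx
    rw [Nat.mul_add_mod, Nat.mod_eq_of_lt hx, Nat.mul_add_div hA, Nat.div_eq_of_lt hx, add_zero]

theorem sum_triple (Q : ℕ) (F : ℕ → ℕ → ℕ → ℕ) :
    ∑ t ∈ range (Q ^ 3), F (t % Q) (t / Q % Q) (t / Q / Q) =
      ∑ a ∈ range Q, ∑ b ∈ range Q, ∑ c ∈ range Q, F a b c := by
  rw [show Q ^ 3 = Q * (Q * Q) by ring, sum_range_mul Q (Q * Q) (fun a t => F a (t % Q) (t / Q))]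
  exact sum_congr rfl fun a _ => sum_range_mul Q Q (fun b c => F a b c)

theorem sum3 {X : Type*} [Fintype X] (F : X × X × X → ℕ) :
    ∑ t : X × X × X, F t = ∑ y : X, ∑ h : X, ∑ g : X, F (y, h, g) := by
  rw [Fintype.sum_prod_type]
  exact sum_congr rfl fun y _ => Fintype.sum_prod_type _

theorem sum_range_equiv {ι : Type*} [Fintype ι] {n : ℕ} (e : ι ≃ Fin n) (f : ℕ → ℕ) :
    ∑ a ∈ range n, f a = ∑ i : ι, f (e i) := by
  rw [← Fin.sum_univ_eq_sum_range, ← e.sum_comp]

theorem countP_range (n : ℕ) (p : ℕ → Bool) :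
    (List.range n).countP p = ∑ i ∈ range n, if p i = true then 1 else 0 := by
  induction n with
  | zero => rfl
  | succ n ih =>
    rw [List.range_succ, List.countP_append, ih, Finset.sum_range_succ, List.countP_singleton]

theorem ones_eq_sum {ι X : Type*} [Fintype ι] (σ : X → Bool) (p : ι → X) :
    ones σ p = ∑ i, if σ (p i) = true then 1 else 0 := by
  rw [ones, card_eq_sum_ones, sum_filter]

theorem ones_cast {ι X : Type*} [Fintype ι] (σ : X → Bool) (p : ι → X) :
    (ones σ p : ZMod 2) = ∑ i, (if σ (p i) = true then 1 else 0 : ZMod 2) := by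
  rw [ones_eq_sum]
  push_cast
  rfl

theorem ones_parity {ι X : Type*} [Fintype ι] (σ : X → Bool) (p : ι → X) (b : ℕ) :
    ((ones σ p + b) % 2 = 1) ↔
      ∑ i, (if σ (p i) = true then 1 else 0 : ZMod 2) ≠ ((b : ℕ) : ZMod 2) := by
  rw [← ones_cast]
  have h1 : ((ones σ p + b) % 2 = 1) ↔ ¬ ((ones σ p + b) % 2 = 0) := by omega
  rw [h1, not_iff_not, ← Nat.dvd_iff_mod_eq_zero, ← ZMod.natCast_eq_zero_iff]
  push_cast
  constructor
  · exact zmod2_eq_of_add
  · intro h
    rw [h]
    exact CharTwo.add_self_eq_zero _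

section sums

variable {q P M : ℕ} {K : Type} [Field K] [Fintype K] [DecidableEq K] (Z : Space q P M K)

include Z in
theorem Space.card_K : Fintype.card K = q := by
  rw [Fintype.card_congr Z.e, Fintype.card_fin]

include Z in
theorem Space.card_X : Fintype.card (Fin M → K) = q ^ M := by
  rw [Fintype.card_congr Z.idx, Fintype.card_fin]

/-- The side of the points. -/
def Space.side (S : ℕ → Bool) (p : Fin M → K) : Bool := S (Z.idx p)

/-- The side of the points, modulo 2. -/
def tau {X : Type*} (σ : X → Bool) (x : X) : ZMod 2 := if σ x = true then 1 else 0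

theorem mainPos_countP (S : ℕ → Bool) (y h g : Fin M → K) :
    ((List.range q).map fun u => ptN q P M (Z.idx y) (Z.idx h) (Z.idx g) u).countP S =
      ones (Z.side S) (mpos (K := K) (y, h, g)) := by
  rw [List.countP_map, countP_range, ones_eq_sum, sum_range_equiv Z.e]
  refine sum_congr rfl fun u _ => ?_
  rw [Function.comp_apply, ← Z.idx_pt]
  rfl

theorem main_sum (S : ℕ → Bool) (hq : 2 ≤ q) (hq2 : q % 2 = 0) :
    2 * ∑ t ∈ range ((q ^ M) ^ 3), aVal q 0 ((mainPos q P M t).countP S) =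
      q * (q - 1) * q ^ M * (cnt (Z.side S) * cnt (fun x => !Z.side S x)) +
      (q ^ M) ^ 3 * dN q 0 + mainBad K (tau (Z.side S)) := by
  have h1 : ∑ t ∈ range ((q ^ M) ^ 3), aVal q 0 ((mainPos q P M t).countP S) =
      ∑ y : Fin M → K, ∑ h : Fin M → K, ∑ g : Fin M → K,
        aVal q 0 (ones (Z.side S) (mpos (K := K) (y, h, g))) := by
    have := sum_triple (q ^ M) (fun a b c => aVal q 0
      (((List.range q).map fun u => ptN q P M a b c u).countP S))
    rw [show (∑ t ∈ range ((q ^ M) ^ 3), aVal q 0 ((mainPos q P M t).countP S)) = _ from this]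
    rw [sum_range_equiv Z.idx]
    refine sum_congr rfl fun y _ => ?_
    rw [sum_range_equiv Z.idx]
    refine sum_congr rfl fun h _ => ?_
    rw [sum_range_equiv Z.idx]
    refine sum_congr rfl fun g _ => ?_
    rw [mainPos_countP Z S y h g]
  have h2 : ∑ y : Fin M → K, ∑ h : Fin M → K, ∑ g : Fin M → K,
        aVal q 0 (ones (Z.side S) (mpos (K := K) (y, h, g))) =
      ∑ t : (Fin M → K) × (Fin M → K) × (Fin M → K),
        aVal q 0 (ones (Z.side S) (mpos (K := K) t)) := by
    exact (sum3 fun t => aVal q 0 (ones (Z.side S) (mpos (K := K) t))).symm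
  rw [h1, h2, mul_sum]
  have h3 : ∀ t : (Fin M → K) × (Fin M → K) × (Fin M → K),
      2 * aVal q 0 (ones (Z.side S) (mpos (K := K) t)) =
      ones (Z.side S) (mpos (K := K) t) * (Fintype.card K - ones (Z.side S) (mpos (K := K) t)) +
        dN q 0 + (if ∑ u : K, tau (Z.side S) (mpos t u) ≠ 0 then 1 else 0) := by
    intro t
    have hk : ones (Z.side S) (mpos (K := K) t) ≤ q :=
      (ones_le (Z.side S) (mpos (K := K) t)).trans (le_of_eq Z.card_K)
    rw [aVal_eq q 0 _ hq hq2 (by omega) hk, Z.card_K]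
    congr 1
    have := ones_parity (Z.side S) (mpos (K := K) t) 0
    rw [Nat.cast_zero] at this
    exact if_congr this rfl rfl
  rw [sum_congr rfl fun t _ => h3 t, sum_add_distrib, sum_add_distrib, mpos_quad, Z.card_K,
    Z.card_X, sum_const, card_univ, Fintype.card_prod, Fintype.card_prod, Z.card_X, smul_eq_mul,
    mainBad, card_filter]
  congr 2
  ring

/-- Four distinct scalars. -/
def Space.c4 (h4 : 4 ≤ q) (j : Fin 4) : K := Z.e.symm ⟨j, by omega⟩

theorem Space.c4_inj (h4 : 4 ≤ q) : Function.Injective (Z.c4 h4) := by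
  intro i j h
  have := Z.e.symm.injective h
  rw [Fin.mk.injEq] at this
  exact Fin.ext this

include Z in
theorem card_idx : Fintype.card (Fin 4 × {u : K // u ≠ 0}) = w2N q := by
  rw [Fintype.card_prod, Fintype.card_fin, w2N]
  have : Fintype.card {u : K // u ≠ 0} = Fintype.card K - 1 := by
    rw [Fintype.card_subtype_compl, Fintype.card_subtype_eq]
  rw [this, Z.card_K]

theorem sum_succ_range (hq : 1 ≤ q) (G : ℕ → ℕ) :
    ∑ u ∈ range (q - 1), G (u + 1) = ∑ u : {u : K // u ≠ 0}, G (Z.e u.1) := by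
  have h1 : ∑ u ∈ range q, G u = G 0 + ∑ u : {u : K // u ≠ 0}, G (Z.e u.1) := by
    rw [sum_range_equiv Z.e, ← Finset.add_sum_erase _ _ (mem_univ (0 : K)), Z.e0]
    congr 1
    exact (Finset.sum_subtype (univ.erase (0 : K)) (p := fun u => u ≠ 0) (fun x => by simp)
      (fun u => G (Z.e u)))
  have h2 : ∑ u ∈ range q, G u = ∑ u ∈ range (q - 1), G (u + 1) + G 0 := by
    rw [← sum_range_succ' G (q - 1), Nat.sub_add_cancel hq]
  omega

theorem realPos_countP (h4 : 4 ≤ q) (S : ℕ → Bool) (π : Fin 4 → Fin M → K) (πN : List ℕ)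
    (hπ : ∀ j : Fin 4, πN.getD j 0 = Z.idx (π j)) (h g f : Fin M → K) :
    ((List.range 4).flatMap fun j => (List.range (q - 1)).map fun u =>
      ptN q P M (πN.getD j 0) ((Z.idx h : ℕ) ^^^ smulN q P M j (Z.idx f)) (Z.idx g)
        (u + 1)).countP S = ones (Z.side S) (rpos π (Z.c4 h4) (h, g, f)) := by
  rw [List.countP_flatMap, ones_eq_sum, Fintype.sum_prod_type]
  rw [sum_map_range]
  rw [← Fin.sum_univ_eq_sum_range (fun j => (List.countP S ∘ fun j => (List.range (q - 1)).map
    fun u => ptN q P M (πN.getD j 0) ((Z.idx h : ℕ) ^^^ smulN q P M j (Z.idx f)) (Z.idx g)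
        (u + 1)) j) 4]
  refine sum_congr rfl fun j _ => ?_
  rw [Function.comp_apply, List.countP_map, countP_range]
  have hj : (j : ℕ) = Z.e (Z.c4 h4 j) := by
    rw [Space.c4, Equiv.apply_symm_apply]
  have hs := sum_succ_range Z (by omega) (fun u => if S (ptN q P M (πN.getD j 0)
    ((Z.idx h : ℕ) ^^^ smulN q P M j (Z.idx f)) (Z.idx g) u) = true then 1 else 0)
  refine Eq.trans hs ?_
  refine sum_congr rfl fun u _ => ?_
  rw [hπ j]
  conv_lhs => rw [hj]
  rw [← Z.idx_add, ← Z.idx_pt]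
  rfl

theorem real_sum (h4 : 4 ≤ q) (S : ℕ → Bool) (π : Fin 4 → Fin M → K) (πN : List ℕ)
    (hπ : ∀ j : Fin 4, πN.getD j 0 = Z.idx (π j)) (b : ℕ) (hb : b ≤ 1) :
    2 * ∑ t ∈ range ((q ^ M) ^ 3), aVal (w2N q) b ((realPos q P M πN t).countP S) =
      w2N q * (w2N q - 1) * q ^ M * (cnt (Z.side S) * cnt (fun x => !Z.side S x)) +
      (q ^ M) ^ 3 * dN (w2N q) b +
      realBad (tau (Z.side S)) π (Z.c4 h4) ((b : ℕ) : ZMod 2) := by
  have h1 : ∑ t ∈ range ((q ^ M) ^ 3), aVal (w2N q) b ((realPos q P M πN t).countP S) =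
      ∑ h : Fin M → K, ∑ g : Fin M → K, ∑ f : Fin M → K,
        aVal (w2N q) b (ones (Z.side S) (rpos π (Z.c4 h4) (h, g, f))) := by
    have := sum_triple (q ^ M) (fun a b' c => aVal (w2N q) b
      (((List.range 4).flatMap fun j => (List.range (q - 1)).map fun u =>
      ptN q P M (πN.getD j 0) (a ^^^ smulN q P M j c) b' (u + 1)).countP S))
    rw [show (∑ t ∈ range ((q ^ M) ^ 3), aVal (w2N q) b ((realPos q P M πN t).countP S)) = _
      from this]
    rw [sum_range_equiv Z.idx]
    refine sum_congr rfl fun y _ => ?_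
    rw [sum_range_equiv Z.idx]
    refine sum_congr rfl fun h _ => ?_
    rw [sum_range_equiv Z.idx]
    refine sum_congr rfl fun g _ => ?_
    rw [realPos_countP Z h4 S π πN hπ]
  have h2 : ∑ y : Fin M → K, ∑ h : Fin M → K, ∑ g : Fin M → K,
        aVal (w2N q) b (ones (Z.side S) (rpos π (Z.c4 h4) (y, h, g))) =
      ∑ t : (Fin M → K) × (Fin M → K) × (Fin M → K),
        aVal (w2N q) b (ones (Z.side S) (rpos π (Z.c4 h4) t)) := by
    exact (sum3 fun t => aVal (w2N q) b (ones (Z.side S) (rpos π (Z.c4 h4) t))).symm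
  rw [h1, h2, mul_sum]
  have hw : w2N q = 4 * (q - 1) := rfl
  have h3 : ∀ t : (Fin M → K) × (Fin M → K) × (Fin M → K),
      2 * aVal (w2N q) b (ones (Z.side S) (rpos π (Z.c4 h4) t)) =
      ones (Z.side S) (rpos π (Z.c4 h4) t) *
        (Fintype.card (Fin 4 × {u : K // u ≠ 0}) - ones (Z.side S) (rpos π (Z.c4 h4) t)) +
        dN (w2N q) b + (if ∑ i, tau (Z.side S) (rpos π (Z.c4 h4) t i) ≠ ((b : ℕ) : ZMod 2)
          then 1 else 0) := by
    intro t
    have hk : ones (Z.side S) (rpos π (Z.c4 h4) t) ≤ w2N q :=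
      (ones_le (Z.side S) (rpos π (Z.c4 h4) t)).trans (le_of_eq (card_idx Z))
    rw [aVal_eq (w2N q) b _ (by omega) (by omega) hb hk, card_idx Z]
    congr 1
    exact if_congr (ones_parity _ _ _) rfl rfl
  rw [sum_congr rfl fun t _ => h3 t, sum_add_distrib, sum_add_distrib,
    rpos_quad π (Z.c4 h4) (Z.c4_inj h4), card_idx Z,
    Z.card_X, sum_const, card_univ, Fintype.card_prod, Fintype.card_prod, Z.card_X, smul_eq_mul,
    realBad, card_filter]
  congr 2
  ring

end sums

end Vale.Agent.P318.NPH
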