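import Vale.Agent.P318.NPH.Graph2

/-!
The number of violated tests: lower bound for all cuts, upper bound for the honest cut.
-/

set_option linter.unusedSectionVars false

namespace Vale.Agent.P318.NPH

open Finset Vale.Agent.P333

theorem countP_eq_sum {β : Type*} (l : List β) (p : β → Bool) :
    l.countP p = (l.map fun e => if p e = true then 1 else 0).sum := by
  induction l with
  | nil => rfl
  | cons a l ih =>
    rw [List.countP_cons, List.map_cons, List.sum_cons, ih, add_comm]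

theorem takeWhile_getD (l : List ℕ) (v : ℕ) (hv : v ∈ l) :
    (l.takeWhile fun w => !decide (w = v)).length < l.length ∧
      l.getD (l.takeWhile fun w => !decide (w = v)).length 0 = v := by
  induction l with
  | nil => simp at hv
  | cons a l ih =>
    by_cases h : a = v
    · subst h
      simp
    · have hv' : v ∈ l := by
        rcases List.mem_cons.1 hv with h' | h'
        · exact absurd h'.symm h
        · exact h'
      obtain ⟨h1, h2⟩ := ih hv'
      rw [List.takeWhile_cons_of_pos (by simp [h])]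
      refine ⟨by simpa using h1, ?_⟩
      rw [List.length_cons, List.getD_cons_succ]
      exact h2

/-- The equation in terms of elements of `ZMod 2`. -/
theorem eqn_zmod (A B C O : ZMod 2) (β : Bool) :
    ((xor (decide (A + O = 1)) (xor (decide (B + O = 1)) (decide (C + O = 1)))) != β) = true →
      A + B + C + O ≠ ((β.toNat : ℕ) : ZMod 2) := by
  revert A B C O β
  decide

theorem eqn_zmod' (a b c β : Bool) :
    (((if a then 1 else 0 : ZMod 2) + (if b then 1 else 0) + (if c then 1 else 0) + 0) ≠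
      ((β.toNat : ℕ) : ZMod 2)) ↔ ((xor a (xor b c)) != β) = true := by
  revert a b c β
  decide

section

variable {q P m H : ℕ} {K : Type} [Field K] [Fintype K] [DecidableEq K]
  (Z : Space q P (m + 1) K)
  (h4 : 4 ≤ q) (hq2 : q % 2 = 0) (hH : H ≤ q) (I : List Eqn)
  (hn : 3 * I.length < H ^ m) (S : ℕ → Bool)

theorem viol_ge : (q ^ (m + 1)) ^ 3 * minViolated I ≤ Z.viol h4 hH I hn S := by
  classical
  obtain ⟨γ, hγ⟩ := exists_assign (K := K) (tau (Z.side S))
  set V := mainBad K (tau (Z.side S)) with hV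
  set x : ℕ → Bool := fun v => decide (γ (Z.sysX hH ⟨vIdx I v, (vIdx_le _ _).trans_lt hn⟩) +
    γ (Z.sysX hH ⟨3 * I.length, hn⟩) = 1) with hx
  have h1 : minViolated I ≤ violated x I := Nat.sInf_le ⟨x, rfl⟩
  refine (Nat.mul_le_mul_left _ h1).trans ?_
  rw [violated, countP_eq_sum, ← sum_getD I dEqn, mul_sum, Space.viol]
  have h2 : ∀ i ∈ range I.length, (q ^ (m + 1)) ^ 3 *
      (if ((xor (x (I.getD i dEqn).1.1) (xor (x (I.getD i dEqn).1.2.1)
        (x (I.getD i dEqn).1.2.2))) != (I.getD i dEqn).2) = true then 1 else 0) ≤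
      8 * q * V + Z.rBad h4 hH I hn S i := by
    intro i _
    split_ifs with h
    · have h3 := eqn_zmod _ _ _ _ _ h
      have h5 := hγ (Fin 4) (Z.eqX hH I hn (I.getD i dEqn)) (Z.c4 h4)
        (((I.getD i dEqn).2.toNat : ℕ) : ZMod 2) (by
          rw [Fin.sum_univ_four]
          exact h3)
      rw [Z.card_X, Z.card_K, Fintype.card_fin] at h5
      rw [mul_one]
      refine h5.trans ?_
      rw [Space.rBad, add_comm]
      refine Nat.add_le_add_right ?_ _
      have : q - 1 ≤ q := Nat.sub_le _ _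
      calc 4 * (2 * (q - 1) * V) ≤ 4 * (2 * q * V) := by gcongr
        _ = 8 * q * V := by ring
    · simp
  refine (sum_le_sum h2).trans ?_
  rw [sum_add_distrib, sum_const, card_range, smul_eq_mul, muN]
  apply le_of_eq
  ring

/-! ### The honest cut -/

/-- The value of the variable number `n`. -/
def xNum (I : List Eqn) (x : ℕ → Bool) (n : ℕ) : Bool :=
  if n < (vars I).length then x ((vars I).getD n 0) else false

theorem xNum_vIdx (x : ℕ → Bool) {v : ℕ} (hv : v ∈ vars I) : xNum I x (vIdx I v) = x v := by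
  obtain ⟨h1, h2⟩ := takeWhile_getD (vars I) v hv
  rw [xNum, vIdx, if_pos h1, h2]

theorem xNum_last (x : ℕ → Bool) : xNum I x (3 * I.length) = false := by
  rw [xNum, vars_length, if_neg (lt_irrefl _)]

/-- The assignment of the systematic points. -/
def xSys (I : List Eqn) (x : ℕ → Bool) (c : Fin m → Fin H) : ZMod 2 :=
  if xNum I x (finFunctionFinEquiv c) = true then 1 else 0

/-- The honest assignment of the points. -/
noncomputable def Space.hon (φ : K →+ ZMod 2) (θ : K) (x : ℕ → Bool) : (Fin (m + 1) → K) → ZMod 2 :=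
  honest (Z.eta hH) φ θ (fun c => if xSys (m := m) (H := H) I x c = 1 then 1 else 0)

theorem hon_sysX (φ : K →+ ZMod 2) (θ : K) (hθ : φ θ = 1) (x : ℕ → Bool) (v : Fin (H ^ m)) :
    Z.hon hH I φ θ x (Z.sysX hH v) = if xNum I x v = true then 1 else 0 := by
  rw [Space.hon, Space.sysX]
  have := honest_sysPt (Z.eta hH) (Z.eta_inj hH) φ θ hθ (xSys (m := m) (H := H) I x)
    (finFunctionFinEquiv.symm v)
  rw [this, xSys, Equiv.apply_symm_apply]

theorem hon_eq_iff (φ : K →+ ZMod 2) (θ : K) (hθ : φ θ = 1) (x : ℕ → Bool) (e : Eqn)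
    (he : e ∈ I) :
    (∑ j, Z.hon hH I φ θ x (Z.eqX hH I hn e j) ≠ ((e.2.toNat : ℕ) : ZMod 2)) ↔
      ((xor (x e.1.1) (xor (x e.1.2.1) (x e.1.2.2))) != e.2) = true := by
  have hm : ∀ v, v = e.1.1 ∨ v = e.1.2.1 ∨ v = e.1.2.2 → v ∈ vars I := by
    intro v hv
    rw [vars, List.mem_flatMap]
    refine ⟨e, he, ?_⟩
    simp only [List.mem_cons, List.not_mem_nil, or_false]
    exact hv
  rw [Fin.sum_univ_four]
  have e0 : Z.eqX hH I hn e 0 = Z.sysX hH ⟨vIdx I e.1.1, (vIdx_le _ _).trans_lt hn⟩ := rfl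
  have e1 : Z.eqX hH I hn e 1 = Z.sysX hH ⟨vIdx I e.1.2.1, (vIdx_le _ _).trans_lt hn⟩ := rfl
  have e2 : Z.eqX hH I hn e 2 = Z.sysX hH ⟨vIdx I e.1.2.2, (vIdx_le _ _).trans_lt hn⟩ := rfl
  have e3 : Z.eqX hH I hn e 3 = Z.sysX hH ⟨3 * I.length, hn⟩ := rfl
  rw [e0, e1, e2, e3, hon_sysX Z hH I φ θ hθ, hon_sysX Z hH I φ θ hθ, hon_sysX Z hH I φ θ hθ,
    hon_sysX Z hH I φ θ hθ]
  dsimp only
  rw [xNum_vIdx I x (hm _ (Or.inl rfl)), xNum_vIdx I x (hm _ (Or.inr (Or.inl rfl))),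
    xNum_vIdx I x (hm _ (Or.inr (Or.inr rfl))), xNum_last]
  exact eqn_zmod' _ _ _ _

theorem hon_mainBad (φ : K →+ ZMod 2) (θ : K) (x : ℕ → Bool) (hd : 2 * m * (H - 1) ≤ q - 2) (h4 : 4 ≤ q) :
    mainBad K (Z.hon hH I φ θ x) = 0 := by
  refine honest_mainBad (Z.eta hH) (Z.eta_inj hH) φ θ _ ?_ ?_
  · rw [Z.card_K]; exact h4
  · rw [Z.card_K, Fintype.card_fin]; exact hd

theorem hon_realBad (φ : K →+ ZMod 2) (θ : K) (hθ : φ θ = 1) (x : ℕ → Bool)
    (hd : 2 * m * (H - 1) ≤ q - 2) (e : Eqn) (he : e ∈ I) :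
    realBad (Z.hon hH I φ θ x) (Z.eqX hH I hn e) (Z.c4 h4) ((e.2.toNat : ℕ) : ZMod 2) =
      (q ^ (m + 1)) ^ 3 * (if ((xor (x e.1.1) (xor (x e.1.2.1) (x e.1.2.2))) != e.2) = true
        then 1 else 0) := by
  have h1 : ∀ t : (Fin (m + 1) → K) × (Fin (m + 1) → K) × (Fin (m + 1) → K),
      ∑ i, Z.hon hH I φ θ x (rpos (Z.eqX hH I hn e) (Z.c4 h4) t i) =
      ∑ j, Z.hon hH I φ θ x (Z.eqX hH I hn e j) := by
    intro t
    refine honest_real (Z.eta hH) (Z.eta_inj hH) φ θ _ ?_ ?_ _ _ _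
    · rw [Z.card_K]; exact h4
    · rw [Z.card_K, Fintype.card_fin]; exact hd
  rw [realBad]
  simp only [h1]
  have hiff := hon_eq_iff Z hH I hn φ θ hθ x e he
  by_cases h : ((xor (x e.1.1) (xor (x e.1.2.1) (x e.1.2.2))) != e.2) = true
  · have h' := hiff.2 h
    rw [if_pos h, filter_true_of_mem fun _ _ => h', card_univ, Fintype.card_prod,
      Fintype.card_prod, Z.card_X]
    ring
  · have h' : ¬ _ := mt hiff.1 h
    rw [if_neg h, filter_false_of_mem fun _ _ => h', card_empty, mul_zero]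

/-- The side of the honest cut. -/
noncomputable def Space.honS0 (φ : K →+ ZMod 2) (θ : K) (x : ℕ → Bool) (v : ℕ) : Bool :=
  if h : v < q ^ (m + 1) then decide (Z.hon hH I φ θ x (Z.idx.symm ⟨v, h⟩) = 1) else false

/-- The honest cut, from its restriction to the points. -/
def extS (q P m H : ℕ) (I : List Eqn) (S0 : ℕ → Bool) (v : ℕ) : Bool :=
  if v < 3 * q ^ (m + 1) * lN q (q ^ (m + 1)) I.length then
    (if v % (3 * q ^ (m + 1)) < q ^ (m + 1) then S0 (v % (3 * q ^ (m + 1)))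
      else decide (v % (3 * q ^ (m + 1)) < 2 * q ^ (m + 1)))
  else if v - 3 * q ^ (m + 1) * lN q (q ^ (m + 1)) I.length < (q ^ (m + 1)) ^ 3 * (q + 1) then
    decide ((v - 3 * q ^ (m + 1) * lN q (q ^ (m + 1)) I.length) % (q + 1) ≤
      (mainPos q P (m + 1) ((v - 3 * q ^ (m + 1) * lN q (q ^ (m + 1)) I.length) / (q + 1))).countP S0)
  else decide ((v - 3 * q ^ (m + 1) * lN q (q ^ (m + 1)) I.length - (q ^ (m + 1)) ^ 3 * (q + 1)) %
      (w2N q + 1) ≤ (realPos q P (m + 1) (eqPts q H m I (I.getD ((v - 3 * q ^ (m + 1) *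
        lN q (q ^ (m + 1)) I.length - (q ^ (m + 1)) ^ 3 * (q + 1)) / (w2N q + 1) /
          (q ^ (m + 1)) ^ 3) dEqn)) ((v - 3 * q ^ (m + 1) * lN q (q ^ (m + 1)) I.length -
            (q ^ (m + 1)) ^ 3 * (q + 1)) / (w2N q + 1) % (q ^ (m + 1)) ^ 3)).countP S0)

theorem extS_pt (S0 : ℕ → Bool) (hL : 1 ≤ lN q (q ^ (m + 1)) I.length) (v : ℕ)
    (hv : v < q ^ (m + 1)) : extS q P m H I S0 v = S0 v := by
  have h1 : v < 3 * q ^ (m + 1) * lN q (q ^ (m + 1)) I.length := by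
    calc v < 3 * q ^ (m + 1) * 1 := by omega
      _ ≤ _ := Nat.mul_le_mul_left _ hL
  have h2 : v % (3 * q ^ (m + 1)) = v := Nat.mod_eq_of_lt (by omega)
  rw [extS, if_pos h1, h2, if_pos hv]

theorem extS_unit (S0 : ℕ → Bool) (u j : ℕ) (hu : u < 3 * q ^ (m + 1))
    (hj : j < lN q (q ^ (m + 1)) I.length) : extS q P m H I S0 (u + 3 * q ^ (m + 1) * j) =
      if u < q ^ (m + 1) then S0 u else decide (u < 2 * q ^ (m + 1)) := by
  have h1 : u + 3 * q ^ (m + 1) * j < 3 * q ^ (m + 1) * lN q (q ^ (m + 1)) I.length := by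
    calc u + 3 * q ^ (m + 1) * j < 3 * q ^ (m + 1) + 3 * q ^ (m + 1) * j := by omega
      _ = 3 * q ^ (m + 1) * (j + 1) := by ring
      _ ≤ _ := Nat.mul_le_mul_left _ hj
  have h2 : (u + 3 * q ^ (m + 1) * j) % (3 * q ^ (m + 1)) = u := by
    rw [Nat.add_mul_mod_self_left, Nat.mod_eq_of_lt hu]
  rw [extS, if_pos h1, h2]

theorem extS_unif (S0 : ℕ → Bool) (hL : 1 ≤ lN q (q ^ (m + 1)) I.length) :
    Unif (q ^ (m + 1)) (lN q (q ^ (m + 1)) I.length) (extS q P m H I S0) := by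
  have key : ∀ u < 3 * q ^ (m + 1), extS q P m H I S0 u =
      if u < q ^ (m + 1) then S0 u else decide (u < 2 * q ^ (m + 1)) := by
    intro u hu
    have := extS_unit (P := P) (H := H) I S0 u 0 hu hL
    rwa [mul_zero, add_zero] at this
  refine ⟨?_, ?_, ?_⟩
  · intro u hu j hj
    rw [extS_unit I S0 u j hu hj, key u hu]
  · intro i hi
    rw [key _ (by omega), key _ (by omega), if_neg (by omega), if_neg (by omega)]
    rw [decide_eq_decide]
    omega
  · intro i hi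
    rw [key _ (by omega), key _ (by omega), if_neg (by omega), if_neg (by omega)]
    rw [decide_eq_decide]
    omega

theorem extS_hub1 (S0 : ℕ → Bool) (hL : 1 ≤ lN q (q ^ (m + 1)) I.length) (hq : 1 ≤ q) :
    extS q P m H I S0 (q ^ (m + 1)) = true := by
  have hQ : 1 ≤ q ^ (m + 1) := Nat.one_le_pow _ _ hq
  have := extS_unit (P := P) (H := H) I S0 (q ^ (m + 1)) 0 (by omega) hL
  rw [mul_zero, add_zero] at this
  rw [this, if_neg (lt_irrefl _)]
  exact decide_eq_true (by omega)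

theorem extS_hub2 (S0 : ℕ → Bool) (hL : 1 ≤ lN q (q ^ (m + 1)) I.length) (hq : 1 ≤ q) :
    extS q P m H I S0 (2 * q ^ (m + 1)) = false := by
  have hQ : 1 ≤ q ^ (m + 1) := Nat.one_le_pow _ _ hq
  have := extS_unit (P := P) (H := H) I S0 (2 * q ^ (m + 1)) 0 (by omega) hL
  rw [mul_zero, add_zero] at this
  rw [this, if_neg (by omega)]
  exact decide_eq_false (lt_irrefl _)

theorem countP_congr_lt {l : List ℕ} {S S' : ℕ → Bool} {B : ℕ} (h : ∀ p ∈ l, p < B)
    (h' : ∀ p < B, S p = S' p) : l.countP S = l.countP S' := by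
  refine List.countP_congr fun p hp => ?_
  rw [h' p (h p hp)]

theorem ptN_lt {M : ℕ} (Z : Space q P M K) (y h g : Fin (q ^ M)) (u : Fin q) :
    ptN q P M y h g u < q ^ M := by
  have := Z.idx_pt (Z.idx.symm y) (Z.idx.symm h) (Z.idx.symm g) (Z.e.symm u)
  rw [Equiv.apply_symm_apply, Equiv.apply_symm_apply, Equiv.apply_symm_apply,
    Equiv.apply_symm_apply] at this
  rw [← this]
  exact Fin.is_lt _

theorem mainPos_lt {M : ℕ} (Z : Space q P M K) (t : ℕ) (ht : t < (q ^ M) ^ 3) :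
    ∀ p ∈ mainPos q P M t, p < q ^ M := by
  intro p hp
  have hQ : 0 < q ^ M := Nat.pos_of_ne_zero fun h => by rw [h] at ht; simp at ht
  rw [mainPos, List.mem_map] at hp
  obtain ⟨u, hu, rfl⟩ := hp
  rw [List.mem_range] at hu
  have h3 : t / q ^ M / q ^ M < q ^ M := by
    rw [Nat.div_lt_iff_lt_mul hQ, Nat.div_lt_iff_lt_mul hQ]
    calc t < _ := ht
      _ = _ := by ring
  exact ptN_lt Z ⟨_, Nat.mod_lt _ hQ⟩ ⟨_, Nat.mod_lt _ hQ⟩ ⟨_, h3⟩ ⟨u, hu⟩

include Z h4 hH hn in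
theorem realPos_lt (e : Eqn) (t : ℕ) (ht : t < (q ^ (m + 1)) ^ 3) :
    ∀ p ∈ realPos q P (m + 1) (eqPts q H m I e) t, p < q ^ (m + 1) := by
  intro p hp
  have hQ : 0 < q ^ (m + 1) := Nat.pos_of_ne_zero fun h => by rw [h] at ht; simp at ht
  rw [realPos, List.mem_flatMap] at hp
  obtain ⟨j, hj, hp⟩ := hp
  rw [List.mem_map] at hp
  obtain ⟨u, hu, rfl⟩ := hp
  rw [List.mem_range] at hu hj
  have h3 : t / q ^ (m + 1) / q ^ (m + 1) < q ^ (m + 1) := by
    rw [Nat.div_lt_iff_lt_mul hQ, Nat.div_lt_iff_lt_mul hQ]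
    calc t < _ := ht
      _ = _ := by ring
  have h5 := Z.eqX_idx hH I hn e ⟨j, hj⟩
  dsimp only at h5
  rw [h5]
  have h6 := Z.idx_add (Z.idx.symm ⟨t % q ^ (m + 1), Nat.mod_lt _ hQ⟩)
    (Z.idx.symm ⟨t / q ^ (m + 1) / q ^ (m + 1), h3⟩) (Z.e.symm ⟨j, by omega⟩)
  rw [Equiv.apply_symm_apply, Equiv.apply_symm_apply, Equiv.apply_symm_apply] at h6
  dsimp only at h6
  rw [← h6]
  exact ptN_lt Z _ _ ⟨_, Nat.mod_lt _ hQ⟩ ⟨u + 1, by omega⟩

include Z h4 hH hn in
theorem extS_good (S0 : ℕ → Bool) (hL : 1 ≤ lN q (q ^ (m + 1)) I.length) :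
    Good q P m H I (extS q P m H I S0) := by
  have hpt : ∀ p < q ^ (m + 1), extS q P m H I S0 p = S0 p :=
    fun p hp => extS_pt I S0 hL p hp
  constructor
  · intro t ht κ hκ
    rw [countP_congr_lt (mainPos_lt Z t ht) hpt, extS, if_neg (by omega)]
    have h1 : 3 * q ^ (m + 1) * lN q (q ^ (m + 1)) I.length + t * (q + 1) + κ -
        3 * q ^ (m + 1) * lN q (q ^ (m + 1)) I.length = κ + (q + 1) * t := by
      have : t * (q + 1) = (q + 1) * t := mul_comm _ _
      omega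
    have h2 : κ + (q + 1) * t < (q ^ (m + 1)) ^ 3 * (q + 1) := by
      calc κ + (q + 1) * t < (q + 1) * (t + 1) := by rw [mul_add, mul_one]; omega
        _ ≤ (q + 1) * (q ^ (m + 1)) ^ 3 := Nat.mul_le_mul_left _ ht
        _ = _ := mul_comm _ _
    have h3 : (κ + (q + 1) * t) % (q + 1) = κ := by
      rw [Nat.add_mul_mod_self_left, Nat.mod_eq_of_lt (by omega)]
    have h5 : (κ + (q + 1) * t) / (q + 1) = t := by
      rw [Nat.add_mul_div_left _ _ (by omega), Nat.div_eq_of_lt (by omega), zero_add]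
    rw [h1, if_pos h2, h3, h5]
  · intro i hi t ht κ hκ
    rw [countP_congr_lt (realPos_lt Z h4 hH I hn _ t ht) hpt, extS, if_neg (by omega)]
    have h1 : 3 * q ^ (m + 1) * lN q (q ^ (m + 1)) I.length + (q ^ (m + 1)) ^ 3 * (q + 1) +
        (i * (q ^ (m + 1)) ^ 3 + t) * (w2N q + 1) + κ -
        3 * q ^ (m + 1) * lN q (q ^ (m + 1)) I.length = (q ^ (m + 1)) ^ 3 * (q + 1) +
        (κ + (w2N q + 1) * (i * (q ^ (m + 1)) ^ 3 + t)) := by
      have : (i * (q ^ (m + 1)) ^ 3 + t) * (w2N q + 1) =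
        (w2N q + 1) * (i * (q ^ (m + 1)) ^ 3 + t) := mul_comm _ _
      omega
    rw [h1, if_neg (by omega)]
    rw [Nat.add_sub_cancel_left]
    have h3 : (κ + (w2N q + 1) * (i * (q ^ (m + 1)) ^ 3 + t)) % (w2N q + 1) = κ := by
      rw [Nat.add_mul_mod_self_left, Nat.mod_eq_of_lt (by omega)]
    have h5 : (κ + (w2N q + 1) * (i * (q ^ (m + 1)) ^ 3 + t)) / (w2N q + 1) =
        i * (q ^ (m + 1)) ^ 3 + t := by
      rw [Nat.add_mul_div_left _ _ (by omega), Nat.div_eq_of_lt (by omega), zero_add]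
    have hpos : 0 < (q ^ (m + 1)) ^ 3 := by omega
    have h6 : (i * (q ^ (m + 1)) ^ 3 + t) / (q ^ (m + 1)) ^ 3 = i := by
      rw [add_comm, Nat.add_mul_div_right _ _ hpos, Nat.div_eq_of_lt ht, zero_add]
    have h7 : (i * (q ^ (m + 1)) ^ 3 + t) % (q ^ (m + 1)) ^ 3 = t := by
      rw [add_comm, Nat.add_mul_mod_self_right, Nat.mod_eq_of_lt ht]
    rw [h3, h5, h6, h7]

/-- **Completeness**, for the cut. -/
theorem exists_honest (hd : 2 * m * (H - 1) ≤ q - 2) (φ : K →+ ZMod 2) (θ : K) (hθ : φ θ = 1)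
    (hL : 1 ≤ lN q (q ^ (m + 1)) I.length) (x : ℕ → Bool) :
    ∃ S : ℕ → Bool, S (q ^ (m + 1)) = true ∧ S (2 * q ^ (m + 1)) = false ∧
      Unif (q ^ (m + 1)) (lN q (q ^ (m + 1)) I.length) S ∧ Good q P m H I S ∧
      cnt (Z.side S) = cnt (fun p => !Z.side S p) ∧
      Z.viol h4 hH I hn S = (q ^ (m + 1)) ^ 3 * violated x I := by
  set S := extS q P m H I (Z.honS0 hH I φ θ x) with hS
  have hside : ∀ p, Z.side S p = decide (Z.hon hH I φ θ x p = 1) := by
    intro p
    rw [Space.side, hS, extS_pt I _ hL _ (Z.idx p).2, Space.honS0, dif_pos (Z.idx p).2]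
    congr
    exact Z.idx.symm_apply_apply p
  have htau : tau (Z.side S) = Z.hon hH I φ θ x := by
    funext p
    rw [tau, hside]
    have : ∀ z : ZMod 2, (if decide (z = 1) = true then (1 : ZMod 2) else 0) = z := by decide
    exact this _
  refine ⟨S, extS_hub1 I _ hL (by omega), extS_hub2 I _ hL (by omega), extS_unif I _ hL,
    extS_good Z h4 hH I hn _ hL, ?_, ?_⟩
  · have h1 : Z.side S = fun p => decide (Z.hon hH I φ θ x p = 1) := funext hside
    rw [h1]
    exact honest_balanced (Z.eta hH) φ θ hθ _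
  · rw [Space.viol, htau, hon_mainBad Z hH I φ θ x hd h4, mul_zero, zero_add, violated,
      countP_eq_sum, ← sum_getD I dEqn, mul_sum]
    refine sum_congr rfl fun i hi => ?_
    rw [mem_range] at hi
    rw [Space.rBad, htau]
    refine hon_realBad Z h4 hH I hn φ θ hθ x hd _ ?_
    rw [List.getD_eq_getElem _ _ hi]
    exact List.getElem_mem _

end

end Vale.Agent.P318.NPH
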