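import Vale.Agent.P318.NPH.Viol
import Vale.Agent.P318.NPH.Ineq

/-!
The gap for the weighted graph.
-/

set_option linter.unusedSectionVars false

namespace Vale.Agent.P318.NPH

open Finset Vale.Agent.P333

section nums

variable {q Q : ℕ} {I : List Eqn}

theorem dN0_le (h4 : 4 ≤ q) : dN q 0 ≤ 2 * q ^ 2 := by
  rw [dN, if_pos rfl]
  have h1 : 3 * q * q / 2 ≤ 3 * q * q / 2 := le_rfl
  have h2 : 2 * (3 * q * q / 2) ≤ 3 * q * q := Nat.mul_div_le _ _
  have h3 : 4 * q ≤ q * q := Nat.mul_le_mul_right q h4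
  nlinarith

theorem dN2_le (h4 : 4 ≤ q) (b : ℕ) : dN (w2N q) b ≤ 26 * q ^ 2 := by
  have hw : w2N q ≤ 4 * q := by rw [w2N]; omega
  have h0 : dN (w2N q) b ≤ 3 * w2N q * w2N q / 2 + 2 * w2N q := by
    rw [dN]
    split_ifs
    · exact le_rfl
    · omega
  have h2 : 2 * (3 * w2N q * w2N q / 2) ≤ 3 * w2N q * w2N q := Nat.mul_div_le _ _
  have h3 : 3 * w2N q * w2N q ≤ 3 * (4 * q) * (4 * q) := by gcongr
  have h5 : 4 * q ≤ q * q := Nat.mul_le_mul_right q h4
  nlinarith

theorem constN_le (h4 : 4 ≤ q) : constN q Q I ≤ 23 * q ^ 3 * (I.length * Q ^ 3) := by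
  rw [constN]
  have h1 := dN0_le h4
  have h2 : (I.map fun e => dN (w2N q) e.2.toNat).sum ≤ I.length * (26 * q ^ 2) := by
    have := List.sum_le_card_nsmul (I.map fun e => dN (w2N q) e.2.toNat) (26 * q ^ 2) (by
      intro x hx
      obtain ⟨e, _, rfl⟩ := List.mem_map.1 hx
      exact dN2_le h4 _)
    rwa [List.length_map, smul_eq_mul] at this
  have h3 : muN q I.length * Q ^ 3 * dN q 0 ≤ 8 * q * I.length * Q ^ 3 * (2 * q ^ 2) := by
    rw [muN]; gcongr
  have h5 : Q ^ 3 * (I.map fun e => dN (w2N q) e.2.toNat).sum ≤ Q ^ 3 * (I.length * (26 * q ^ 2)) := by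
    gcongr
  have h6 : 4 * q ^ 2 ≤ q ^ 3 := by
    calc 4 * q ^ 2 ≤ q * q ^ 2 := by gcongr
      _ = q ^ 3 := by ring
  have h7 : (I.length * Q ^ 3) * (4 * q ^ 2) ≤ (I.length * Q ^ 3) * q ^ 3 := by gcongr
  calc muN q I.length * Q ^ 3 * dN q 0 + Q ^ 3 * (I.map fun e => dN (w2N q) e.2.toNat).sum
      ≤ 8 * q * I.length * Q ^ 3 * (2 * q ^ 2) + Q ^ 3 * (I.length * (26 * q ^ 2)) :=
        add_le_add h3 h5
    _ ≤ 16 * (I.length * Q ^ 3 * q ^ 3) + 7 * ((I.length * Q ^ 3) * (4 * q ^ 2)) := by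
        have : 0 ≤ I.length * Q ^ 3 * q ^ 2 := Nat.zero_le _
        nlinarith
    _ ≤ 16 * (I.length * Q ^ 3 * q ^ 3) + 7 * ((I.length * Q ^ 3) * q ^ 3) := by omega
    _ = _ := by ring

theorem bN_pos (h4 : 4 ≤ q) (hQ : 1 ≤ Q) (hl : 1 ≤ I.length) : 1 ≤ bN q Q I.length := by
  rw [bN, muN]
  have : 1 ≤ 8 * q * I.length * (q * (q - 1)) := by
    have h1 : 1 ≤ q * (q - 1) := Nat.mul_pos (by omega) (by omega)
    have h2 : 1 ≤ 8 * q * I.length := Nat.mul_pos (by omega) hl
    exact Nat.mul_pos h2 h1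
  exact Nat.mul_pos hQ (by omega)

theorem aN_pos (h4 : 4 ≤ q) (hQ : 1 ≤ Q) (hl : 1 ≤ I.length) : 1 ≤ aN q Q I.length := by
  rw [aN]
  exact Nat.mul_pos (Nat.mul_pos (by omega) (bN_pos h4 hQ hl)) hQ

theorem stN_pos (hQ : 1 ≤ Q) : 1 ≤ stN q Q I.length := by
  rw [stN]
  have : 1 ≤ Q ^ 3 * (q + 1) := Nat.mul_pos (Nat.pow_pos hQ) (by omega)
  omega

theorem lN_pos (h4 : 4 ≤ q) (hQ : 1 ≤ Q) (hl : 1 ≤ I.length) : 1 ≤ lN q Q I.length := by
  rw [lN]
  exact Nat.mul_pos (Nat.mul_pos (Nat.mul_pos (by norm_num) (Nat.pow_pos (by omega)))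
    (stN_pos hQ)) (aN_pos h4 hQ hl)

theorem bN_hi (h4 : 4 ≤ q) : bN q Q I.length * Q ^ 2 ≤ 10 * q ^ 3 * (I.length * Q ^ 3) := by
  obtain ⟨r, rfl⟩ : ∃ r, q = r + 1 := ⟨q - 1, by omega⟩
  rw [bN, muN, w2N, Nat.add_sub_cancel]
  have h1 : 4 * r * (4 * r - 1) ≤ 4 * r * (4 * r) := Nat.mul_le_mul_left _ (Nat.sub_le _ _)
  have h2 : 8 * (r + 1) * ((r + 1) * r) + 4 * r * (4 * r) ≤ 10 * (r + 1) ^ 3 := by
    have : 3 ≤ r := by omega
    nlinarith [sq_nonneg r, mul_le_mul this this (by norm_num) (by omega : 0 ≤ r)]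
  calc Q * (8 * (r + 1) * I.length * ((r + 1) * r) + I.length * (4 * r * (4 * r - 1))) * Q ^ 2
      ≤ Q * (8 * (r + 1) * I.length * ((r + 1) * r) + I.length * (4 * r * (4 * r))) * Q ^ 2 := by
        gcongr
    _ = (8 * (r + 1) * ((r + 1) * r) + 4 * r * (4 * r)) * (I.length * Q ^ 3) := by ring
    _ ≤ _ := Nat.mul_le_mul_right _ h2

theorem bN_lo (h4 : 4 ≤ q) : 6 * q ^ 3 * (I.length * Q ^ 3) ≤ bN q Q I.length * Q ^ 2 := by
  obtain ⟨r, rfl⟩ : ∃ r, q = r + 1 := ⟨q - 1, by omega⟩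
  rw [bN, muN, w2N, Nat.add_sub_cancel]
  have h2 : 6 * (r + 1) ^ 3 ≤ 8 * (r + 1) * ((r + 1) * r) := by
    have : 3 ≤ r := by omega
    nlinarith [sq_nonneg r]
  calc 6 * (r + 1) ^ 3 * (I.length * Q ^ 3) ≤ 8 * (r + 1) * ((r + 1) * r) * (I.length * Q ^ 3) :=
        Nat.mul_le_mul_right _ h2
    _ = Q * (8 * (r + 1) * I.length * ((r + 1) * r)) * Q ^ 2 := by ring
    _ ≤ _ := by gcongr; exact Nat.le_add_right _ _

theorem nums (h4 : 4 ≤ q) (hQ : 1 ≤ Q) (hl : 1 ≤ I.length) :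
    Nums (q : ℝ) Q (lN q Q I.length : ℕ) (aN q Q I.length : ℕ) (bN q Q I.length : ℕ)
      (constN q Q I : ℕ) (I.length * Q ^ 3 : ℕ) (stN q Q I.length : ℕ) (numN q Q I : ℕ) where
  q4 := by exact_mod_cast h4
  Q1 := by exact_mod_cast hQ
  b0 := Nat.cast_nonneg _
  U0 := Nat.cast_nonneg _
  C0 := Nat.cast_nonneg _
  St0 := Nat.cast_nonneg _
  a1 := by exact_mod_cast aN_pos h4 hQ hl
  ha := by rw [aN]; push_cast; ring
  lo := by exact_mod_cast bN_lo (Q := Q) (I := I) h4
  hi := by exact_mod_cast bN_hi (Q := Q) (I := I) h4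
  hC := by exact_mod_cast constN_le (Q := Q) (I := I) h4
  hL := by
    have h1 : 10 ^ 4 * q ^ 3 * stN q Q I.length ≤ lN q Q I.length := by
      rw [lN]; exact Nat.le_mul_of_pos_right _ (aN_pos h4 hQ hl)
    exact_mod_cast h1
  hLa := by
    have h1 : 10 ^ 4 * aN q Q I.length ≤ lN q Q I.length := by
      rw [lN]
      have h2 : 10 ^ 4 * 1 ≤ 10 ^ 4 * (q ^ 3 * stN q Q I.length) :=
        Nat.mul_le_mul_left _ (Nat.mul_pos (Nat.pow_pos (by omega)) (stN_pos hQ))
      calc 10 ^ 4 * aN q Q I.length = 10 ^ 4 * 1 * aN q Q I.length := by ring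
        _ ≤ 10 ^ 4 * (q ^ 3 * stN q Q I.length) * aN q Q I.length := Nat.mul_le_mul_right _ h2
        _ = _ := by ring
    exact_mod_cast h1
  hnum := by rw [numN]; push_cast; ring

end nums

section

variable {q P m H : ℕ} {K : Type} [Field K] [Fintype K] [DecidableEq K]
  (Z : Space q P (m + 1) K)
  (h4 : 4 ≤ q) (hq2 : q % 2 = 0) (hH : H ≤ q) (I : List Eqn)
  (hn : 3 * I.length < H ^ m) (hl : 1 ≤ I.length) (S : ℕ → Bool)

theorem nN_eq (Q : ℕ) : nN q Q I.length = 3 * Q * lN q Q I.length + stN q Q I.length := rfl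

include Z h4 hq2 hH hn hl in
/-- **The gap, completeness**: there is a cut of small ratio. -/
theorem weighted_yes (hd : 2 * m * (H - 1) ≤ q - 2) (φ : K →+ ZMod 2) (θ : K) (hθ : φ θ = 1)
    (hV : 8 * minViolated I ≤ I.length) :
    ∃ S : ℕ → Bool, 0 < cntN S 0 (nN q (q ^ (m + 1)) I.length) ∧
      cntN S 0 (nN q (q ^ (m + 1)) I.length) < nN q (q ^ (m + 1)) I.length ∧
      cutE (allE q P (m + 1) H m I) S * denN q (q ^ (m + 1)) I.length ≤
        numN q (q ^ (m + 1)) I * (cntN S 0 (nN q (q ^ (m + 1)) I.length) *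
          (nN q (q ^ (m + 1)) I.length - cntN S 0 (nN q (q ^ (m + 1)) I.length))) := by
  have hQ : 1 ≤ q ^ (m + 1) := Nat.one_le_pow _ _ (by omega)
  obtain ⟨x, hx⟩ : ∃ x, violated x I = minViolated I := by
    have := Nat.sInf_mem (s := {n : ℕ | ∃ x : ℕ → Bool, violated x I = n})
      ⟨_, fun _ => false, rfl⟩
    exact this
  obtain ⟨S, hS1, hS2, hU, hG, hbal, hviol⟩ :=
    exists_honest Z h4 hH I hn hd φ θ hθ (lN_pos h4 hQ hl) x
  have hval := sep_eq Z h4 hq2 hH I hn S hS1 hS2 hU hG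
  set Q := q ^ (m + 1) with hQdef
  set N := nN q Q I.length with hN
  set L := lN q Q I.length with hL
  have hcount := hU.count
  rw [hS1, hS2, if_pos rfl, if_neg (by simp), add_zero] at hcount
  have hn1 : cnt (Z.side S) = cntN S 0 Q := cnt_side Z S
  have hsum := cnt_add (Z.side S)
  rw [Z.card_X, ← hQdef, ← hbal, hn1] at hsum
  have hLpos : 1 ≤ L := lN_pos h4 hQ hl
  have hc : cntN S 0 N = L * (cntN S 0 Q + Q) + cntN S (3 * Q * L) (stN q Q I.length) := by
    rw [hN, nN, cntN_add, hcount, zero_add]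
  have hz := cntN_le S (3 * Q * L) (stN q Q I.length)
  have hNN : N = 3 * Q * L + stN q Q I.length := rfl
  have hhalf : 2 * (L * (cntN S 0 Q + Q)) = 3 * Q * L := by
    rw [show 2 * (L * (cntN S 0 Q + Q)) = L * ((cntN S 0 Q + cntN S 0 Q) + 2 * Q) by ring, hsum]
    ring
  have hpos3 : 0 < 3 * Q * L := Nat.mul_pos (Nat.mul_pos (by norm_num) hQ) hLpos
  have h2c1 : 3 * Q * L ≤ 2 * cntN S 0 N := by rw [hc]; omega
  have h2c0 : 3 * Q * L ≤ 2 * (N - cntN S 0 N) := by rw [hc, hNN]; omega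
  refine ⟨S, by omega, by omega, ?_⟩
  set c1 := cntN S 0 N with hc1
  set c0 := N - cntN S 0 N with hc0
  set cut := cutE (allE q P (m + 1) H m I) S with hcut
  -- 16 cut ≤ num
  have h16 : 16 * cut ≤ numN q Q I := by
    have h1 : 16 * cut = 8 * Z.val h4 hH I hn S := by rw [← hval]; ring
    rw [h1, Space.val, hviol, hx, ← hbal, hn1, numN, ← hQdef]
    have h2 : 4 * (cntN S 0 Q * cntN S 0 Q) = Q ^ 2 := by
      calc 4 * (cntN S 0 Q * cntN S 0 Q) = (cntN S 0 Q + cntN S 0 Q) ^ 2 := by ring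
        _ = Q ^ 2 := by rw [hsum]
    have h3 : 8 * (bN q Q I.length * (cntN S 0 Q * cntN S 0 Q)) = 2 * bN q Q I.length * Q ^ 2 := by
      rw [← h2]; ring
    have h5 : 8 * (Q ^ 3 * minViolated I) ≤ I.length * Q ^ 3 := by
      calc 8 * (Q ^ 3 * minViolated I) = 8 * minViolated I * Q ^ 3 := by ring
        _ ≤ _ := Nat.mul_le_mul_right _ hV
    have h6 : 8 * (2 * (aN q Q I.length * Q)) = 16 * aN q Q I.length * Q := by ring
    omega
  have hprod : 9 * Q ^ 2 * L ^ 2 ≤ 4 * (c1 * c0) := by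
    calc 9 * Q ^ 2 * L ^ 2 = (3 * Q * L) * (3 * Q * L) := by ring
      _ ≤ (2 * c1) * (2 * c0) := Nat.mul_le_mul h2c1 h2c0
      _ = 4 * (c1 * c0) := by ring
  rw [denN, ← hL]
  have h7 : 4 * (cut * (36 * Q ^ 2 * L ^ 2)) ≤ 4 * (numN q Q I * (c1 * c0)) := by
    calc 4 * (cut * (36 * Q ^ 2 * L ^ 2)) = (16 * cut) * (9 * Q ^ 2 * L ^ 2) := by ring
      _ ≤ numN q Q I * (4 * (c1 * c0)) := Nat.mul_le_mul h16 hprod
      _ = 4 * (numN q Q I * (c1 * c0)) := by ring
  omega

include Z h4 hq2 hH hn hl in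
/-- The gap, soundness, for the cuts which contain the second hub on the side `false`. -/
theorem weighted_no_aux (hV : 3 * I.length ≤ 8 * minViolated I)
    (hS2 : S (2 * q ^ (m + 1)) = false) :
    (2000 * (q : ℝ) ^ 3 + 1) * (numN q (q ^ (m + 1)) I : ℕ) *
      ((cntN S 0 (nN q (q ^ (m + 1)) I.length) : ℝ) *
        (cntN (fun v => !S v) 0 (nN q (q ^ (m + 1)) I.length) : ℝ)) ≤
      (cutE (allE q P (m + 1) H m I) S : ℝ) * (36 * ((q ^ (m + 1) : ℕ) : ℝ) ^ 2 *
        (lN q (q ^ (m + 1)) I.length : ℝ) ^ 2) * (2000 * (q : ℝ) ^ 3) := by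
  have hQ : 1 ≤ q ^ (m + 1) := Nat.one_le_pow _ _ (by omega)
  have hnums := nums (q := q) (Q := q ^ (m + 1)) (I := I) h4 hQ hl
  have hsame := fun h1 => same_ge (P := P) (m := m) (H := H) I S h4 hl h1 hS2
  have hsep := fun h1 => sep_ge Z h4 hq2 hH I hn S h1 hS2
  have hviol := viol_ge Z h4 hH I hn S
  set Q := q ^ (m + 1) with hQdef
  set N := nN q Q I.length with hN
  set L := lN q Q I.length with hL
  set St := stN q Q I.length with hSt
  set cut := cutE (allE q P (m + 1) H m I) S with hcut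
  have hNN : N = 3 * Q * L + St := rfl
  have hnot := cntN_not S 0 N
  by_cases hbig : cutE (clusterE Q L (bigN q Q I.length)) S < bigN q Q I.length
  · -- uniform on the clusters
    have hU := cluster_unif hbig
    have hcount := hU.count
    have hc : cntN S 0 N = cntN S 0 (3 * Q * L) + cntN S (3 * Q * L) St := by
      rw [hNN, cntN_add, zero_add]
    have hz := cntN_not S (3 * Q * L) St
    rw [hS2] at hcount
    simp only [Bool.false_eq_true, if_false, add_zero] at hcount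
    by_cases hS1 : S Q = true
    · rw [if_pos hS1] at hcount
      have h1 := hsep hS1
      have hn1 : cnt (Z.side S) = cntN S 0 Q := cnt_side Z S
      have hn0 : cnt (fun p => !Z.side S p) = cntN (fun v => !S v) 0 Q :=
        cnt_side Z (fun v => !S v)
      have hsum := cntN_not S 0 Q
      set n1 := cntN S 0 Q with hn1'
      set n0 := cntN (fun v => !S v) 0 Q with hn0'
      have hc0 : cntN (fun v => !S v) 0 N = L * (Q + n0) + cntN (fun v => !S v) (3 * Q * L) St := by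
        have e1 : L * (n1 + Q) + L * (Q + n0) = 3 * Q * L := by
          calc L * (n1 + Q) + L * (Q + n0) = L * ((n1 + n0) + 2 * Q) := by ring
            _ = 3 * Q * L := by rw [hsum]; ring
        omega
      have hc1 : cntN S 0 N = L * (Q + n1) + cntN S (3 * Q * L) St := by
        rw [hc, hcount, add_comm n1 Q]
      rw [hc1, hc0]
      push_cast
      have key := hnums.case3 (n1 := n1) (n0 := n0) (z1 := cntN S (3 * Q * L) St)
        (z0 := cntN (fun v => !S v) (3 * Q * L) St) (cut := cut) (Nat.cast_nonneg _)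
        (Nat.cast_nonneg _) (by exact_mod_cast hsum) (Nat.cast_nonneg _) (Nat.cast_nonneg _)
        (by exact_mod_cast hz) (by
          have h2 : 16 * aN q Q I.length * Q + 8 * bN q Q I.length * (n1 * n0) +
              8 * constN q Q I + 3 * (I.length * Q ^ 3) ≤ 16 * cut := by
            have h3 : 8 * Z.val h4 hH I hn S ≤ 16 * cut := by omega
            refine le_trans ?_ h3
            rw [Space.val, hn1, hn0, ← hQdef]
            have h5 : 3 * (I.length * Q ^ 3) ≤ 8 * (Q ^ 3 * minViolated I) := by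
              calc 3 * (I.length * Q ^ 3) = Q ^ 3 * (3 * I.length) := by ring
                _ ≤ Q ^ 3 * (8 * minViolated I) := Nat.mul_le_mul_left _ hV
                _ = _ := by ring
            have h6 : 8 * (2 * (aN q Q I.length * Q)) = 16 * aN q Q I.length * Q := by ring
            have h7 : 8 * (bN q Q I.length * (n1 * n0)) = 8 * bN q Q I.length * (n1 * n0) := by
              ring
            omega
          exact_mod_cast h2)
      push_cast at key
      exact key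
    · rw [if_neg hS1, add_zero] at hcount
      have hS1' : S Q = false := by simpa using hS1
      have h1 := hsame hS1'
      have key := hnums.case2 (n1 := cntN S 0 Q) (z1 := cntN S (3 * Q * L) St)
        (c0 := cntN (fun v => !S v) 0 N) (cut := cut) (Nat.cast_nonneg _) (Nat.cast_nonneg _)
        (Nat.cast_nonneg _) (by
          have h2 : cntN (fun v => !S v) 0 N ≤ 3 * (Q * L) + St := by
            have : 3 * Q * L = 3 * (Q * L) := by ring
            omega
          exact_mod_cast h2) (by exact_mod_cast h1)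
      rw [hc, hcount]
      push_cast
      push_cast at key
      exact key
  · have h1 : 4 * aN q Q I.length * Q ≤ cut := by
      rw [bigN] at hbig
      push Not at hbig
      refine hbig.trans ?_
      rw [hcut, allE, cutE_append, cutE_append, cutE_append, ← hQdef, ← hL, bigN]
      omega
    have key := hnums.case1 (c1 := cntN S 0 N) (c0 := cntN (fun v => !S v) 0 N) (cut := cut)
      (Nat.cast_nonneg _) (Nat.cast_nonneg _) (by
        have h2 : cntN S 0 N + cntN (fun v => !S v) 0 N = 3 * (Q * L) + St := by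
          rw [hnot, hNN]; ring
        exact_mod_cast h2) (by exact_mod_cast h1)
    push_cast at key
    push_cast
    exact key

include Z h4 hq2 hH hn hl in
/-- **The gap, soundness**: all cuts have a large ratio. -/
theorem weighted_no (hV : 3 * I.length ≤ 8 * minViolated I) :
    (2000 * q ^ 3 + 1) * numN q (q ^ (m + 1)) I *
      (cntN S 0 (nN q (q ^ (m + 1)) I.length) * (nN q (q ^ (m + 1)) I.length -
        cntN S 0 (nN q (q ^ (m + 1)) I.length))) ≤
      denN q (q ^ (m + 1)) I.length * (2000 * q ^ 3) * cutE (allE q P (m + 1) H m I) S := by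
  have key : ∀ S : ℕ → Bool, S (2 * q ^ (m + 1)) = false →
      (2000 * q ^ 3 + 1) * numN q (q ^ (m + 1)) I *
      (cntN S 0 (nN q (q ^ (m + 1)) I.length) *
        cntN (fun v => !S v) 0 (nN q (q ^ (m + 1)) I.length)) ≤
      denN q (q ^ (m + 1)) I.length * (2000 * q ^ 3) * cutE (allE q P (m + 1) H m I) S := by
    intro S hS
    have h1 := weighted_no_aux Z h4 hq2 hH I hn hl S hV hS
    have h2 : ((2000 * q ^ 3 + 1) * numN q (q ^ (m + 1)) I *
      (cntN S 0 (nN q (q ^ (m + 1)) I.length) *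
        cntN (fun v => !S v) 0 (nN q (q ^ (m + 1)) I.length)) : ℝ) ≤
      (denN q (q ^ (m + 1)) I.length : ℕ) * (2000 * q ^ 3) *
        cutE (allE q P (m + 1) H m I) S := by
      rw [denN]
      push_cast
      push_cast at h1
      linarith
    exact_mod_cast h2
  have hnot := cntN_not S 0 (nN q (q ^ (m + 1)) I.length)
  have h0 : nN q (q ^ (m + 1)) I.length - cntN S 0 (nN q (q ^ (m + 1)) I.length) =
      cntN (fun v => !S v) 0 (nN q (q ^ (m + 1)) I.length) := by omega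
  rw [h0]
  cases hS : S (2 * q ^ (m + 1))
  · exact key S hS
  · have h1 := key (fun v => !S v) (by rw [hS]; rfl)
    rw [cutE_not] at h1
    have h2 : (fun v => !!S v) = S := by funext v; simp
    rw [h2, mul_comm (cntN (fun v => !S v) 0 _)] at h1
    exact h1

end

end Vale.Agent.P318.NPH
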